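import Vale.Agent.P027M.I.Basic

/-!
# P027 route M, block I: codimension of `En`, prescribed values
-/

set_option linter.unusedSectionVars false

noncomputable section

open IntermediateField Vale.Agent.P019P P025H746 P025H492 Module

namespace Vale.Agent.P027M.I

namespace Cod0

variable {C : Type} [NontriviallyNormedField C] [IsUltrametricDist C] [IsAlgClosed C]
variable {F : Type} [Field F] [Algebra C F] {T : F} [FiniteDimensional C⟮T⟯ F]

theorem finrank_Pn (n : ℕ) : finrank (kC C) (Pn C T n) =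
    ∑ w : WW C T, finrank (kC C) (LL (kC C) (n • pol (kC C) (w.1.red T))) := by
  let φ : (Pn C T n) →ₗ[kC C] (∀ w : WW C T, LL (kC C) (n • pol (kC C) (w.1.red T))) :=
    LinearMap.pi fun w => LinearMap.codRestrict _ ((LinearMap.proj w).comp (Pn C T n).subtype)
      fun y => mem_Pn.1 y.2 w
  rw [← Module.finrank_pi_fintype]
  refine LinearEquiv.finrank_eq (LinearEquiv.ofBijective φ ⟨fun y z h => ?_, fun z => ?_⟩)
  · exact Subtype.ext (funext fun w => congrArg Subtype.val (congrFun h w))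
  · exact ⟨⟨fun w => (z w).1, mem_Pn.2 fun w => (z w).2⟩, rfl⟩

theorem one_place {k K : Type*} [Field k] [Field K] [Algebra k K] [CFF k K] {t : K}
    (ht : ∀ a : k, t ≠ algebraMap k K a) (S : Finset (Plk k K)) (x : Plk k K) (hx : t ∈ x.1)
    (hS : ∀ y ∈ S, t ∈ y.1) {n : ℕ} (hn : 2 * gen k K + S.card ≤ n) :
    ∃ z ∈ LL k (n • pol k t), vl x z = 1 ∧ ∀ y ∈ S, y ≠ x → vl y z = 0 := by
  classical
  obtain ⟨-, hfin⟩ := finite_of_notMem ht
  have hd : 0 < finrank k⟮t⟯ K := Module.finrank_pos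
  have hp : ∀ y : Plk k K, t ∈ y.1 → pol k t y = 0 := fun y hy => by
    have := ord_nonneg_of_mem y hy
    rw [pol_apply, max_eq_left (by omega)]
  let E : Plk k K →₀ ℤ := ∑ y ∈ S.erase x, Finsupp.single y 1
  have hE : ∀ y, E y = if y ∈ S.erase x then 1 else 0 := fun y => by
    simp only [E, Finsupp.finset_sum_apply, Finsupp.single_apply, Finset.sum_ite_eq']
  obtain ⟨z, hz0, hz, hzx⟩ := exists_exact (D := n • pol k t - E) x (by
    have h1 : dg E = (S.erase x).card := by simp [E, map_sum, dg_sgl]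
    have h2 : (S.erase x).card ≤ S.card := Finset.card_erase_le
    rw [map_sub, map_nsmul, dg_pol ht, h1, nsmul_eq_mul]
    have h3 : (n : ℤ) * 1 ≤ n * finrank k⟮t⟯ K :=
      mul_le_mul_of_nonneg_left (by exact_mod_cast hd) (Int.natCast_nonneg n)
    omega)
  have h0 : ord x z = 0 := by
    rw [hzx, Finsupp.sub_apply, Finsupp.smul_apply, hp x hx, hE]; simp
  have hzm : z ∈ x.1 := (mem_iff_ord _ _).2 (Or.inr h0.ge)
  have hv : vl x z ≠ 0 := fun h => by
    rcases mem_Mge.1 ((vl_eq_zero_iff hzm).1 h) with h1 | h1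
    · exact hz0 h1
    · omega
  refine ⟨(vl x z)⁻¹ • z, Submodule.smul_mem _ _ (mem_LL.2 (Or.inr fun y => ?_)),
    by rw [vl_smul' _ hzm, inv_mul_cancel₀ hv], fun y hy hyx => ?_⟩
  · have h1 := hz y
    rw [Finsupp.sub_apply, hE] at h1
    split_ifs at h1 <;> omega
  · have h1 := hz y
    rw [Finsupp.sub_apply, Finsupp.smul_apply, hp y (hS y hy), hE,
      if_pos (Finset.mem_erase.2 ⟨hyx, hy⟩)] at h1
    have h2 : z ∈ Mge y 1 := mem_Mge.2 (Or.inr (by simpa using h1))
    have h3 := mem_Mge0.1 (Mge_mono y (by omega) h2)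
    rw [vl_smul' _ h3, (vl_eq_zero_iff h3).2 h2, mul_zero]

theorem one_branch (S : Finset (Br C T)) (b : Br C T) : ∃ n₀ : ℕ, ∀ n, n₀ ≤ n →
    ∃ y ∈ Pn C T n, b.ev y = 1 ∧ ∀ b' ∈ S, b' ≠ b → b'.ev y = 0 := by
  classical
  obtain ⟨w, x, hx⟩ := b
  let ψ : Br C T → Plk (kC C) (kap w.1) := fun b' => if h : b'.w = w then h ▸ b'.x else x
  refine ⟨2 * gen (kC C) (kap w.1) + (S.image ψ).card, fun n hn => ?_⟩
  obtain ⟨z, hz, h1, h2⟩ := one_place (k := kC C) (NV.OverG.red_ne w.2) (S.image ψ) x hx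
    (fun y hy => by
      obtain ⟨⟨w', x', hx'⟩, -, rfl⟩ := Finset.mem_image.1 hy
      by_cases h : w' = w
      · subst h
        simpa [ψ] using hx'
      · simpa [ψ, h] using hx) hn
  refine ⟨Pi.single w z, mem_Pn.2 fun w' => ?_, by simpa [Br.ev] using h1, ?_⟩
  · by_cases h : w' = w
    · subst h; simpa using hz
    · simp [h]
  · rintro ⟨w', x', hx'⟩ hb hne
    by_cases h : w' = w
    · subst h
      have h3 := h2 x' (Finset.mem_image.2 ⟨_, hb, by simp [ψ]⟩) (by rintro rfl; exact hne rfl)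
      simpa [Br.ev] using h3
    · simp [Br.ev, h, vl_zero']

end Cod0

theorem cod0 (hD : DIM) : COD := by
  intro C F _ _ _ _ _ _ T _ hF
  obtain ⟨r₀, hr₀⟩ := exists_l_pol_eq (nc_of_transc hF.transc)
  choose r hr using fun w : WW C T => exists_l_pol_eq (k := kC C) (NV.OverG.red_ne w.2)
  refine ⟨r₀ + ∑ w, r w, fun n hn => ?_⟩
  have h1 : ∀ w : WW C T, r w ≤ n := fun w => by
    have := Finset.single_le_sum (f := r) (fun j _ => Nat.zero_le _) (Finset.mem_univ w)
    omega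
  have h2 := congrArg (Nat.cast : ℕ → ℤ) hF
  rw [Cod0.finrank_Pn, En, (hD C F T hF _ inferInstance).2, hr₀ n (by omega), cd, ← h2]
  push_cast
  rw [Finset.sum_congr rfl fun w _ => hr w n (h1 w), Finset.mul_sum]
  simp only [Finset.sum_sub_distrib, Finset.sum_add_distrib]
  ring

theorem onto0 : ONTO := by
  intro C F _ _ _ _ _ T _ S
  classical
  choose r hr using fun b : Br C T => Cod0.one_branch S b
  refine ⟨∑ b ∈ S, r b, fun n hn φ => ?_⟩
  have h : ∀ b : S, ∃ y : Pn C T n, b.1.ev y.1 = 1 ∧ ∀ b' ∈ S, b' ≠ b.1 → b'.ev y.1 = 0 := fun b => by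
    obtain ⟨y, hy, h1⟩ := hr b n ((Finset.single_le_sum (fun j _ => Nat.zero_le _) b.2).trans hn)
    exact ⟨⟨y, hy⟩, h1⟩
  choose y h1 h2 using h
  refine ⟨(∑ b : S, φ b • y b : Pn C T n), Subtype.prop _, fun b hb => ?_⟩
  rw [← evL_apply, map_sum, Finset.sum_eq_single ⟨b, hb⟩]
  · rw [map_smul, evL_apply, h1 ⟨b, hb⟩, smul_eq_mul, mul_one]
  · intro b' _ hne
    rw [map_smul, evL_apply, h2 b' b hb (fun e => hne (Subtype.ext e.symm)), smul_zero]
  · intro h; exact absurd (Finset.mem_univ _) h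

end Vale.Agent.P027M.I
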