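import Vale.Agent.P027M.I.Basic

/-!
# P027 route M, block I: the graph of a nodal curve is connected; no defect
-/

set_option linter.all false

noncomputable section

open IntermediateField Vale.Agent.P019P P025H746 P025H492 Module

namespace Vale.Agent.P027M.I

namespace CongAux

variable {C : Type} [NontriviallyNormedField C] [IsUltrametricDist C] [IsAlgClosed C]
variable {F : Type} [Field F] [Algebra C F] {T : F} [FiniteDimensional C⟮T⟯ F]

theorem ind_mem (A : Set (WW C T)) : ind C T A ∈ Pn C T 0 := by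
  refine mem_Pn.2 fun w => ?_
  unfold ind
  split_ifs
  · simpa using const_mem_LL (k := kC C) (K := kap w.1) (D := 0) le_rfl 1
  · exact zero_mem _

open Classical in
theorem ev_ind (A : Set (WW C T)) (b : Br C T) :
    b.ev (ind C T A) = if b.w ∈ A then 1 else 0 := by
  unfold Br.ev ind
  split_ifs
  · exact vl_one'
  · exact vl_zero'

theorem ev_ind_eq {A : Set (WW C T)} {b b' : Br C T} (h : b.w ∈ A ↔ b'.w ∈ A) :
    b.ev (ind C T A) = b'.ev (ind C T A) := by
  rw [ev_ind, ev_ind]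
  by_cases h1 : b.w ∈ A
  · rw [if_pos h1, if_pos (h.1 h1)]
  · rw [if_neg h1, if_neg fun h2 => h1 (h.2 h2)]

end CongAux

open CongAux in
theorem cong (hA : ACL) (hC : CONN) : CONG := by
  intro C F _ _ _ _ _ _ T _ hF S hS A hcl
  obtain ⟨n, hn⟩ := (hA C F T hF S hS).2
  have hi : ∀ b ∈ S, ∀ b' ∈ S, Glue b b' → b.ev (ind C T A) = b'.ev (ind C T A) := by
    intro b hb b' hb' hg
    exact ev_ind_eq ⟨hcl b hb b' hb' hg, hcl b' hb' b hb hg.symm⟩
  have hT : redv C T (T ^ n) ∈ En C T n := ⟨T ^ n, pow_mem_LL T n, Itg.self.pow n, rfl⟩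
  have hT' := En_le_Pn n hT
  have h1 : ind C T A ∈ Pn C T n := Pn_mono (Nat.zero_le n) (ind_mem A)
  have h2 : redv C T (T ^ n) * ind C T A ∈ Pn C T n := by
    have := Pn_mul hT' (ind_mem A)
    rwa [add_zero] at this
  refine hC C F T A n (hn n le_rfl _ h1 hi) (hn n le_rfl _ h2 fun b hb b' hb' hg => ?_)
  rw [ev_mul b (Pn_reg hT' b) (Pn_reg (ind_mem A) b),
    ev_mul b' (Pn_reg hT' b') (Pn_reg (ind_mem A) b'), hi b hb b' hb' hg, hg.ev_En hT]

theorem surj (hD : COD) (hA : ACL) (hC : CONN) : SURJ := by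
  intro C F _ _ _ _ _ _ T _ hF
  have h0 : 0 ≤ cd C T := by
    obtain ⟨n, hn⟩ := hD C F T hF
    have h1 := Submodule.finrank_mono (En_le_Pn (C := C) (T := T) n)
    rw [← hn n le_rfl]
    omega
  refine ⟨h0, fun h => ?_⟩
  have hN : Nodal C T ∅ := ⟨by rw [le_antisymm h h0]; simp, by simp⟩
  constructor
  · refine ⟨fun w w' => ?_⟩
    rcases cong hA hC C F T hF ∅ hN {w} (by simp) with h1 | h1
    · exact absurd h1 (Set.singleton_ne_empty w)
    · have : w' ∈ ({w} : Set (WW C T)) := h1 ▸ Set.mem_univ w'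
      exact this.symm
  · obtain ⟨n, hn⟩ := (hA C F T hF ∅ hN).2
    exact ⟨n, fun m hm y hy => hn m hm y hy (by simp)⟩

end Vale.Agent.P027M.I
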