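import Vale.Agent.P027M.I.Act

/-!
# P027 route M, block I: the special fibre is connected
-/

set_option linter.unusedSectionVars false

noncomputable section

open IntermediateField Vale.Agent.P019P P025H746 P025H492 Module

namespace Vale.Agent.P027M.I

namespace Conn

theorem exists_pow_le {ι : Type*} [Finite ι] (x r : ι → ℝ) (hr0 : ∀ i, 0 ≤ r i) (p : ι → Prop)
    (hr : ∀ i, p i → r i < 1) (a : ℕ) : ∃ b, a ≤ b ∧ ∀ i, p i → x i * r i ^ b ≤ 1 := by
  have h : ∀ i, ∃ b : ℕ, p i → ∀ b', b ≤ b' → x i * r i ^ b' ≤ 1 := by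
    intro i
    by_cases hp : p i
    · have h1 : 0 < |x i| + 1 := by positivity
      obtain ⟨b, hb⟩ := exists_pow_lt_of_lt_one (inv_pos.2 h1) (hr i hp)
      refine ⟨b, fun _ b' hb' => ?_⟩
      have h2 : r i ^ b' ≤ r i ^ b := pow_le_pow_of_le_one (hr0 i) (hr i hp).le hb'
      have h3 : 0 ≤ r i ^ b' := pow_nonneg (hr0 i) _
      have h4 : x i ≤ |x i| + 1 := by linarith [le_abs_self (x i)]
      calc x i * r i ^ b' ≤ (|x i| + 1) * r i ^ b' := mul_le_mul_of_nonneg_right h4 h3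
        _ ≤ (|x i| + 1) * (|x i| + 1)⁻¹ := mul_le_mul_of_nonneg_left (h2.trans hb.le) h1.le
        _ = 1 := mul_inv_cancel₀ h1.ne'
    · exact ⟨0, fun h => absurd h hp⟩
  choose b hb using h
  obtain ⟨M, hM⟩ := (Set.finite_range b).bddAbove
  exact ⟨max a M, le_max_left _ _, fun i hp => hb i hp _
    ((hM ⟨i, rfl⟩).trans (le_max_right _ _))⟩

theorem pow_mem_Mge {k K : Type*} [Field k] [Field K] [Algebra k K] [CFF k K] {P : Plk k K}
    {z : K} (hz : z ∈ Mge P 1) (n : ℕ) : z ^ n ∈ Mge P n := by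
  induction n with
  | zero => simpa using mem_Mge0.2 P.1.one_mem
  | succ n ih => rw [pow_succ]; exact_mod_cast mul_mem_Mge ih hz

variable {C : Type} [NontriviallyNormedField C] [IsUltrametricDist C] [IsAlgClosed C]
variable {F : Type} [Field F] [Algebra C F] [CFF C F] {T : F} [FiniteDimensional C⟮T⟯ F]

theorem exists_u (hT : Transcendental C T) (P : Plk C F) (A : Set (WW C T)) (hA : A.Nonempty) :
    ∃ (a : ℕ) (u : F) (w₀ : WW C T), w₀ ∈ A ∧ w₀.1 u = 1 ∧ (∀ w ∈ A, w.1 u ≤ 1) ∧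
      u ∈ LL C (Finsupp.single P (a : ℤ) - pol C T) := by
  have hd := dg_pol (nc_of_transc hT)
  obtain ⟨z, hz, hz'⟩ : ∃ z : F, z ≠ 0 ∧ 0 ≤ (Finsupp.single P
      ((gen C F + finrank C⟮T⟯ F : ℕ) : ℤ) - pol C T) + dv C z := by
    apply exists_ne_zero_of_l
    have h1 := RR (k := C) (Finsupp.single P ((gen C F + finrank C⟮T⟯ F : ℕ) : ℤ) - pol C T)
    rw [map_sub, dg_sgl, hd] at h1
    push_cast at h1 ⊢
    omega
  obtain ⟨w₀, hw₀, hmax⟩ := Set.exists_max_image A (fun w => w.1 z) (Set.toFinite A) hA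
  obtain ⟨c, hc⟩ := exists_norm_eq w₀.2 z
  have h0 : 0 < w₀.1 z := w₀.1.av.pos hz
  have hc0 : c ≠ 0 := by rintro rfl; rw [norm_zero] at hc; exact h0.ne hc
  have key : ∀ w : WW C T, w.1 (c⁻¹ • z) = (w₀.1 z)⁻¹ * w.1 z := fun w => by
    rw [Algebra.smul_def]
    change w.1.av _ = _
    rw [map_mul, w.1.ext', norm_inv, hc]
  refine ⟨gen C F + finrank C⟮T⟯ F, c⁻¹ • z, w₀, hw₀, by rw [key, inv_mul_cancel₀ h0.ne'],
    fun w hw => ?_, Submodule.smul_mem _ _ (mem_LL.2 (Or.inr fun Q => ?_))⟩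
  · rw [key, inv_mul_le_iff₀ h0, mul_one]; exact hmax w hw
  · have := hz' Q
    rw [Finsupp.add_apply, dv_apply] at this
    simp only [Finsupp.coe_zero, Pi.zero_apply] at this
    omega

theorem aux (hT : Transcendental C T) (A : Set (WW C T)) (hA : A.Nonempty) (n : ℕ) (e e' : F)
    (P : Plk C F) (hP : T - 1 ∈ Mge P 1) (he : e ∈ LL C (n • pol C T))
    (he1 : ∀ w ∈ A, w.1 (e - 1) < 1) (he0 : ∀ w, w ∉ A → w.1 e < 1) (heP : e ∈ Mge P 1)
    (he' : e' ∈ LL C (n • pol C T)) (he1' : ∀ w ∈ A, w.1 (e' - T ^ n) < 1)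
    (he0' : ∀ w, w ∉ A → w.1 e' < 1) : False := by
  classical
  have hT0 : T ≠ 0 := fun h => nc_of_transc hT 0 (by rw [h, map_zero])
  have hTP : T ∈ P.1 := by
    have := add_mem (mem_Mge0.1 (Mge_mono P (by omega) hP)) P.1.one_mem
    rwa [sub_add_cancel] at this
  obtain ⟨a, u, w₀, hw₀, hu1, hu, huL⟩ := exists_u hT P A hA
  have huP : u ∈ Mge P (-a) := by
    have h1 := mem_LL_iff.1 huL P
    have h2 := ord_nonneg_of_mem P hTP
    rwa [Finsupp.sub_apply, Finsupp.single_eq_same, pol_apply, max_eq_left (by omega),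
      sub_zero] at h1
  have huQ : ∀ Q, Q ≠ P → u ∈ Mge Q (pol C T Q) := fun Q hQ => by
    have h1 := mem_LL_iff.1 huL Q
    rwa [Finsupp.sub_apply, Finsupp.single_eq_of_ne hQ, zero_sub, neg_neg] at h1
  have huQ0 : ∀ Q, Q ≠ P → u ∈ Q.1 := fun Q hQ =>
    mem_Mge0.1 (Mge_mono Q (pol_nonneg T Q) (huQ Q hQ))
  have one_le : ∀ w : WW C T, w.1 (1 : F) ≤ 1 := fun w => (map_one w.1.av).le
  have hTn : ∀ w : WW C T, w.1 (T ^ n) = 1 := fun w => by
    change w.1.av _ = _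
    rw [map_pow, w.2.apply_T, one_pow]
  have hTi : ∀ w : WW C T, w.1 T⁻¹ = 1 := fun w => w.2.inv.apply_T
  have heA : ∀ w ∈ A, w.1 e ≤ 1 := fun w hw =>
    le_one_of_sub (one_le w) (by rw [← NV.map_neg', neg_sub]; exact he1 w hw)
  have heA' : ∀ w ∈ A, w.1 e' ≤ 1 := fun w hw =>
    le_one_of_sub (hTn w).le (by rw [← NV.map_neg', neg_sub]; exact he1' w hw)
  obtain ⟨b, hab, hb⟩ := exists_pow_le (fun w : WW C T => w.1 u) (fun w => max (w.1 e) (w.1 e'))
    (fun w => le_max_of_le_left (w.1.av.nonneg _)) (fun w => w ∉ A)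
    (fun w hw => max_lt (he0 w hw) (he0' w hw)) a
  have hbd : ∀ (w : WW C T) (y : F), (w ∈ A → w.1 y ≤ 1) → w.1 y ≤ max (w.1 e) (w.1 e') →
      w.1 (u * y ^ b) ≤ 1 := fun w y h1 h2 => by
    by_cases hw : w ∈ A
    · exact NV.mul_le_one (hu w hw) (NV.pow_le_one' (h1 hw) b)
    · refine le_trans ?_ (hb w hw)
      change w.1.av _ ≤ _
      rw [map_mul, map_pow]
      exact mul_le_mul_of_nonneg_left (pow_le_pow_left₀ (w.1.av.nonneg _) h2 b) (w.1.av.nonneg _)
  -- first function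
  have h1 : ∀ x : Plk (kC C) (kap w₀.1), w₀.1.red T ∈ x.1 → w₀.1.red u ∈ x.1 := fun x hx => by
    have h := P025H458.red_mem hT (x := u * e ^ b) (fun Q hQ => by
      by_cases hQP : Q = P
      · subst hQP
        have h3 := mul_mem_Mge huP (pow_mem_Mge heP b)
        exact mem_Mge0.1 (Mge_mono Q (by omega) h3)
      · exact mul_mem (huQ0 Q hQP) (pow_mem (mem_of_LL he hQ) b))
      (fun w hw => hbd ⟨w, hw⟩ e (heA _) (le_max_left _ _)) w₀.2 x hx
    rwa [NV.red_mul hu1.le (NV.pow_le_one' (heA _ hw₀) b), NV.red_pow (heA _ hw₀),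
      (red_eq_iff (heA _ hw₀) (one_le _)).2 (he1 _ hw₀), NV.red_one, one_pow, mul_one] at h
  -- second function
  have hn2 : ∀ w : WW C T, w.1 (e' * T⁻¹ ^ n) = w.1 e' := fun w => by
    change w.1.av _ = _
    rw [map_mul, map_pow, hTi w, one_pow, mul_one]
  have h1T : ∀ w : WW C T, w.1 (1 - T⁻¹) ≤ 1 := fun w => NV.sub_le (one_le w) (hTi w).le
  have hpre : ∀ w : WW C T, w.1 (T * (1 - T⁻¹) ^ a) ≤ 1 := fun w =>
    NV.mul_le_one w.2.apply_T.le (NV.pow_le_one' (h1T w) a)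
  have hsec : ∀ w : WW C T, w.1 (u * (e' * T⁻¹ ^ n) ^ b) ≤ 1 := fun w =>
    hbd w _ (fun hw => by rw [hn2]; exact heA' w hw) (by rw [hn2]; exact le_max_right _ _)
  have h2 : ∀ x : Plk (kC C) (kap w₀.1), (w₀.1.red T)⁻¹ ∈ x.1 →
      w₀.1.red T * (1 - (w₀.1.red T)⁻¹) ^ a * w₀.1.red u ∈ x.1 := fun x hx => by
    haveI : Algebra.IsAlgebraic C⟮T⁻¹⟯ F := by rw [adjoin_inv_eq]; infer_instance
    have h := P025H458.red_mem w₀.2.inv.transc
      (x := T * (1 - T⁻¹) ^ a * (u * (e' * T⁻¹ ^ n) ^ b)) (fun Q hQ => by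
      have h3 : 1 - T⁻¹ ∈ Q.1 := sub_mem Q.1.one_mem hQ
      by_cases hTQ : T ∈ Q.1
      · have h4 : (e' * T⁻¹ ^ n) ^ b ∈ Q.1 :=
          pow_mem (mul_mem (mem_of_LL he' hTQ) (pow_mem hQ n)) b
        by_cases hQP : Q = P
        · subst hQP
          have h5 : 1 - T⁻¹ ∈ Mge Q 1 := by
            have := mul_mem_Mge hP (mem_Mge0.2 hQ)
            rwa [add_zero, sub_mul, mul_inv_cancel₀ hT0, one_mul] at this
          have h6 := mul_mem_Mge (pow_mem_Mge h5 a) huP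
          rw [add_neg_cancel, mem_Mge0] at h6
          have h7 := mul_mem (mul_mem hTQ h6) h4
          convert h7 using 1
          ring
        · exact mul_mem (mul_mem hTQ (pow_mem h3 a)) (mul_mem (huQ0 Q hQP) h4)
      · have hQP : Q ≠ P := by rintro rfl; exact hTQ hTP
        have h4 : ord Q T < 0 := by
          rw [mem_iff_ord] at hTQ
          push Not at hTQ
          exact hTQ.2
        have h5 : pol C T Q = -ord Q T := by rw [pol_apply, max_eq_right (by omega)]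
        have h6 : T * u ∈ Q.1 := by
          rw [← mem_Mge0, mul_mem_Mge_iff hT0, zero_sub, ← h5]
          exact huQ Q hQP
        have h7 : e' * T⁻¹ ^ n ∈ Q.1 := by
          rw [← mem_Mge0, mul_comm, mul_mem_Mge_iff (pow_ne_zero n (inv_ne_zero hT0)), ord_pow,
            ord_inv, zero_sub]
          have := mem_LL_iff.1 he' Q
          rwa [Finsupp.smul_apply, h5, nsmul_eq_mul] at this
        have h8 := mul_mem (mul_mem h6 (pow_mem h3 a)) (pow_mem h7 b)
        convert h8 using 1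
        ring)
      (fun w hw => NV.mul_le_one (hpre ⟨w, overG_inv.1 hw⟩) (hsec ⟨w, overG_inv.1 hw⟩))
      w₀.2.inv x (by rw [NV.red_inv w₀.2.apply_T]; exact hx)
    have h9 : w₀.1.red (e' * T⁻¹ ^ n) = 1 := by
      rw [NV.red_mul (heA' _ hw₀) (NV.pow_le_one' (hTi _).le n),
        (red_eq_iff (heA' _ hw₀) (hTn _).le).2 (he1' _ hw₀),
        ← NV.red_mul (hTn _).le (NV.pow_le_one' (hTi _).le n), ← mul_pow, mul_inv_cancel₀ hT0,
        one_pow, NV.red_one]
    have h10 : w₀.1 (e' * T⁻¹ ^ n) ≤ 1 := by rw [hn2]; exact heA' _ hw₀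
    rwa [NV.red_mul (hpre _) (hsec _), NV.red_mul w₀.2.apply_T.le (NV.pow_le_one' (h1T _) a),
      NV.red_pow (h1T _), NV.red_sub (one_le _) (hTi _).le, NV.red_one, NV.red_inv w₀.2.apply_T,
      NV.red_mul hu1.le (NV.pow_le_one' h10 b), NV.red_pow h10, h9, one_pow, mul_one] at h
  have hu0 : w₀.1.red u ≠ 0 := NV.red_ne_zero hu1
  have hT0' : w₀.1.red T ≠ 0 := NV.red_ne_zero w₀.2.apply_T
  have h3 : ∀ x : Plk (kC C) (kap w₀.1), ord x (w₀.1.red T) < 0 → 0 < ord x (w₀.1.red u) :=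
    fun x hx => by
      have h4 : 0 < ord x (w₀.1.red T)⁻¹ := by rw [ord_inv]; omega
      have h5 := ord_add_of_lt (P := x) (z := (1 : kap w₀.1)) (w := -(w₀.1.red T)⁻¹) one_ne_zero
        (neg_mem (mem_Mge.2 (Or.inr (by rw [ord_one]; omega))))
      rw [← sub_eq_add_neg, ord_one] at h5
      have h6 := ord_nonneg_of_mem x (h2 x ((mem_iff_ord _ _).2 (Or.inr h4.le)))
      rw [ord_mul x (mul_ne_zero hT0' (pow_ne_zero _ h5.1)) hu0, ord_mul x hT0' (pow_ne_zero _ h5.1),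
        ord_pow, h5.2] at h6
      omega
  obtain ⟨c, hc⟩ := LL_zero_le (k := kC C) (z := w₀.1.red u) (mem_LL.2 (Or.inr fun x => by
    rcases lt_or_ge (ord x (w₀.1.red T)) 0 with h | h
    · have := h3 x h
      simp only [Finsupp.coe_zero, Pi.zero_apply, neg_zero]
      omega
    · simpa using ord_nonneg_of_mem x (h1 x ((mem_iff_ord _ _).2 (Or.inr h)))))
  obtain ⟨x, hx⟩ := exists_pole w₀.2.red_ne
  have h4 := h3 x hx
  rw [hc, ord_const] at h4
  exact lt_irrefl _ h4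

end Conn

theorem conn (hV : VAL) : CONN := by
  intro C F _ _ _ _ _ _ T _ A n h h'
  classical
  by_contra hcon
  push Not at hcon
  obtain ⟨hA, hA'⟩ := hcon
  have hT : Transcendental C T := hA.some.2.transc
  obtain ⟨e, he, he1, hre⟩ := h
  obtain ⟨e', he', he1', hre'⟩ := h'
  have one_le : ∀ w : WW C T, w.1 (1 : F) ≤ 1 := fun w => (map_one w.1.av).le
  have hTn : ∀ w : WW C T, w.1 (T ^ n) ≤ 1 := Itg.self.pow n
  have a1 : ∀ w ∈ A, w.1 (e - 1) < 1 := fun w hw => by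
    rw [← red_eq_iff (he1 w) (one_le w), NV.red_one]
    simpa [redv, ind, hw] using congrFun hre w
  have a0 : ∀ w, w ∉ A → w.1 e < 1 := fun w hw => by
    rw [← NV.red_eq_zero (he1 w)]
    simpa [redv, ind, hw] using congrFun hre w
  have b1 : ∀ w ∈ A, w.1 (e' - T ^ n) < 1 := fun w hw => by
    rw [← red_eq_iff (he1' w) (hTn w)]
    simpa [redv, ind, hw] using congrFun hre' w
  have b0 : ∀ w, w ∉ A → w.1 e' < 1 := fun w hw => by
    rw [← NV.red_eq_zero (he1' w)]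
    simpa [redv, ind, hw] using congrFun hre' w
  obtain ⟨P, hP⟩ := exists_zero (nc_sub (nc_of_transc hT) 1)
  have hP1 : T - algebraMap C F 1 ∈ Mge P 1 := mem_Mge_one_of_pos hP
  have hTP : T ∈ P.1 := (mem_iff_ord _ _).2 (Or.inr (ord_nonneg_of_sub hP1))
  have heP : e ∈ P.1 := mem_of_LL he hTP
  have hv := (hV C F T hT (e * (e - 1)) (fun Q hQ => mul_mem (mem_of_LL he hQ)
    (sub_mem (mem_of_LL he hQ) Q.1.one_mem)) P hTP (by rw [vl_eq hP1, norm_one])).2 fun w => by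
      change w.1.av _ < 1
      rw [map_mul]
      by_cases hw : w ∈ A
      · exact mul_lt_one_of_nonneg_of_lt_one_right (he1 w) (w.1.av.nonneg _) (a1 w hw)
      · exact mul_lt_one_of_nonneg_of_lt_one_left (w.1.av.nonneg _) (a0 w hw)
          (NV.sub_le (he1 w) (one_le w))
  rw [vl_mul' heP (sub_mem heP P.1.one_mem), vl_sub' heP P.1.one_mem, vl_one', norm_mul] at hv
  rw [map_one] at hP1
  have hpol : (0 : Plk C F →₀ ℤ) ≤ n • pol C T := nsmul_nonneg (pol_nonneg T) n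
  by_cases hv0 : ‖vl P e‖ < 1
  · have hc : ∀ w : WW C T, w.1 (algebraMap C F (vl P e)) < 1 := fun w => by
      rw [w.1.ext']; exact hv0
    refine Conn.aux hT A hA n (e - algebraMap C F (vl P e)) e' P hP1
      (sub_mem he (const_mem_LL hpol _)) (fun w hw => ?_) (fun w hw => NV.sub_lt (a0 w hw) (hc w))
      (sub_vl heP) he' b1 b0
    rw [sub_right_comm]
    exact NV.sub_lt (a1 w hw) (hc w)
  · have hv1 : ‖vl P e - 1‖ < 1 := by
      by_contra h1
      push Not at h1 hv0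
      exact absurd hv (not_lt.2 (one_le_mul_of_one_le_of_one_le hv0 h1))
    have hc : ∀ w : WW C T, w.1 (algebraMap C F (vl P e) - 1) < 1 := fun w => by
      rw [← map_one (algebraMap C F), ← map_sub, w.1.ext']; exact hv1
    refine Conn.aux hT Aᶜ (Set.nonempty_compl.2 hA') n (algebraMap C F (vl P e) - e) (T ^ n - e') P
      hP1 (sub_mem (const_mem_LL hpol _) he) (fun w hw => ?_) (fun w hw => ?_) ?_
      (sub_mem (pow_mem_LL T n) he') (fun w hw => ?_) (fun w hw => ?_)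
    · rw [sub_right_comm]
      exact NV.sub_lt (hc w) (a0 w hw)
    · have := NV.sub_lt (hc w) (a1 w (not_not.1 hw))
      rwa [sub_sub_sub_cancel_right] at this
    · rw [← neg_sub]; exact neg_mem (sub_vl heP)
    · rw [sub_right_comm, sub_self, zero_sub, NV.map_neg']
      exact b0 w hw
    · rw [← NV.map_neg', neg_sub]
      exact b1 w (not_not.1 hw)

end Vale.Agent.P027M.I
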