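import Vale.Agent.P027M.I.Basic

/-!
# P027 route M, block I: transport of components and branches
-/

set_option linter.unusedSectionVars false

noncomputable section

open IntermediateField Vale.Agent.P019P P025H746 P025H492 Module

namespace Vale.Agent.P027M.I

variable {C : Type} [NontriviallyNormedField C] [IsUltrametricDist C] [IsAlgClosed C]
variable {F F' F'' : Type} [Field F] [Algebra C F] [Field F'] [Algebra C F'] [Field F'']
  [Algebra C F'']

section rm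

variable {w : NV C F} {w' : NV C F'}

/-- the map of valuation rings -/
def rin (g : F →+* F') (h : ∀ y, w' (g y) = w y) : w.ring →+* w'.ring where
  toFun x := ⟨g x, by rw [NV.mem_ring, h]; exact x.2⟩
  map_one' := by ext; simp
  map_mul' _ _ := by ext; simp
  map_zero' := by ext; simp
  map_add' _ _ := by ext; simp

theorem rin_local (g : F →+* F') (h : ∀ y, w' (g y) = w y) : IsLocalHom (rin g h) := by
  refine ⟨fun a ha => ?_⟩
  rw [isUnit_ring_iff] at ha ⊢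
  rw [← h]
  exact ha

/-- the map of residue fields -/
def rm (g : F →+* F') (h : ∀ y, w' (g y) = w y) : kap w →+* kap w' :=
  haveI := rin_local g h
  IsLocalRing.ResidueField.map (rin g h)

theorem rm_red (g : F →+* F') (h : ∀ y, w' (g y) = w y) (x : F) :
    rm g h (w.red x) = w'.red (g x) := by
  by_cases hx : w x ≤ 1
  · rw [NV.red_of hx, NV.red_of (by rw [h]; exact hx)]
    haveI := rin_local g h
    exact IsLocalRing.ResidueField.map_residue (rin g h) ⟨x, hx⟩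
  · rw [NV.red, dif_neg hx, map_zero, NV.red, dif_neg (by rw [h]; exact hx)]

theorem red_eq_iff {x y : F} (hx : w x ≤ 1) (hy : w y ≤ 1) : w.red x = w.red y ↔ w (x - y) < 1 := by
  rw [← NV.red_eq_zero (NV.sub_le hx hy), NV.red_sub hx hy, sub_eq_zero]

theorem le_one_of_sub {x y : F} (hx : w x ≤ 1) (h : w (x - y) < 1) : w y ≤ 1 := by
  have := NV.sub_le hx h.le
  rwa [sub_sub_cancel] at this

theorem rm_surj (g : F →+* F') (h : ∀ y, w' (g y) = w y)
    (hs : ∀ y', w' y' ≤ 1 → ∃ y, w' (y' - g y) < 1) : Function.Surjective (rm g h) := by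
  intro z
  obtain ⟨y', hy', rfl⟩ := NV.red_surj z
  obtain ⟨y, hy⟩ := hs y' hy'
  exact ⟨w.red y, by rw [rm_red, eq_comm, red_eq_iff hy' (le_one_of_sub hy' hy)]; exact hy⟩

theorem rm_const (g : F →+* F') (h : ∀ y, w' (g y) = w y) {s : C ≃+* C}
    (hg : ∀ c, g (algebraMap C F c) = algebraMap C F' (s c)) (hs : ∀ c, ‖s c‖ = ‖c‖) {c : C}
    (hc : ‖c‖ ≤ 1) :
    rm g h (algebraMap (kC C) (kap w) (cred c)) = algebraMap (kC C) (kap w') (cred (s c)) := by
  rw [← NV.red_algebraMap hc, rm_red, hg, NV.red_algebraMap (by rw [hs]; exact hc)]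

theorem exists_cred_eq {s : C ≃+* C} (hs : ∀ c, ‖s c‖ = ‖c‖) (a : kC C) :
    ∃ c : C, ‖c‖ ≤ 1 ∧ cred (s c) = a := by
  obtain ⟨c, hc, rfl⟩ := cred_surj a
  exact ⟨s.symm c, by rw [← hs, s.apply_symm_apply]; exact hc, by rw [s.apply_symm_apply]⟩

end rm

section tw

variable {T : F} {T' : F'} {T'' : F''}

theorem Tw.id (b : Br C T) : Tw (RingHom.id F) b b := ⟨fun _ => rfl, fun _ _ => Iff.rfl⟩

theorem Tw.comp {g : F →+* F'} {g' : F' →+* F''} {b : Br C T} {b' : Br C T'} {b'' : Br C T''}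
    (h : Tw g b b') (h' : Tw g' b' b'') : Tw (g'.comp g) b b'' :=
  ⟨fun y => (h'.1 _).trans (h.1 y), fun y hy =>
    (h'.2 _ (by rw [h.1]; exact hy)).trans (h.2 y hy)⟩

theorem Tw.congr {g g' : F →+* F'} {b : Br C T} {b' : Br C T'} (h : Tw g b b')
    (e : ∀ y, g' y = g y) : Tw g' b b' := by
  rw [show g' = g from RingHom.ext e]; exact h

theorem Tw.symm {g : F ≃+* F'} {b : Br C T} {b' : Br C T'} (h : Tw (g : F →+* F') b b') :
    Tw (g.symm : F' →+* F) b' b := by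
  have h1 : ∀ y, b.w.1 (g.symm y) = b'.w.1 y := fun y => by
    have := h.1 (g.symm y)
    simpa using this.symm
  refine ⟨h1, fun y hy => ?_⟩
  have := h.2 (g.symm y) (by rw [h1]; exact hy)
  simpa using this.symm

theorem Tw.inj_left {g : F →+* F'} {b₁ b₂ : Br C T} {b' : Br C T'} (h₁ : Tw g b₁ b')
    (h₂ : Tw g b₂ b') : b₁ = b₂ := by
  have hw : b₁.w = b₂.w :=
    Subtype.ext (P025H992.nv_ext fun y => (h₁.1 y).symm.trans (h₂.1 y))
  exact Br.ext' hw fun y hy => (h₁.2 y hy).symm.trans (h₂.2 y (hw ▸ hy))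

theorem Tw.inj_right {g : F →+* F'} {b : Br C T} {b₁ b₂ : Br C T'} (h₁ : Tw g b b₁)
    (h₂ : Tw g b b₂) (hw : b₁.w = b₂.w)
    (hs : ∀ y', b₁.w.1 y' ≤ 1 → ∃ y, b₁.w.1 (y' - g y) < 1) : b₁ = b₂ := by
  refine Br.ext' hw fun y' hy' => ?_
  obtain ⟨y, hy⟩ := hs y' hy'
  have h0 := le_one_of_sub hy' hy
  have h3 : b.w.1 y ≤ 1 := by rw [← h₁.1]; exact h0
  rw [(red_eq_iff hy' h0).2 hy, (red_eq_iff (w := b₂.w.1) (hw ▸ hy') (hw ▸ h0)).2 (hw ▸ hy)]
  exact (h₁.2 y h3).trans (h₂.2 y h3).symm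

theorem Tw.inj_equiv {g : F ≃+* F'} {b : Br C T} {b₁ b₂ : Br C T'} (h₁ : Tw (g : F →+* F') b b₁)
    (h₂ : Tw (g : F →+* F') b b₂) : b₁ = b₂ := h₁.symm.inj_left h₂.symm

/-- branches above, when the residue extension is trivial -/
theorem exists_tw (g : F →+* F') {s : C ≃+* C}
    (hg : ∀ c, g (algebraMap C F c) = algebraMap C F' (s c)) (hs : ∀ c, ‖s c‖ = ‖c‖)
    (b : Br C T) (w' : WW C T') (h : ∀ y, w'.1 (g y) = b.w.1 y)
    (hsu : ∀ y', w'.1 y' ≤ 1 → ∃ y, w'.1 (y' - g y) < 1)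
    (hT : ∃ t, b.w.1 t ≤ 1 ∧ b.w.1.red t ∈ b.x.1 ∧ w'.1 (T' - g t) < 1) :
    ∃ b' : Br C T', b'.w = w' ∧ Tw g b b' := by
  let e : kap b.w.1 ≃+* kap w'.1 :=
    RingEquiv.ofBijective (rm g h) ⟨(rm g h).injective, rm_surj g h hsu⟩
  have he : ∀ y, e.symm (w'.1.red (g y)) = b.w.1.red y := fun y => by
    rw [← rm_red g h]; exact e.symm_apply_apply _
  let x' : Plk (kC C) (kap w'.1) := ⟨b.x.1.comap (e.symm : kap w'.1 →+* kap b.w.1), by
    refine ⟨fun a => ?_, fun ht => b.x.2.2 ?_⟩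
    · obtain ⟨c, hc, rfl⟩ := exists_cred_eq hs a
      rw [ValuationSubring.mem_comap, ← rm_const g h hg hs hc]
      have : (e.symm : kap w'.1 →+* kap b.w.1) (rm g h (algebraMap (kC C) _ (cred c))) =
          algebraMap (kC C) _ (cred c) := e.symm_apply_apply _
      rw [this]
      exact b.x.2.1 _
    · ext z
      refine ⟨fun _ => ValuationSubring.mem_top z, fun _ => ?_⟩
      have h1 : e z ∈ b.x.1.comap (e.symm : kap w'.1 →+* kap b.w.1) := by
        rw [ht]; exact ValuationSubring.mem_top _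
      rw [ValuationSubring.mem_comap] at h1
      simpa using h1⟩
  have hx : ∀ y, w'.1.red (g y) ∈ x'.1 ↔ b.w.1.red y ∈ b.x.1 := fun y => by
    rw [← he y]; rfl
  obtain ⟨t, ht1, ht2, ht3⟩ := hT
  refine ⟨⟨w', x', ?_⟩, rfl, h, fun y _ => hx y⟩
  rw [(red_eq_iff w'.2.apply_T.le (by rw [h]; exact ht1)).2 ht3]
  exact (hx t).2 ht2

variable [FiniteDimensional C⟮T⟯ F] [FiniteDimensional C⟮T'⟯ F']

/-- the branch below -/
theorem exists_down (g : F →+* F') {s : C ≃+* C}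
    (hg : ∀ c, g (algebraMap C F c) = algebraMap C F' (s c)) (hs : ∀ c, ‖s c‖ = ‖c‖)
    (b' : Br C T') (w : WW C T) (h : ∀ y, b'.w.1 (g y) = w.1 y)
    (hT : b'.w.1.red (g T) ∈ b'.x.1) : ∃ b : Br C T, b.w = w ∧ Tw g b b' := by
  let x : Plk (kC C) (kap w.1) := ⟨b'.x.1.comap (rm g h), by
    refine ⟨fun a => ?_, fun ht => b'.x.2.2 ?_⟩
    · obtain ⟨c, hc, rfl⟩ := cred_surj a
      rw [ValuationSubring.mem_comap, rm_const g h hg hs hc]
      exact b'.x.2.1 _
    · have h1 : ∀ z, rm g h z ∈ b'.x.1 := fun z => by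
        rw [← ValuationSubring.mem_comap, ht]; exact ValuationSubring.mem_top _
      have h2 : ∀ a : kC C, rm g h (w.1.red T) ≠ algebraMap (kC C) _ a := fun a e => by
        obtain ⟨c, hc, rfl⟩ := exists_cred_eq hs a
        rw [← rm_const g h hg hs hc] at e
        exact w.2.red_ne _ ((rm g h).injective e)
      obtain ⟨-, hfin⟩ := finite_of_notMem h2
      refine eq_top_of_alg (K := (kC C)⟮rm g h (w.1.red T)⟯) _ fun z => ?_
      let M : IntermediateField (kC C) (kap b'.w.1) :=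
        (rm g h).fieldRange.toIntermediateField fun a => by
          obtain ⟨c, hc, rfl⟩ := exists_cred_eq hs a
          exact ⟨_, rm_const g h hg hs hc⟩
      have h3 : (kC C)⟮rm g h (w.1.red T)⟯ ≤ M :=
        adjoin_simple_le_iff.2 ⟨_, rfl⟩
      obtain ⟨u, hu⟩ := h3 z.2
      have h4 := h1 u
      rw [hu] at h4
      exact h4⟩
  have hx : ∀ y, b'.w.1.red (g y) ∈ b'.x.1 ↔ w.1.red y ∈ x.1 := fun y => by
    rw [← rm_red g h]; rfl
  exact ⟨⟨w, x, (hx T).1 hT⟩, rfl, h, fun y _ => hx y⟩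

theorem Tw.van {g : F →+* F'} {b : Br C T} {b' : Br C T'} (h : Tw g b b') {y : F}
    (hy : b.w.1 y ≤ 1) : b'.w.1.red (g y) ∈ Mge b'.x 1 ↔ b.w.1.red y ∈ Mge b.x 1 := by
  rcases hy.lt_or_eq with h1 | h1
  · rw [NV.red_of_lt h1, NV.red_of_lt (by rw [h.1]; exact h1)]
    simp
  · have h2 : b'.w.1 (g y) = 1 := by rw [h.1]; exact h1
    have h3 : b.w.1 y⁻¹ ≤ 1 := by
      have : b.w.1 y⁻¹ = (b.w.1 y)⁻¹ := map_inv₀ b.w.1.av y
      rw [this, h1, inv_one]
    rw [mem_Mge_one_iff, mem_Mge_one_iff, ← NV.red_inv h1, ← NV.red_inv h2, ← map_inv₀,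
      h.2 _ h3]
    simp [NV.red_ne_zero h1, NV.red_ne_zero h2]

theorem Tw.vl_iff {g : F →+* F'} {s : C ≃+* C}
    (hg : ∀ c, g (algebraMap C F c) = algebraMap C F' (s c)) (hs : ∀ c, ‖s c‖ = ‖c‖)
    {b : Br C T} {b' : Br C T'} (h : Tw g b b') {y : F} (hy : b.w.1 y ≤ 1)
    (hx : b.w.1.red y ∈ b.x.1) {c : C} (hc : ‖c‖ ≤ 1) :
    b'.ev (redv C T' (g y)) = cred (s c) ↔ b.ev (redv C T y) = cred c := by
  have h1 : b.w.1 (algebraMap C F c) ≤ 1 := by rw [b.w.1.ext']; exact hc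
  have hc' : ‖s c‖ ≤ 1 := by rw [hs]; exact hc
  have h2 := h.van (NV.sub_le hy h1)
  rw [map_sub, hg, NV.red_sub hy h1, NV.red_sub (by rw [h.1]; exact hy)
    (by rw [b'.w.1.ext']; exact hc'), NV.red_algebraMap hc, NV.red_algebraMap hc'] at h2
  exact (vl_eq_iff ((h.2 y hy).2 hx)).trans (h2.trans (vl_eq_iff hx).symm)

theorem Tw.ev_zero {g : F →+* F'} {b : Br C T} {b' : Br C T'} (h : Tw g b b') {y : F}
    (hy : b.w.1 y ≤ 1) (hx : b.w.1.red y ∈ b.x.1) :
    b'.ev (redv C T' (g y)) = 0 ↔ b.ev (redv C T y) = 0 :=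
  (vl_eq_zero_iff ((h.2 y hy).2 hx)).trans ((h.van hy).trans (vl_eq_zero_iff hx).symm)

theorem Tw.ev_eq {g : F →+* F'} (hg : ∀ c, g (algebraMap C F c) = algebraMap C F' c)
    {b : Br C T} {b' : Br C T'} (h : Tw g b b') {y : F} (hy : b.w.1 y ≤ 1)
    (hx : b.w.1.red y ∈ b.x.1) : b'.ev (redv C T' (g y)) = b.ev (redv C T y) := by
  obtain ⟨c, hc, hc'⟩ := cred_surj (b.ev (redv C T y))
  rw [← hc']
  exact (h.vl_iff (s := RingEquiv.refl C) hg (fun _ => rfl) hy hx hc).2 hc'.symm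

end tw

section semi

variable {g g' : F ≃+* F} {s s' : C ≃+* C} {T : F}

theorem Semi.symm (h : Semi C g s) : Semi C g.symm s.symm :=
  ⟨fun c => by
    apply g.injective
    rw [g.apply_symm_apply, h.1, s.apply_symm_apply],
   fun c => by rw [← h.2, s.apply_symm_apply]⟩

theorem Semi.trans (h : Semi C g s) (h' : Semi C g' s') : Semi C (g.trans g') (s.trans s') :=
  ⟨fun c => by simp [h.1, h'.1], fun c => by simp [h.2, h'.2]⟩

theorem Semi.of_alg (g : F ≃ₐ[C] F) : Semi C (g : F ≃+* F) (RingEquiv.refl C) :=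
  ⟨fun c => g.commutes c, fun _ => rfl⟩

/-- pull back of an absolute value by an isometric semilinear map -/
def pullNV (g : F →+* F') {s : C ≃+* C} (hg : ∀ c, g (algebraMap C F c) = algebraMap C F' (s c))
    (hs : ∀ c, ‖s c‖ = ‖c‖) (w : NV C F') : NV C F where
  av := w.av.comp g.injective
  na := fun x y => by
    have := w.na (g x) (g y)
    rw [← map_add] at this
    exact this
  ext' := fun c => by
    change w.av (g (algebraMap C F c)) = _
    rw [hg, w.ext', hs]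

theorem pullNV_apply (g : F →+* F') {s : C ≃+* C}
    (hg : ∀ c, g (algebraMap C F c) = algebraMap C F' (s c)) (hs : ∀ c, ‖s c‖ = ‖c‖) (w : NV C F')
    (y : F) : pullNV g hg hs w y = w (g y) := rfl

theorem gp_map (hs : ∀ c, ‖s c‖ = ‖c‖) (P : Polynomial C) :
    P025H373.gp (P.map (s : C →+* C)) = P025H373.gp P := by
  apply le_antisymm
  · rw [P025H373.gp_le_iff]
    intro i
    rw [Polynomial.coeff_map]
    exact (hs _).trans_le (P025H373.norm_coeff_le P i)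
  · rw [P025H373.gp_le_iff]
    intro i
    rw [← hs]
    have := P025H373.norm_coeff_le (P.map (s : C →+* C)) i
    rwa [Polynomial.coeff_map] at this

theorem pullNV_overG (g : F →+* F') {s : C ≃+* C}
    (hg : ∀ c, g (algebraMap C F c) = algebraMap C F' (s c)) (hs : ∀ c, ‖s c‖ = ‖c‖) {w : NV C F'}
    (hw : w.OverG (g T)) : (pullNV g hg hs w).OverG T := by
  intro P
  rw [pullNV_apply, ← gp_map hs P, ← hw]
  congr 1
  rw [Polynomial.aeval_def, Polynomial.aeval_def, Polynomial.hom_eval₂, Polynomial.eval₂_map]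
  congr 1
  ext c
  exact hg c

/-- the component `g w` with `(g w) (g y) = w y` -/
theorem Semi.exists_w (h : Semi C g s) (hT : g T = T) (w : WW C T) :
    ∃ w' : WW C T, ∀ y, w'.1 (g y) = w.1 y := by
  have h1 : (g.symm : F →+* F) T = T := by
    have : g.symm (g T) = T := g.symm_apply_apply T
    rwa [hT] at this
  refine ⟨⟨pullNV (g.symm : F →+* F) h.symm.1 h.symm.2 w.1,
    pullNV_overG _ _ _ (by rw [h1]; exact w.2)⟩, fun y => ?_⟩
  change w.1 (g.symm (g y)) = _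
  rw [g.symm_apply_apply]

theorem Semi.itg (h : Semi C g s) (hT : g T = T) {f : F} (hf : Itg C T (g f)) : Itg C T f :=
  fun w => by
    obtain ⟨w', hw'⟩ := h.exists_w hT w
    rw [← hw']; exact hf w'

theorem symm_fix (hT : g T = T) : g.symm T = T := by
  have : g.symm (g T) = T := g.symm_apply_apply T
  rwa [hT] at this

variable [CFF C F]

theorem Semi.bb (h : Semi C g s) (hT : g T = T) {f : F} (hf : BB C T (g f)) : BB C T f := by
  refine ⟨h.itg hT hf.1, fun P hP => ?_⟩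
  have h1 := hf.2 (plEquiv g s h.1 P) (by rw [AuxFAct.mem_plEquiv, symm_fix hT]; exact hP)
  rwa [AuxFAct.mem_plEquiv, g.symm_apply_apply] at h1

theorem Semi.bb_iff (h : Semi C g s) (hT : g T = T) {f : F} : BB C T (g f) ↔ BB C T f :=
  ⟨h.bb hT, fun hf => h.symm.bb (symm_fix hT) (by rwa [g.symm_apply_apply])⟩

theorem Semi.dvd_ord (h : Semi C g s) {m : ℤ} {f : F} (hf : ∀ P : Plk C F, m ∣ ord P f)
    (P : Plk C F) : m ∣ ord P (g f) := by
  obtain ⟨Q, rfl⟩ := (plEquiv g s h.1).surjective P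
  rw [ord_plEquiv]; exact hf Q

theorem Semi.exists_tw (h : Semi C g s) (hT : g T = T) (b : Br C T) :
    ∃ b' : Br C T, Tw (g : F →+* F) b b' := by
  obtain ⟨w', hw'⟩ := h.exists_w hT b.w
  obtain ⟨b', -, hb'⟩ := I.exists_tw (g : F →+* F) h.1 h.2 b w' hw'
    (fun y' _ => ⟨g.symm y', by simp⟩) ⟨T, b.w.2.apply_T.le, b.fin, by simp [hT]⟩
  exact ⟨b', hb'⟩

variable [FiniteDimensional C⟮T⟯ F]

theorem Semi.glue (h : Semi C g s) (hT : g T = T) {b₁ b₁' b₂ b₂' : Br C T}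
    (h₁ : Tw (g : F →+* F) b₁ b₁') (h₂ : Tw (g : F →+* F) b₂ b₂') (hg : Glue b₁ b₂) :
    Glue b₁' b₂' := by
  rw [glue_iff_zero] at hg ⊢
  intro f hf
  obtain ⟨f, rfl⟩ := g.surjective f
  have hf' := h.bb hT hf
  exact (h₁.ev_zero (hf'.1 _) (hf'.red_mem _)).trans ((hg f hf').trans
    (h₂.ev_zero (hf'.1 _) (hf'.red_mem _)).symm)

end semi

theorem act : ACT := by
  intro C F _ _ _ _ _ _ T _ g s h hT
  refine ⟨fun f => h.bb_iff hT, h.exists_tw hT, fun b b' hb f hf c hc =>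
    hb.vl_iff h.1 h.2 (hf.1 _) (hf.red_mem _) hc, fun b₁ b₁' b₂ b₂' h₁ h₂ =>
    ⟨⟨h.glue hT h₁ h₂, h.symm.glue (symm_fix hT) h₁.symm h₂.symm⟩, ⟨?_, ?_⟩⟩⟩
  · rintro rfl; exact h₁.inj_equiv h₂
  · rintro rfl; exact h₁.inj_left h₂

end Vale.Agent.P027M.I
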