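import Vale.Agent.P027M.I.Spec2
import Vale.Agent.P027M.I.Act

/-!
# P027 route M, block I: tame unramified covers of nodal curves are nodal
-/

set_option linter.unusedSectionVars false

noncomputable section

open IntermediateField Vale.Agent.P019P P025H746 P025H492 Module

namespace Vale.Agent.P027M.I

namespace Cov

theorem sum_fib_le {α β : Type} (A : Set α) (hA : A.Finite) (t : Finset β) (g : α → β)
    (h : ∀ x ∈ t, ∀ y, g y = x → y ∈ A) : ∑ x ∈ t, Set.ncard {y | g y = x} ≤ A.ncard := by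
  let _i : DecidableEq β := Classical.decEq β
  have h1 : ∀ x ∈ t, Set.ncard {y | g y = x} = (hA.toFinset.filter fun y => g y = x).card := by
    intro x hx
    rw [← Set.ncard_coe_finset]
    refine congrArg Set.ncard (Set.ext fun y => ?_)
    simp only [Set.mem_ofPred_eq, Finset.coe_filter, Set.Finite.mem_toFinset]
    exact ⟨fun hy => ⟨h x hx y hy, hy⟩, fun hy => hy.2⟩
  rw [Finset.sum_congr rfl h1, Finset.sum_card_fiberwise_eq_card_filter,
    Set.ncard_eq_toFinset_card _ hA]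
  exact Finset.card_filter_le _ _

variable {C : Type} [NontriviallyNormedField C] [IsUltrametricDist C] [IsAlgClosed C]
variable {F : Type} [Field F] [Algebra C F] {T : F}

/-- the places on one component which belong to `S` -/
def fib (S : Finset (Br C T)) (w : WW C T) : Set (Plk (kC C) (kap w.1)) :=
  {x | ∃ h, (⟨w, x, h⟩ : Br C T) ∈ S}

open Classical in
theorem fib_card (S : Finset (Br C T)) (w : WW C T) :
    (fib S w).Finite ∧ (fib S w).ncard = (S.filter fun b => b.w = w).card := by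
  have hinj : ∀ a b (ha : a ∈ fib S w) (hb : b ∈ fib S w),
      (⟨w, a, ha.1⟩ : Br C T) = ⟨w, b, hb.1⟩ → a = b := by
    intro a b ha hb h
    simpa using h
  constructor
  · refine Set.finite_coe_iff.1 (Finite.of_injective
      (fun a : fib S w => (⟨⟨w, a.1, a.2.1⟩, a.2.2⟩ : S)) fun a b h => ?_)
    exact Subtype.ext (hinj _ _ a.2 b.2 (congrArg Subtype.val h))
  · rw [← Set.ncard_coe_finset]
    refine Set.ncard_congr (fun a ha => (⟨w, a, ha.1⟩ : Br C T)) (fun a ha => ?_) hinj ?_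
    · simpa using ha.2
    · rintro ⟨w', x, h⟩ hb
      simp only [Finset.coe_filter, Set.mem_ofPred_eq] at hb
      obtain ⟨hb, rfl⟩ := hb
      exact ⟨x, ⟨h, hb⟩, rfl⟩

theorem card_fib [FiniteDimensional C⟮T⟯ F] (S : Finset (Br C T)) :
    S.card = ∑ w : WW C T, (fib S w).ncard := by
  classical
  rw [Finset.card_eq_sum_card_fiberwise (f := Br.w) (t := Finset.univ) (fun _ _ => by simp)]
  exact Finset.sum_congr rfl fun w _ => (fib_card S w).2.symm

variable {L : Type} [Field L] [Algebra C L] [Algebra F L] [IsScalarTower C F L]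
  [FiniteDimensional C⟮T⟯ F] [FiniteDimensional C⟮algebraMap F L T⟯ L]

theorem pair (rhc : RHC) (w : WW C T) (v : WW C (algebraMap F L T)) [hx : NVExt w.1 v.1]
    [FiniteDimensional (kap w.1) (kap v.1)] [IsGalois (kap w.1) (kap v.1)]
    (cyc : IsCyclic (kap v.1 ≃ₐ[kap w.1] kap v.1))
    (hn : ((finrank (kap w.1) (kap v.1) : ℕ) : kC C) ≠ 0) (S : Finset (Br C T))
    (S' : Finset (Br C (algebraMap F L T)))
    (hS' : ∀ b', b' ∈ S' ↔ ∃ b ∈ S, Tw (algebraMap F L) b b') :
    (finrank (kap w.1) (kap v.1) : ℤ) * (2 * gen (kC C) (kap w.1) - 2 + (fib S w).ncard) -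
      (fib S' v).ncard ≤ 2 * gen (kC C) (kap v.1) - 2 := by
  classical
  have h := rhc (kC C) (kap w.1) (kap v.1) (fib_card S w).1.toFinset cyc hn
  have h2 : ∑ x ∈ (fib_card S w).1.toFinset,
      Set.ncard {y : Plk (kC C) (kap v.1) | down (kap w.1) y = x} ≤ (fib S' v).ncard := by
    refine sum_fib_le _ (fib_card S' v).1 _ _ fun x hx' y hy => ?_
    obtain ⟨hf, hb⟩ := (Set.Finite.mem_toFinset _).1 hx'
    subst hy
    have hT : v.1.red (algebraMap F L T) ∈ y.1 := by
      rw [red_algebraMap' (w := w.1) (Itg.self (C := C) (T := T) w)]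
      exact hf
    refine ⟨hT, (hS' _).2 ⟨_, hb, hx.out, fun z hz => ?_⟩⟩
    change v.1.red (algebraMap F L z) ∈ y.1 ↔ _
    rw [red_algebraMap' (w := w.1) hz]
    rfl
  rw [Finset.sum_sub_distrib, Finset.sum_const, ← Set.ncard_eq_toFinset_card _ (fib_card S w).1,
    ← Nat.cast_sum] at h
  have h3 : ((∑ x ∈ (fib_card S w).1.toFinset,
      Set.ncard {y : Plk (kC C) (kap v.1) | down (kap w.1) y = x} : ℕ) : ℤ) ≤
        (fib S' v).ncard := by exact_mod_cast h2
  simp only [nsmul_eq_mul] at h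
  linarith

/-- the components upstairs, sorted by the component below -/
def sg (T : F) (L : Type) [Field L] [Algebra C L] [Algebra F L] [IsScalarTower C F L] :
    (Σ w : WW C T, {v : NV C L // NVExt w.1 v}) ≃ WW C (algebraMap F L T) where
  toFun p := ⟨p.2.1, NVExt.overG.2 p.1.2⟩
  invFun v := ⟨⟨v.1.comap F, v.2.comap⟩, ⟨v.1, inferInstance⟩⟩
  right_inv v := rfl
  left_inv := by
    rintro ⟨⟨w, hw⟩, ⟨v, hv⟩⟩
    obtain rfl := nvExt_iff.1 hv
    rfl

end Cov

open Cov in
theorem cov (dec : DEC) (trb : TRB) (lift : LIFT) (half : HALF) (rhc : RHC) : COV := by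
  intro C F L _ _ _ _ _ _ _ _ _ _ _ _ _ _ T _ _ hF S hS hU hn hcyc
  classical
  obtain ⟨hL, hw⟩ := dec C F L T hn hF
  obtain ⟨-, hb⟩ := trb C F L T
  have hn0 : finrank F L ≠ 0 := finrank_pos.ne'
  refine ⟨hL, fun v y hy hg => ?_, ?_⟩
  · obtain ⟨hG, hd, hτ, -⟩ := (hw ⟨v.1.comap F, v.2.comap⟩).2 v.1
    have : FiniteDimensional (kap (v.1.comap F)) (kap v.1) :=
      FiniteDimensional.of_finrank_pos (Nat.pos_of_ne_zero fun h => hn0 (by
        rw [h] at hd; exact Nat.eq_zero_of_zero_dvd hd))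
    have h1 : v.1.red y ∈ (algebraMap (kap (v.1.comap F)) (kap v.1)).range := by
      refine (IsGalois.mem_range_algebraMap_iff_fixed _).2 fun τ => ?_
      obtain ⟨g, hg1, hg2⟩ := hτ τ
      rw [hg2 y hy]
      exact (red_eq_iff (by rw [hg1]; exact hy) hy).2 (hg g hg1)
    obtain ⟨z, hz⟩ := h1
    obtain ⟨y₀, hy₀, rfl⟩ := NV.red_surj z
    refine ⟨y₀, (red_eq_iff hy hy₀).1 ?_⟩
    exact hz.symm.trans (red_algebraMap' (w := v.1.comap F) (v := v.1) hy₀).symm
  · let S' : Finset (Br C (algebraMap F L T)) := S.biUnion fun b => (hb b).1.toFinset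
    have hS' : ∀ b', b' ∈ S' ↔ ∃ b ∈ S, Tw (algebraMap F L) b b' := by
      intro b'
      simp only [S', Finset.mem_biUnion, Set.Finite.mem_toFinset, Set.mem_ofPred_eq]
    have hp : ∀ b' ∈ S', ∃ b'' ∈ S', b'' ≠ b' ∧ Glue b' b'' := by
      intro b' hb'
      obtain ⟨b, hbS, ht⟩ := (hS' b').1 hb'
      obtain ⟨b₂, hb₂, hne, hg⟩ := hS.2 b hbS
      obtain ⟨b'', ht', hg'⟩ := lift C F L T b b₂ hg b' ht
      refine ⟨b'', (hS' _).2 ⟨b₂, hb₂, ht'⟩, ?_, hg'⟩
      rintro rfl
      exact hne (ht'.inj_left ht)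
    refine ⟨S', ⟨le_antisymm (half C L _ hL S' hp) ?_, hp⟩, hS'⟩
    have hfin : Finite (Σ w : WW C T, {v : NV C L // NVExt w.1 v}) :=
      Finite.of_equiv _ (sg T L).symm
    have hfin' : ∀ w : WW C T, Finite {v : NV C L // NVExt w.1 v} := fun w =>
      Finite.of_injective _ (sigma_mk_injective (β := fun w : WW C T =>
        {v : NV C L // NVExt w.1 v}) (i := w))
    let _i : ∀ w : WW C T, Fintype {v : NV C L // NVExt w.1 v} := fun w => Fintype.ofFinite _
    have key : ∀ w : WW C T, (finrank F L : ℤ) * (2 * gen (kC C) (kap w.1) - 2 + (fib S w).ncard) ≤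
        ∑ v : {v : NV C L // NVExt w.1 v},
          ((2 * gen (kC C) (kap (sg T L ⟨w, v⟩).1) - 2 : ℤ) + (fib S' (sg T L ⟨w, v⟩)).ncard) := by
      intro w
      obtain ⟨hs, hv⟩ := hw w
      rw [finsum_eq_sum_of_fintype] at hs
      rw [← hs, Nat.cast_sum, Finset.sum_mul]
      refine Finset.sum_le_sum fun v _ => ?_
      obtain ⟨hG, hd, -, hc⟩ := hv v.1
      have : FiniteDimensional (kap w.1) (kap v.1) :=
        FiniteDimensional.of_finrank_pos (Nat.pos_of_ne_zero fun h => hn0 (by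
          rw [h] at hd; exact Nat.eq_zero_of_zero_dvd hd))
      have hn' : ((finrank (kap w.1) (kap v.1) : ℕ) : kC C) ≠ 0 := by
        obtain ⟨c, hc'⟩ := hd
        intro h
        apply hn
        rw [hc', Nat.cast_mul, h, zero_mul]
      have := @pair C _ _ _ F _ _ T L _ _ _ _ _ _ rhc w (sg T L ⟨w, v⟩) v.2 this hG
        (hc (hcyc (sg T L ⟨w, v⟩))) hn' S S' hS'
      exact sub_le_iff_le_add.1 this
    have h1 := Finset.sum_le_sum fun w (_ : w ∈ (Finset.univ : Finset (WW C T))) => key w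
    rw [← Fintype.sum_sigma (fun p : Σ w : WW C T, {v : NV C L // NVExt w.1 v} =>
      ((2 * gen (kC C) (kap (sg T L p).1) - 2 : ℤ) + (fib S' (sg T L p)).ncard)),
      Equiv.sum_comp (sg T L) (fun v => ((2 * gen (kC C) (kap v.1) - 2 : ℤ) + (fib S' v).ncard)),
      ← Finset.mul_sum, Finset.sum_add_distrib, Finset.sum_add_distrib, ← Nat.cast_sum,
      ← Nat.cast_sum, ← card_fib, ← card_fib, hS.1] at h1
    have h2 := hU.genus
    have h3 : ∀ {ι : Type} [Fintype ι] (a : ι → ℤ), ∑ i, (2 * a i - 2) = 2 * ∑ i, (a i - 1) := by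
      intro ι _ a
      rw [Finset.mul_sum]
      exact Finset.sum_congr rfl fun i _ => by ring
    rw [h3, h3] at h1
    unfold cd at h1 ⊢
    linarith

end Vale.Agent.P027M.I
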