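import Vale.Agent.P027M.I.Spec2
import Vale.Agent.P027M.I.Act

/-!
# P027 route M, block I: tame Galois extensions have no defect (row I.DEC)
-/

set_option linter.all false

noncomputable section

open IntermediateField Vale.Agent.P019P P025H746 P025H492 Module

namespace Vale.Agent.P027M.I

namespace DecP

variable {C F L : Type} [NontriviallyNormedField C] [IsUltrametricDist C] [IsAlgClosed C]
  [Field F] [Algebra C F] [Field L] [Algebra C L] [Algebra F L] [IsScalarTower C F L]
  [FiniteDimensional F L]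

variable (F) in
/-- the decomposition group -/
def DG (v : NV C L) : Subgroup (L ≃ₐ[F] L) where
  carrier := {g | ∀ y, v (g y) = v y}
  one_mem' := fun _ => rfl
  mul_mem' {g h} hg hh := fun y => by rw [AlgEquiv.mul_apply, hg, hh]
  inv_mem' {g} hg := fun y => by
    rw [← hg (g⁻¹ y), ← AlgEquiv.mul_apply, mul_inv_cancel, AlgEquiv.one_apply]

theorem exists_ext' (w : NV C F) (hval : ∀ x : F, ∃ c : C, ‖c‖ = w x) :
    ∃ v : NV C L, NVExt w v := by
  obtain ⟨c, hc⟩ := NormedField.exists_one_lt_norm C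
  obtain ⟨u, h1, h2⟩ := P025H458.exists_ext (K := L) w.av w.na w.ext'
    (fun f => (hval f).imp fun _ h => h.symm) ⟨algebraMap C F c, by rw [w.ext']; exact hc⟩
  exact ⟨⟨u, h1, fun c => by rw [IsScalarTower.algebraMap_apply C F L, h2, w.ext']⟩, ⟨h2⟩⟩

/-- an automorphism of order prime to the residue characteristic which is trivial on the residue
field is trivial -/
theorem faith {v : NV C L} (hval : ∀ x : L, ∃ c : C, ‖c‖ = v x) {g : L ≃ₐ[F] L}
    (hg : g ∈ DG F v) (hr : ((orderOf g : ℕ) : kC C) ≠ 0)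
    (ht : ∀ y, v y ≤ 1 → v.red (g y) = v.red y) : g = 1 := by
  have rC : ((orderOf g : ℕ) : C) ≠ 0 := fun h => hr (by
    have : ((orderOf g : ℕ) : OC C) = 0 := Subtype.ext (by simpa using h)
    rw [← map_natCast (IsLocalRing.residue (OC C)), this, map_zero])
  have rL : ((orderOf g : ℕ) : L) ≠ 0 := by
    rw [← map_natCast (algebraMap C L)]
    exact (_root_.map_ne_zero _).2 rC
  have rK : ((orderOf g : ℕ) : kap v) ≠ 0 := by
    rw [← map_natCast (algebraMap (kC C) (kap v))]
    exact (_root_.map_ne_zero _).2 hr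
  have zero : ∀ y : L, ∑ i ∈ Finset.range (orderOf g), (g ^ i) y = 0 → y = 0 := by
    intro y hy
    by_contra y0
    obtain ⟨c, hc⟩ := hval y
    have v0 : v y ≠ 0 := v.av.ne_zero y0
    have e : v (y / algebraMap C L c) = 1 := by rw [map_div₀, v.ext', hc, div_self v0]
    have n : ∀ i : ℕ, v ((g ^ i) (y / algebraMap C L c)) ≤ 1 := fun i =>
      ((pow_mem hg i) _).trans_le e.le
    have it : ∀ i : ℕ, v.red ((g ^ i) (y / algebraMap C L c)) = v.red (y / algebraMap C L c) := by
      intro i
      induction i with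
      | zero => rw [pow_zero, AlgEquiv.one_apply]
      | succ i ih => rw [pow_succ', AlgEquiv.mul_apply, ht _ (n i), ih]
    have s : ∑ i ∈ Finset.range (orderOf g), (g ^ i) (y / algebraMap C L c) = 0 := by
      rw [Finset.sum_congr rfl fun i _ => (show (g ^ i) (y / algebraMap C L c) =
        (g ^ i) y / algebraMap C L c by
          rw [map_div₀, IsScalarTower.algebraMap_apply C F L, AlgEquiv.commutes]),
        ← Finset.sum_div, hy, zero_div]
    have := congrArg v.red s
    rw [NV.red_sum fun i _ => n i, Finset.sum_congr rfl fun i _ => it i, Finset.sum_const,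
      Finset.card_range, nsmul_eq_mul, NV.red_zero] at this
    exact mul_ne_zero rK (NV.red_ne_zero e) this
  ext x
  have h := zero (g x - x) (by
    have h1 := Finset.sum_range_sub (fun i => (g ^ i) x) (orderOf g)
    rw [pow_orderOf_eq_one, pow_zero, sub_self] at h1
    rw [← h1]
    exact Finset.sum_congr rfl fun i _ => by rw [map_sub, pow_succ, AlgEquiv.mul_apply])
  exact sub_eq_zero.1 h

variable (w : NV C F) (v : NV C L) [NVExt w v]

/-- the action on the residue field -/
def ra (g : DG F v) : kap v →ₐ[kap w] kap v :=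
  { rm (g.1 : L →+* L) g.2 with
    commutes' := fun a => by
      obtain ⟨x, hx, rfl⟩ := NV.red_surj a
      rw [← red_algebraMap' hx]
      exact (rm_red (g.1 : L →+* L) g.2 _).trans (congrArg v.red (g.1.commutes x)) }

theorem ra_red (g : DG F v) (y : L) : ra w v g (v.red y) = v.red (g.1 y) :=
  rm_red (g.1 : L →+* L) g.2 y

theorem ra_bij (g : DG F v) : Function.Bijective (ra w v g) :=
  ⟨(ra w v g : kap v →+* kap v).injective,
    rm_surj (g.1 : L →+* L) g.2 fun y _ => ⟨g.1.symm y, by simp⟩⟩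

/-- the homomorphism from the decomposition group -/
def rho : DG F v →* (kap v ≃ₐ[kap w] kap v) where
  toFun g := AlgEquiv.ofBijective (ra w v g) (ra_bij w v g)
  map_one' := by
    ext a
    obtain ⟨y, -, rfl⟩ := NV.red_surj a
    exact ra_red w v 1 y
  map_mul' g h := by
    ext a
    obtain ⟨y, -, rfl⟩ := NV.red_surj a
    change ra w v (g * h) (v.red y) = ra w v g (ra w v h (v.red y))
    rw [ra_red, ra_red, ra_red]
    rfl

theorem rho_red (g : DG F v) (y : L) : rho w v g (v.red y) = v.red (g.1 y) := ra_red w v g y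

variable [IsGalois F L]

theorem rho_inj (hval : ∀ x : L, ∃ c : C, ‖c‖ = v x) (hr : ((finrank F L : ℕ) : kC C) ≠ 0) :
    Function.Injective (rho w v) := by
  rw [injective_iff_map_eq_one]
  intro g hg
  refine Subtype.ext (faith hval g.2 (fun h => hr ?_) fun y _ => by
    rw [← rho_red w v g y, hg, AlgEquiv.one_apply])
  obtain ⟨t, ht⟩ := orderOf_dvd_natCard g.1
  rw [← IsGalois.card_aut_eq_finrank, ht, Nat.cast_mul, h, zero_mul]

omit [NVExt w v] in
theorem sum_card (hval : ∀ x : F, ∃ c : C, ‖c‖ = w x) [Fintype {v : NV C L // NVExt w v}] :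
    ∑ v : {v : NV C L // NVExt w v}, Nat.card (DG F v.1) = finrank F L := by
  classical
  obtain ⟨v₀, h₀⟩ := exists_ext' (L := L) w hval
  let φ : (L ≃ₐ[F] L) → {v : NV C L // NVExt w v} := fun g => ⟨v₀.twist g, inferInstance⟩
  rw [← IsGalois.card_aut_eq_finrank, Nat.card_eq_fintype_card, ← Finset.card_univ,
    Finset.card_eq_sum_card_fiberwise (f := φ) (t := Finset.univ) (by simp)]
  refine Finset.sum_congr rfl fun u _ => ?_
  obtain ⟨g₀, hg₀⟩ := P025H992.exists_cj (K := F) v₀ u.1
    (P025H992.nv_ext fun x => (h₀.out x).trans (u.2.out x).symm)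
  have e : ∀ y, u.1 y = v₀ (g₀ y) := fun y => by rw [hg₀]; rfl
  rw [← Fintype.card_subtype, ← Nat.card_eq_fintype_card]
  refine Nat.card_congr (Equiv.subtypeEquiv (Equiv.mulLeft g₀) fun d => ⟨fun h => ?_, fun h => ?_⟩)
  · exact Subtype.ext (P025H992.nv_ext fun y => ((e (d y)).symm.trans (h y)))
  · intro y
    rw [e (d y)]
    exact NV.congr (congrArg Subtype.val h) y

end DecP

open DecP in
theorem dec : DEC := by
  intro C F L _ _ _ _ _ _ _ _ _ _ _ _ _ T _ _ hr hF
  classical
  have hval : ∀ w : WW C T, ∀ x : F, ∃ c : C, ‖c‖ = w.1 x := fun w => exists_norm_eq w.2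
  have hvL : ∀ (w : WW C T) (v : NV C L) [NVExt w.1 v] (x : L), ∃ c : C, ‖c‖ = v x :=
    fun w v _ => exists_norm_eq (T := algebraMap F L T) (NVExt.overG.2 w.2)
  have hfin : ∀ w : WW C T, Finite {v : NV C L // NVExt w.1 v} := fun w => finite_ext w.1 (hval w)
  letI : ∀ w : WW C T, Fintype {v : NV C L // NVExt w.1 v} := fun w => Fintype.ofFinite _
  have le1 : ∀ (w : WW C T) (v : NV C L) [NVExt w.1 v],
      Nat.card (DG F v) ≤ Nat.card (kap v ≃ₐ[kap w.1] kap v) ∧
      Nat.card (kap v ≃ₐ[kap w.1] kap v) ≤ finrank (kap w.1) (kap v) := by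
    intro w v _
    haveI := finite_resdeg w.1 (hval w) v
    exact ⟨Nat.card_le_card_of_injective _ (rho_inj w.1 v (hvL w v) hr),
      by rw [Nat.card_eq_fintype_card]; exact AlgEquiv.card_le⟩
  have sm : ∀ w : WW C T,
      ∑ v : {v : NV C L // NVExt w.1 v}, finrank (kap w.1) (kap v.1) = finrank F L := fun w =>
    le_antisymm (sum_resdeg_le w.1 (hval w) (fun v : {v : NV C L // NVExt w.1 v} => v.1)
      Subtype.val_injective) ((sum_card w.1 (hval w)).symm.trans_le
        (Finset.sum_le_sum fun v _ => (le1 w v.1).1.trans (le1 w v.1).2))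
  have eq1 : ∀ (w : WW C T) (v : NV C L) [h : NVExt w.1 v],
      Nat.card (DG F v) = finrank (kap w.1) (kap v) := fun w v h =>
    (Finset.sum_eq_sum_iff_of_le fun (u : {v : NV C L // NVExt w.1 v}) _ =>
      (le1 w u.1).1.trans (le1 w u.1).2).1 ((sum_card w.1 (hval w)).trans (sm w).symm) ⟨v, h⟩
      (Finset.mem_univ _)
  refine ⟨?_, fun w => ⟨by rw [finsum_eq_sum_of_fintype, sm w], fun v _ => ?_⟩⟩
  · let e : WW C (algebraMap F L T) ≃ (Σ w : WW C T, {v : NV C L // NVExt w.1 v}) :=
      { toFun := fun v => ⟨⟨v.1.comap F, v.2.comap⟩, ⟨v.1, inferInstance⟩⟩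
        invFun := fun p => ⟨p.2.1, NVExt.overG.2 p.1.2⟩
        left_inv := fun v => rfl
        right_inv := by
          rintro ⟨⟨w, hw⟩, ⟨v, hv⟩⟩
          obtain rfl := nvExt_iff.1 hv
          rfl }
    unfold Full at hF ⊢
    refine (Fintype.sum_equiv e _ (fun p => finrank (kC C)⟮p.2.1.red (algebraMap F L T)⟯
      (kap p.2.1)) (fun v => rfl)).trans ?_
    rw [Fintype.sum_sigma, finrank_up, ← hF, Finset.sum_mul]
    refine Finset.sum_congr rfl fun w _ => ?_
    rw [← sm w, Finset.mul_sum]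
    exact Finset.sum_congr rfl fun v _ => (finrank_mul_resdeg w.2.apply_T.le).symm
  · haveI := finite_resdeg w.1 (hval w) v
    have e1 := eq1 w v
    have e2 : Nat.card (kap v ≃ₐ[kap w.1] kap v) = finrank (kap w.1) (kap v) :=
      le_antisymm (le1 w v).2 (e1 ▸ (le1 w v).1)
    have sj := ((rho_inj w.1 v (hvL w v) hr).bijective_of_nat_card_le (e2.trans e1.symm).le).2
    refine ⟨IsGalois.of_card_aut_eq_finrank _ _ e2, ?_, fun τ => ?_, fun ⟨d, hd⟩ => ?_⟩
    · rw [← e1, ← IsGalois.card_aut_eq_finrank]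
      exact Subgroup.card_subgroup_dvd_card _
    · obtain ⟨g, rfl⟩ := sj τ
      exact ⟨g.1, g.2, fun y _ => rho_red w.1 v g y⟩
    · have : DG F v = Subgroup.zpowers d := Subgroup.ext hd
      haveI : IsCyclic (DG F v) := this ▸ inferInstance
      exact isCyclic_of_surjective _ sj

end Vale.Agent.P027M.I
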