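import Vale.Agent.P027M.I.Basic

/-!
# P027 route M, block I, row DIM: reduction keeps the dimension
-/

set_option linter.unusedSectionVars false

noncomputable section

open IntermediateField Vale.Agent.P019P P025H746 P025H492 P025H373 Module Polynomial

namespace Vale.Agent.P027M.I

namespace Dim

/-- pivoting: a family of coordinates whose maximum is attained has an orthonormal basis -/
theorem pivot {C : Type} [NormedField C] [IsUltrametricDist C] {ι : Type} (n : ℕ) :
    ∀ (V : Type) [AddCommGroup V] [Module C V] [FiniteDimensional C V] (l : ι → V →ₗ[C] C),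
      (∀ x, x ≠ 0 → ∃ i, l i x ≠ 0 ∧ ∀ i', ‖l i' x‖ ≤ ‖l i x‖) → finrank C V = n →
      ∃ b : Fin n → V, (∀ i j, ‖l i (b j)‖ ≤ 1) ∧
        ∀ c : Fin n → C, (∀ i, ‖l i (∑ j, c j • b j)‖ < 1) → ∀ j, ‖c j‖ < 1 := by
  induction n with
  | zero => exact fun V _ _ _ l _ _ => ⟨Fin.elim0, fun _ j => j.elim0, fun _ _ j => j.elim0⟩
  | succ n ih =>
    intro V _ _ _ l hl hn
    have : Nontrivial V := Module.nontrivial_of_finrank_eq_succ hn
    obtain ⟨x, hx⟩ := exists_ne (0 : V)
    obtain ⟨i, hi, hi'⟩ := hl x hx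
    have hin : 0 < ‖l i x‖ := norm_pos_iff.2 hi
    have hl0 : l i ≠ 0 := fun h => hi (by rw [h, LinearMap.zero_apply])
    have hk := Module.Dual.finrank_ker_add_one_of_ne_zero (f := l i) hl0
    obtain ⟨b, hb1, hb2⟩ := ih (LinearMap.ker (l i))
      (fun i' => (l i').comp (LinearMap.ker (l i)).subtype)
      (fun y hy => hl y.1 fun h => hy (Subtype.ext h)) (by omega)
    have hv : ∀ i', ‖l i' ((l i x)⁻¹ • x)‖ ≤ 1 := fun i' => by
      rw [map_smul, smul_eq_mul, norm_mul, norm_inv, inv_mul_le_iff₀ hin, mul_one]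
      exact hi' i'
    refine ⟨Fin.cons ((l i x)⁻¹ • x) fun j => (b j : V), fun i' j => ?_, fun c hc => ?_⟩
    · refine Fin.cases ?_ (fun j => ?_) j
      · exact hv i'
      · exact hb1 i' j
    · simp only [Fin.sum_univ_succ, Fin.cons_zero, Fin.cons_succ] at hc
      have h0 : ‖c 0‖ < 1 := by
        have h1 := hc i
        have h2 : l i (∑ j : Fin n, c j.succ • (b j : V)) = 0 :=
          LinearMap.mem_ker.1 (Submodule.sum_mem _ fun j _ => Submodule.smul_mem _ _ (b j).2)
        rwa [map_add, h2, add_zero, map_smul, map_smul, smul_eq_mul, smul_eq_mul,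
          inv_mul_cancel₀ hi, mul_one] at h1
      have h3 := hb2 (fun j => c j.succ) fun i' => by
        have h4 : ‖l i' (c 0 • (l i x)⁻¹ • x)‖ < 1 := by
          rw [map_smul, smul_eq_mul, norm_mul]
          exact mul_lt_one_of_nonneg_of_lt_one_left (norm_nonneg _) h0 (hv i')
        have h5 : l i' (∑ j : Fin n, c j.succ • (b j : V)) =
            l i' (c 0 • (l i x)⁻¹ • x + ∑ j : Fin n, c j.succ • (b j : V)) +
              -l i' (c 0 • (l i x)⁻¹ • x) := by
          rw [map_add]; ring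
        have h6 : ‖l i' (∑ j : Fin n, c j.succ • (b j : V))‖ < 1 := by
          rw [h5]
          exact (IsUltrametricDist.norm_add_le_max _ _).trans_lt
            (max_lt (hc i') (by rwa [norm_neg]))
        simpa using h6
      intro j
      exact Fin.cases h0 h3 j

variable {C : Type} [NontriviallyNormedField C] [IsUltrametricDist C] [IsAlgClosed C]
variable {F : Type} [Field F] [Algebra C F] {T : F}

/-- a common denominator of Gauss norm one -/
theorem exists_coords {n : ℕ} {z : Fin n → F} (hz : P025H133.ONB C T z) (V : Submodule C F)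
    [FiniteDimensional C V] :
    ∃ (Q : C[X]) (Φ : V →ₗ[C] (Fin n → C[X])), gp Q = 1 ∧
      ∀ x : V, aeval T Q * (x : F) = ∑ k, aeval T (Φ x k) * z k := by
  classical
  let e := Module.finBasis C V
  choose Q P hQ hP using fun l => hz.span (e l : F)
  choose R hR using fun l => Finset.dvd_prod_of_mem Q (Finset.mem_univ l)
  have h0 : ∏ l, Q l ≠ 0 := Finset.prod_ne_zero_iff.2 fun l _ => hQ l
  obtain ⟨i, hi⟩ := exists_coeff_eq (∏ l, Q l)
  set c := (∏ l, Q l).coeff i
  have hc : ‖c‖ ≠ 0 := fun h => h0 (gp_eq_zero.1 (hi ▸ h))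
  refine ⟨Polynomial.C c⁻¹ * ∏ l, Q l,
    e.constr C fun l k => Polynomial.C c⁻¹ * R l * P l k, ?_, fun x => ?_⟩
  · rw [gp_mul, gp_C, norm_inv, ← hi, inv_mul_cancel₀ hc]
  · have h1 : ∀ l, aeval T (Polynomial.C c⁻¹ * ∏ l, Q l) * (e l : F) =
        ∑ k, aeval T (Polynomial.C c⁻¹ * R l * P l k) * z k := fun l => by
      rw [hR l, mul_comm (Q l), ← mul_assoc, map_mul _ _ (Q l), mul_assoc, hP l, Finset.mul_sum]
      refine Finset.sum_congr rfl fun k _ => ?_
      rw [map_mul _ _ (P l k), mul_assoc]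
    have hx : x ∈ Submodule.span C (Set.range e) := by rw [e.span_eq]; trivial
    induction hx using Submodule.span_induction with
    | mem y hy =>
      obtain ⟨l, rfl⟩ := hy
      rw [h1, Basis.constr_basis]
    | zero => simp
    | add y y' _ _ h h' =>
      rw [Submodule.coe_add, mul_add, h, h', map_add, ← Finset.sum_add_distrib]
      refine Finset.sum_congr rfl fun k _ => ?_
      rw [Pi.add_apply, map_add, add_mul]
    | smul a y _ h =>
      rw [Submodule.coe_smul, mul_smul_comm, h, map_smul, Finset.smul_sum]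
      refine Finset.sum_congr rfl fun k _ => ?_
      rw [Pi.smul_apply, map_smul, smul_mul_assoc]

variable [FiniteDimensional C⟮T⟯ F]

/-- orthonormal bases -/
theorem exists_onb (h : Full C T) (V : Submodule C F) [FiniteDimensional C V] :
    ∃ b : Fin (finrank C V) → V, (∀ j, Itg C T (b j : F)) ∧
      ∀ c : Fin (finrank C V) → C, (∀ w : WW C T, w.1 (∑ j, c j • (b j : F)) < 1) →
        ∀ j, ‖c j‖ < 1 := by
  classical
  obtain ⟨n, z, hz⟩ := P025H992.exists_on h.transc h
  obtain ⟨Q, Φ, hQ, hΦ⟩ := exists_coords hz V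
  have hw : ∀ (w : WW C T) (x : V), w.1 (∑ k, aeval T (Φ x k) * z k) = w.1 x := fun w x => by
    rw [← hΦ, map_mul, w.2 Q, hQ, one_mul]
  have := h.nonempty
  obtain ⟨b, hb1, hb2⟩ := pivot (C := C) (ι := Fin n × ℕ) _ V
    (fun i => (lcoeff C i.2).comp ((LinearMap.proj i.1).comp Φ)) (fun x hx => by
      have h1 : ∃ k, Φ x k ≠ 0 := by
        by_contra h2
        push Not at h2
        obtain ⟨w⟩ := this
        have h3 := hw w x
        simp only [h2, map_zero, zero_mul, Finset.sum_const_zero] at h3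
        exact hx (Subtype.ext (w.1.av.eq_zero.1 h3.symm))
      obtain ⟨k₁, hk₁⟩ := h1
      have : Nonempty (Fin n) := ⟨k₁⟩
      obtain ⟨k, hk⟩ := Finite.exists_max fun k => gp (Φ x k)
      obtain ⟨i, hi⟩ := exists_coeff_eq (Φ x k)
      refine ⟨(k, i), fun h4 => hk₁ (gp_eq_zero.1 (le_antisymm ?_ (gp_nonneg _))), fun i' => ?_⟩
      · change (Φ x k).coeff i = 0 at h4
        rw [h4, norm_zero] at hi
        exact (hk k₁).trans hi.ge
      · change ‖(Φ x i'.1).coeff i'.2‖ ≤ ‖(Φ x k).coeff i‖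
        rw [hi]
        exact (norm_coeff_le _ _).trans (hk _)) rfl
  refine ⟨b, fun j w => ?_, fun c hc => hb2 c fun i => ?_⟩
  · rw [← hw]
    exact NV.sum_le zero_le_one fun k _ => NV.mul_le_one
      (NV.aeval_le w.2.apply_T.le (gp_le_iff.2 fun i => hb1 (k, i) j)) (hz.le w.1 w.2 k)
  · obtain ⟨w₀, hw₀⟩ := Finite.exists_max fun w : WW C T => w.1 (∑ j, c j • (b j : F))
    have h1 := hz.on (Φ (∑ j, c j • b j)) _ (fun w hw' => by
      rw [hw ⟨w, hw'⟩]
      simpa using hw₀ ⟨w, hw'⟩) i.1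
    exact ((norm_coeff_le _ i.2).trans h1).trans_lt (hc w₀)

theorem itg_sum {ι : Type*} (s : Finset ι) {b : ι → F} (hb : ∀ j, Itg C T (b j)) {c : ι → C}
    (hc : ∀ j, ‖c j‖ ≤ 1) : Itg C T (∑ j ∈ s, c j • b j) := fun w =>
  NV.sum_le zero_le_one fun j _ => by
    rw [Algebra.smul_def]; exact ((Itg.const (hc j)).mul (hb j)) w

theorem redv_sum {ι : Type*} (s : Finset ι) {b : ι → F} (hb : ∀ j, Itg C T (b j)) {c : ι → C}
    (hc : ∀ j, ‖c j‖ ≤ 1) :
    redv C T (∑ j ∈ s, c j • b j) = ∑ j ∈ s, cred (c j) • redv C T (b j) := by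
  funext w
  rw [Finset.sum_apply]
  change w.1.red _ = _
  rw [NV.red_sum fun j _ => by rw [Algebra.smul_def]; exact ((Itg.const (hc j)).mul (hb j)) w]
  refine Finset.sum_congr rfl fun j _ => ?_
  change _ = cred (c j) • w.1.red (b j)
  rw [Algebra.smul_def, Algebra.smul_def, NV.red_mul (Itg.const (hc j) w) (hb j w),
    NV.red_algebraMap (hc j)]

/-- a basis of `V` whose reductions form a basis of the reduction -/
theorem exists_red_basis (h : Full C T) (V : Submodule C F) [FiniteDimensional C V] :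
    ∃ b : Fin (finrank C V) → V, (∀ j, Itg C T (b j : F)) ∧
      LinearIndependent (kC C) (fun j => redv C T (b j : F)) ∧
      Submodule.span (kC C) (Set.range fun j => redv C T (b j : F)) = Rd C T V := by
  classical
  obtain ⟨b, hb1, hb2⟩ := exists_onb h V
  have hsc : ∀ (c : Fin (finrank C V) → C) (a : C),
      (∀ w : WW C T, ‖a‖ * w.1 (∑ j, c j • (b j : F)) < 1) → ∀ j, ‖a‖ * ‖c j‖ < 1 := by
    intro c a ha j
    rw [← norm_mul]
    refine hb2 (fun j => a * c j) (fun w => ?_) j
    have h1 : ∑ j, (a * c j) • (b j : F) = algebraMap C F a * ∑ j, c j • (b j : F) := by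
      rw [← Algebra.smul_def, Finset.smul_sum]
      exact Finset.sum_congr rfl fun j _ => mul_smul _ _ _
    rw [h1, map_mul, w.1.ext']
    exact ha w
  have hli : LinearIndependent C b := by
    rw [Fintype.linearIndependent_iff]
    intro c hc j
    by_contra h0
    have h1 : ∑ j, c j • (b j : F) = 0 := by simpa using congrArg Subtype.val hc
    have h2 := hsc c (c j)⁻¹ (fun w => by rw [h1, map_zero, mul_zero]; exact zero_lt_one) j
    rw [norm_inv, inv_mul_cancel₀ (norm_ne_zero_iff.2 h0)] at h2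
    exact lt_irrefl _ h2
  refine ⟨b, hb1, ?_, le_antisymm ?_ ?_⟩
  · rw [Fintype.linearIndependent_iff]
    intro g hg j
    choose c hc hc' using fun j => cred_surj (g j)
    have h1 : redv C T (∑ j, c j • (b j : F)) = 0 := by
      rw [redv_sum _ hb1 hc, ← hg]
      exact Finset.sum_congr rfl fun j _ => by rw [hc']
    rw [← hc', cred_eq_zero (hc j)]
    exact hb2 c (fun w => (NV.red_eq_zero (itg_sum _ hb1 hc w)).1 (congrFun h1 w)) j
  · rw [Submodule.span_le]
    rintro _ ⟨j, rfl⟩
    exact ⟨b j, (b j).2, hb1 j, rfl⟩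
  · rintro _ ⟨x, hx, hx1, rfl⟩
    let e := basisOfLinearIndependentOfCardEqFinrank' b hli (Fintype.card_fin _)
    have h1 : ∑ j, e.repr ⟨x, hx⟩ j • (b j : F) = x := by
      have := congrArg Subtype.val (e.sum_repr ⟨x, hx⟩)
      simpa [e] using this
    have h2 : ∀ j, ‖e.repr ⟨x, hx⟩ j‖ ≤ 1 := fun j => by
      by_contra h3
      push Not at h3
      have h4 : 0 < ‖e.repr ⟨x, hx⟩ j‖ := zero_lt_one.trans h3
      have h5 := hsc (e.repr ⟨x, hx⟩) (e.repr ⟨x, hx⟩ j)⁻¹ (fun w => by
        rw [h1, norm_inv, inv_mul_lt_iff₀ h4, mul_one]; exact (hx1 w).trans_lt h3) j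
      rw [norm_inv, inv_mul_cancel₀ h4.ne'] at h5
      exact lt_irrefl _ h5
    rw [← h1, redv_sum _ hb1 h2]
    exact Submodule.sum_mem _ fun j _ => Submodule.smul_mem _ _ (Submodule.subset_span ⟨j, rfl⟩)

end Dim

theorem dim : DIM := by
  intro C F _ _ _ _ _ T _ h V _
  obtain ⟨b, -, h1, h2⟩ := Dim.exists_red_basis h V
  rw [← h2]
  exact ⟨FiniteDimensional.span_of_finite _ (Set.finite_range _),
    by rw [finrank_span_eq_card h1, Fintype.card_fin]⟩

end Vale.Agent.P027M.I
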