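import Vale.Agent.P027M.I.Spec

/-!
# P027 route M, block I: good reduction from the count of the points over the branch values
-/

set_option linter.all false

noncomputable section

open IntermediateField Vale.Agent.P019P P025H746 P025H492 Module

namespace Vale.Agent.P027M.I

namespace Gr

/-- the Hurwitz bound in characteristic zero -/
theorem upper {k K : Type*} [Field k] [Field K] [Algebra k K] [CFF k K] [CharZero k] {x : K}
    (hx : ∀ a : k, x ≠ algebraMap k K a) (S : Finset k)
    (h1 : ∀ P : Plk k K, ord P x < 0 → ord P x = -1)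
    (h2 : ∀ c, c ∉ S → ∀ P : Plk k K, 0 < ord P (x - algebraMap k K c) →
      ord P (x - algebraMap k K c) = 1) :
    2 * (gen k K : ℤ) - 2 + 2 * finrank k⟮x⟯ K ≤ ∑ s ∈ S, ((finrank k⟮x⟯ K : ℤ) -
      Set.ncard {P : Plk k K | 0 < ord P (x - algebraMap k K s)}) := by
  classical
  let E : k → Plk k K →₀ ℤ := fun s => pol k (x - algebraMap k K s)⁻¹ -
    ∑ P ∈ (fib_finite hx s).toFinset, Finsupp.single P 1
  have hE : ∀ s P, E s P = max 0 (ord P (x - algebraMap k K s)) -
      if 0 < ord P (x - algebraMap k K s) then 1 else 0 := by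
    intro s P
    simp only [E, Finsupp.sub_apply, pol_apply, ord_inv, neg_neg, Finsupp.finsetSum_apply,
      Finsupp.single_apply, Finset.sum_ite_eq', Set.Finite.mem_toFinset, Set.mem_setOf_eq]
  have E0 : ∀ s P, 0 ≤ E s P := by
    intro s P
    rw [hE]
    split_ifs <;> omega
  have dE : ∀ s, dg (E s) = (finrank k⟮x⟯ K : ℤ) -
      Set.ncard {P : Plk k K | 0 < ord P (x - algebraMap k K s)} := by
    intro s
    rw [map_sub, dg_pol (nc_inv (nc_sub hx s)), cDeg_finrank_inv, adjoin_sub_eq, map_sum,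
      Set.ncard_eq_toFinset_card _ (fib_finite hx s)]
    simp [dg]
  have le : wdv k x + 2 • pol k x ≤ ∑ s ∈ S, E s := by
    intro P
    rw [Finsupp.add_apply, Finsupp.smul_apply, wdv_apply hx, wd, pol_apply,
      Finsupp.finsetSum_apply, nsmul_eq_mul]
    have s0 : 0 ≤ ∑ s ∈ S, E s P := Finset.sum_nonneg fun s _ => E0 s P
    split_ifs with h
    · have p := ord_sub_vl_pos hx h
      by_cases hc : vl P x ∈ S
      · have := Finset.single_le_sum (f := fun s => E s P) (fun s _ => E0 s P) hc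
        simp only [hE (vl P x), if_pos p] at this
        omega
      · have := h2 _ hc P p
        omega
    · have := h1 P (not_le.1 h)
      omega
  have := dg_mono le
  rw [map_add, map_nsmul, dg_pol hx, map_sum, nsmul_eq_mul] at this
  simp only [dE] at this
  have h3 := le_dg_wdv hx
  push_cast at this
  omega

theorem fib_le {k K : Type*} [Field k] [Field K] [Algebra k K] [CFF k K] {x : K}
    (hx : ∀ a : k, x ≠ algebraMap k K a) (c : k) :
    0 ≤ (finrank k⟮x⟯ K : ℤ) - Set.ncard {P : Plk k K | 0 < ord P (x - algebraMap k K c)} ∧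
    ((finrank k⟮x⟯ K : ℤ) - Set.ncard {P : Plk k K | 0 < ord P (x - algebraMap k K c)} ≤ 0 →
      ∀ P : Plk k K, 0 < ord P (x - algebraMap k K c) → ord P (x - algebraMap k K c) = 1) := by
  have e : (finrank k⟮x⟯ K : ℤ) - Set.ncard {P : Plk k K | 0 < ord P (x - algebraMap k K c)} =
      ∑ P ∈ (fib_finite hx c).toFinset, (ord P (x - algebraMap k K c) - 1) := by
    rw [Finset.sum_sub_distrib, fib_sum hx c, Set.ncard_eq_toFinset_card _ (fib_finite hx c)]
    simp
  have p : ∀ P ∈ (fib_finite hx c).toFinset, 0 ≤ ord P (x - algebraMap k K c) - 1 := by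
    intro P hP
    have : 0 < ord P (x - algebraMap k K c) := (fib_finite hx c).mem_toFinset.1 hP
    omega
  rw [e]
  refine ⟨Finset.sum_nonneg p, fun h P hP => ?_⟩
  have := (Finset.sum_eq_zero_iff_of_nonneg p).1 (le_antisymm h (Finset.sum_nonneg p)) P
    ((Set.Finite.mem_toFinset _).2 hP)
  omega

end Gr

open Gr

theorem gr (hS : SURJ) : GR := by
  classical
  intro C F _ _ _ _ _ _ _ T _ hF hsep S S1 Sinj h1 h2 hcnt
  have ne : Nonempty (WW C T) := by
    by_contra h
    rw [not_nonempty_iff] at h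
    have h0 := finrank_pos (R := C⟮T⟯) (M := F)
    rw [← hF, Finset.univ_eq_empty, Finset.sum_empty] at h0
    exact lt_irrefl _ h0
  obtain ⟨w0⟩ := ne
  have hx : ∀ a : C, T ≠ algebraMap C F a := fun a e =>
    w0.2.transc (e ▸ isAlgebraic_algebraMap a)
  let n : ∀ w : WW C T, kC C → ℕ := fun w c => Set.ncard {x : Plk (kC C) (kap w.1) |
    0 < ord x (w.1.red T - algebraMap (kC C) (kap w.1) c)}
  let d : WW C T → ℕ := fun w => finrank (kC C)⟮w.1.red T⟯ (kap w.1)
  have key : ∀ s' : Finset (kC C), (∀ c ∈ s', ∀ s ∈ S, c ≠ cred s) →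
      2 * cd C T + ∑ w : WW C T, ∑ c ∈ s', ((d w : ℤ) - n w c) ≤ 0 := by
    intro s' hs'
    have a1 : ∀ w : WW C T, ∑ c ∈ s', ((d w : ℤ) - n w c) + ∑ s ∈ S, ((d w : ℤ) - n w (cred s)) ≤
        2 * (((gen (kC C) (kap w.1) : ℤ) - 1) + d w) := by
      intro w
      have := hsep w
      have h := RH w.2.red_ne (s' ∪ S.image cred)
      rw [Finset.sum_union, Finset.sum_image Sinj] at h
      · simp only [← Set.ncard_eq_toFinset_card] at h
        exact h.trans (le_of_eq (by simp only [d]; ring))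
      · refine Finset.disjoint_left.2 fun c hc hc' => ?_
        obtain ⟨s, hs, e⟩ := Finset.mem_image.1 hc'
        exact hs' c hc s hs e.symm
    have a2 := Finset.sum_le_sum fun w (_ : w ∈ Finset.univ) => a1 w
    have a3 : ∑ w : WW C T, (d w : ℤ) = finrank C⟮T⟯ F := by exact_mod_cast hF
    rw [Finset.sum_add_distrib, ← Finset.mul_sum, Finset.sum_add_distrib, a3,
      Finset.sum_comm (t := S)] at a2
    have a4 := upper hx S h1 h2
    have a5 : ((∑ s ∈ S, ∑ w : WW C T, n w (cred s) : ℕ) : ℤ) ≤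
        ((∑ s ∈ S, Set.ncard {P : Plk C F | 0 < ord P (T - algebraMap C F s)} : ℕ) : ℤ) :=
      Nat.cast_le.2 hcnt
    push_cast at a5
    have a6 : ∑ s ∈ S, ∑ w : WW C T, ((d w : ℤ) - n w (cred s)) =
        ∑ s ∈ S, (finrank C⟮T⟯ F : ℤ) - ∑ s ∈ S, ∑ w : WW C T, (n w (cred s) : ℤ) := by
      rw [← Finset.sum_sub_distrib]
      exact Finset.sum_congr rfl fun s _ => by rw [Finset.sum_sub_distrib, a3]
    rw [Finset.sum_sub_distrib] at a4
    rw [a6] at a2
    rw [cd]
    omega
  obtain ⟨c0, c1⟩ := hS C F T hF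
  have c2 : cd C T ≤ 0 := by
    have := key ∅ (by simp)
    simp only [Finset.sum_empty, Finset.sum_const_zero] at this
    omega
  refine ⟨le_antisymm c2 c0, (c1 c2).1, fun w c hc => (fib_le w.2.red_ne c).2 ?_⟩
  have h3 := key {c} (by simpa using hc)
  simp only [Finset.sum_singleton] at h3
  have h4 := Finset.single_le_sum (f := fun w : WW C T => (d w : ℤ) - n w c)
    (fun w _ => (fib_le w.2.red_ne c).1) (Finset.mem_univ w)
  change (d w : ℤ) - n w c ≤ 0
  omega

end Vale.Agent.P027M.I
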