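import Vale.Agent.P027M.I.Spec

/-!
# P027 route M, block I: nodal curves, the classes are pairs (row I.ACL)
-/

set_option linter.unusedSectionVars false

noncomputable section

open IntermediateField Vale.Agent.P019P P025H746 P025H492 Module

namespace Vale.Agent.P027M.I

namespace Acl

/-- the count -/
theorem core {k V σ : Type} [Field k] [AddCommGroup V] [Module k V] [Fintype σ]
    (P E : Submodule k V) [FiniteDimensional k P] (hE : E ≤ P) (ev : P →ₗ[k] (σ → k))
    (hs : Function.Surjective ev) (G : Setoid σ) (h2 : ∀ a, ∃ b, b ≠ a ∧ G a b)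
    (hc : ∀ y : P, (y : V) ∈ E → ∀ a b, G a b → ev y a = ev y b) {c : ℤ}
    (hd : (finrank k P : ℤ) - finrank k E = c) (hσ : (Fintype.card σ : ℤ) = 2 * c) :
    (∀ a b b', b ≠ a → b' ≠ a → G a b → G a b' → b = b') ∧
      ∀ y : P, (∀ a b, G a b → ev y a = ev y b) → (y : V) ∈ E := by
  classical
  let ι : (Quotient G → k) →ₗ[k] (σ → k) := LinearMap.funLeft k k (Quotient.mk G)
  have ιi : Function.Injective ι :=
    LinearMap.funLeft_injective_of_surjective k k _ Quotient.mk_surjective
  have hW : ∀ f : σ → k, (∀ a b, G a b → f a = f b) → f ∈ LinearMap.range ι := fun f hf =>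
    ⟨Quotient.lift f hf, rfl⟩
  have hW' : ∀ f ∈ LinearMap.range ι, ∀ a b, G a b → f a = f b := by
    rintro _ ⟨g, rfl⟩ a b h
    exact congrArg g (Quotient.sound h)
  have d1 : finrank k (LinearMap.range ι) = Fintype.card (Quotient G) := by
    rw [LinearMap.finrank_range_of_inj ιi, Module.finrank_fintype_fun_eq_card]
  let π := (LinearMap.range ι).mkQ ∘ₗ ev
  have πs : LinearMap.range π = ⊤ :=
    LinearMap.range_eq_top.2 ((Submodule.mkQ_surjective _).comp hs)
  have kπ : ∀ y : P, y ∈ LinearMap.ker π ↔ ev y ∈ LinearMap.range ι := fun y =>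
    Submodule.Quotient.mk_eq_zero _
  have d2 := LinearMap.finrank_range_add_finrank_ker π
  rw [πs, finrank_top] at d2
  have d3 := Submodule.finrank_quotient_add_finrank (LinearMap.range ι)
  rw [d1, Module.finrank_fintype_fun_eq_card] at d3
  have le : E.comap P.subtype ≤ LinearMap.ker π := fun y hy => (kπ y).2 (hW _ (hc y hy))
  have d4 : finrank k (E.comap P.subtype) = finrank k E :=
    (Submodule.comapSubtypeEquivOfLe hE).finrank_eq
  have d5 := Submodule.finrank_mono le
  have f0 : Fintype.card σ =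
      ∑ q : Quotient G, (Finset.univ.filter fun a => Quotient.mk G a = q).card :=
    Finset.card_eq_sum_card_fiberwise fun a _ => Finset.mem_univ _
  have f1 : ∀ q : Quotient G, 2 ≤ (Finset.univ.filter fun a => Quotient.mk G a = q).card := by
    intro q
    obtain ⟨a, rfl⟩ := Quotient.mk_surjective q
    obtain ⟨b, hb, h⟩ := h2 a
    exact Finset.one_lt_card.2 ⟨a, by simp, b, by simpa using Quotient.sound (G.symm h), hb.symm⟩
  have f2 : ∑ _q : Quotient G, 2 = 2 * Fintype.card (Quotient G) := by simp [mul_comm]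
  have f3 := Finset.sum_le_sum fun q (_ : q ∈ Finset.univ) => f1 q
  refine ⟨fun a b b' hb hb' h h' => ?_, fun y hy => ?_⟩
  · by_contra ne
    have f4 : 2 < (Finset.univ.filter fun x => Quotient.mk G x = Quotient.mk G a).card :=
      Finset.two_lt_card_iff.2 ⟨a, b, b', by simp, by simpa using Quotient.sound (G.symm h),
        by simpa using Quotient.sound (G.symm h'), hb.symm, hb'.symm, ne⟩
    have f5 := Finset.sum_lt_sum (fun q (_ : q ∈ Finset.univ) => f1 q) ⟨_, Finset.mem_univ _, f4⟩
    omega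
  · have e : E.comap P.subtype = LinearMap.ker π :=
      Submodule.eq_of_le_of_finrank_eq le (by omega)
    have := (kπ y).2 (hW _ hy)
    rw [← e] at this
    exact this

section val

variable {k K : Type} [Field k] [Field K] [Algebra k K] [CFF k K]

theorem ord_of_mem {P : Plk k K} {z : K} (h : z ∈ P.1) : 0 ≤ ord P z := by
  rcases (mem_iff_ord P z).1 h with e | e
  · rw [e, ord_zero]
  · exact e

theorem mem_of_LL {P : Plk k K} {x z : K} {n : ℕ} (hx : x ∈ P.1) (h : z ∈ LL k (n • pol k x)) :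
    z ∈ P.1 := by
  refine (mem_iff_ord P z).2 ((mem_LL.1 h).imp_right fun e => ?_)
  have e1 := e P
  rw [Finsupp.smul_apply, pol_apply, max_eq_left (neg_nonpos.2 (ord_of_mem hx)), smul_zero,
    neg_zero] at e1
  exact e1

theorem vl_add {P : Plk k K} {z w : K} (hz : z ∈ P.1) (hw : w ∈ P.1) :
    vl P (z + w) = vl P z + vl P w := by
  refine vl_eq ?_
  have := add_mem (sub_vl_mem (ord_of_mem hz)) (sub_vl_mem (ord_of_mem hw))
  rw [map_add]
  convert this using 1
  ring

theorem vl_smul {P : Plk k K} (c : k) {z : K} (hz : z ∈ P.1) : vl P (c • z) = c * vl P z := by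
  refine vl_eq ?_
  have := (Mge P 1).smul_mem c (sub_vl_mem (ord_of_mem hz))
  rw [map_mul]
  convert this using 1
  simp only [Algebra.smul_def]
  ring

end val

variable {C : Type} [NontriviallyNormedField C] [IsUltrametricDist C] [IsAlgClosed C]
  {F : Type} [Field F] [Algebra C F] [CFF C F] {T : F} [FiniteDimensional C⟮T⟯ F]

theorem reg {n : ℕ} {y : PP C T} (hy : y ∈ Pn C T n) (b : Br C T) : y b.w ∈ b.x.1 :=
  mem_of_LL b.fin (hy b.w (Set.mem_univ _))

theorem fin_Pn (n : ℕ) : FiniteDimensional (kC C) (Pn C T n) :=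
  FiniteDimensional.of_injective
    (V₂ := ∀ w : WW C T, LL (kC C) (n • pol (kC C) (w.1.red T)))
    { toFun := fun y w => ⟨y.1 w, y.2 w (Set.mem_univ _)⟩
      map_add' := fun _ _ => rfl
      map_smul' := fun _ _ => rfl }
    fun _ _ e => Subtype.ext (funext fun w => congrArg Subtype.val (congrFun e w))

theorem En_le (n : ℕ) : En C T n ≤ Pn C T n := by
  rintro _ ⟨x, hx, h1, rfl⟩ w -
  have hT : ∀ a : C, T ≠ algebraMap C F a := fun a h =>
    w.2.transc (by rw [h]; exact isAlgebraic_algebraMap a)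
  exact P025H458.hred hT w.2 n hx fun v hv => h1 ⟨v, hv⟩

theorem En_glue {n : ℕ} {y : PP C T} (hy : y ∈ En C T n) {b b' : Br C T} (h : Glue b b') :
    b.ev y = b'.ev y := by
  obtain ⟨x, hx, h1, rfl⟩ := hy
  exact h x ⟨h1, fun P hP => mem_of_LL hP hx⟩

/-- the values at the branches of `S` -/
def evS (S : Finset (Br C T)) (n : ℕ) : Pn C T n →ₗ[kC C] (S → kC C) where
  toFun y b := b.1.ev y.1
  map_add' y z := funext fun b => vl_add (reg y.2 b.1) (reg z.2 b.1)
  map_smul' c y := funext fun b => vl_smul c (reg y.2 b.1)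

/-- gluing as an equivalence relation on `S` -/
def gl (S : Finset (Br C T)) : Setoid S where
  r a b := Glue a.1 b.1
  iseqv := ⟨fun _ _ _ => rfl, fun h f hf => (h f hf).symm,
    fun h h' f hf => (h f hf).trans (h' f hf)⟩

end Acl

open Acl in
theorem acl (cod : COD) (onto : ONTO) : ACL := by
  intro C F _ _ _ _ _ _ T _ hF S hS
  obtain ⟨n₁, h₁⟩ := cod C F T hF
  obtain ⟨n₂, h₂⟩ := onto C F T S
  have key := fun (n : ℕ) (hn : max n₁ n₂ ≤ n) =>
    haveI := fin_Pn (C := C) (T := T) n
    core (Pn C T n) (En C T n) (En_le n) (evS S n) (fun φ => by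
      classical
      obtain ⟨y, hy, e⟩ := h₂ n (le_of_max_le_right hn) fun b => if h : b ∈ S then φ ⟨b, h⟩ else 0
      exact ⟨⟨y, hy⟩, funext fun b => (e b.1 b.2).trans (dif_pos b.2)⟩) (gl S)
      (fun a => by
        obtain ⟨b, hb, ne, h⟩ := hS.2 a.1 a.2
        exact ⟨⟨b, hb⟩, fun e => ne (congrArg Subtype.val e), h⟩)
      (fun y hy a b h => En_glue hy h) (h₁ n (le_of_max_le_left hn))
      (by rw [Fintype.card_coe]; exact hS.1)
  refine ⟨fun b hb b' hb' b'' hb'' e e' h h' => ?_, max n₁ n₂, fun n hn y hy h => ?_⟩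
  · exact congrArg Subtype.val ((key _ le_rfl).1 ⟨b, hb⟩ ⟨b', hb'⟩ ⟨b'', hb''⟩
      (fun c => e (congrArg Subtype.val c)) (fun c => e' (congrArg Subtype.val c)) h h')
  · exact (key n hn).2 ⟨y, hy⟩ fun a b g => h a.1 a.2 b.1 b.2 g

end Vale.Agent.P027M.I
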