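import Vale.Agent.P027M.I.Spec2
import Vale.Agent.P027M.I.Acl

/-!
# P027 route M, block I: glued branches cost genus (row I.HALF)
-/

set_option linter.unusedSectionVars false

noncomputable section

open IntermediateField Vale.Agent.P019P P025H746 P025H492 Module

namespace Vale.Agent.P027M.I

namespace Half

/-- the count -/
theorem core {k V σ : Type} [Field k] [AddCommGroup V] [Module k V] [Fintype σ]
    (P E : Submodule k V) [FiniteDimensional k P] (hE : E ≤ P) (ev : P →ₗ[k] (σ → k))
    (hs : Function.Surjective ev) (G : Setoid σ) (h2 : ∀ a, ∃ b, b ≠ a ∧ G a b)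
    (hc : ∀ y : P, (y : V) ∈ E → ∀ a b, G a b → ev y a = ev y b) {c : ℤ}
    (hd : (finrank k P : ℤ) - finrank k E = c) : (Fintype.card σ : ℤ) ≤ 2 * c := by
  classical
  let ι : (Quotient G → k) →ₗ[k] (σ → k) := LinearMap.funLeft k k (Quotient.mk G)
  have ιi : Function.Injective ι :=
    LinearMap.funLeft_injective_of_surjective k k _ Quotient.mk_surjective
  have hW : ∀ f : σ → k, (∀ a b, G a b → f a = f b) → f ∈ LinearMap.range ι := fun f hf =>
    ⟨Quotient.lift f hf, rfl⟩
  have d1 : finrank k (LinearMap.range ι) = Fintype.card (Quotient G) := by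
    rw [LinearMap.finrank_range_of_inj ιi, Module.finrank_fintype_fun_eq_card]
  let pr := (LinearMap.range ι).mkQ ∘ₗ ev
  have ps : LinearMap.range pr = ⊤ :=
    LinearMap.range_eq_top.2 ((Submodule.mkQ_surjective _).comp hs)
  have kp : ∀ y : P, y ∈ LinearMap.ker pr ↔ ev y ∈ LinearMap.range ι := fun y =>
    Submodule.Quotient.mk_eq_zero _
  have d2 := LinearMap.finrank_range_add_finrank_ker pr
  rw [ps, finrank_top] at d2
  have d3 := Submodule.finrank_quotient_add_finrank (LinearMap.range ι)
  rw [d1, Module.finrank_fintype_fun_eq_card] at d3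
  have le : E.comap P.subtype ≤ LinearMap.ker pr := fun y hy => (kp y).2 (hW _ (hc y hy))
  have d4 : finrank k (E.comap P.subtype) = finrank k E :=
    (Submodule.comapSubtypeEquivOfLe hE).finrank_eq
  have d5 := Submodule.finrank_mono le
  have f0 : Fintype.card σ =
      ∑ q : Quotient G, (Finset.univ.filter fun a => Quotient.mk G a = q).card :=
    Finset.card_eq_sum_card_fiberwise fun a _ => Finset.mem_univ _
  have f1 : ∀ q : Quotient G, 2 ≤ (Finset.univ.filter fun a => Quotient.mk G a = q).card := by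
    intro q
    obtain ⟨a, rfl⟩ := Quotient.mk_surjective q
    obtain ⟨b, hb, h⟩ := h2 a
    exact Finset.one_lt_card.2 ⟨a, by simp, b, by simpa using Quotient.sound (G.symm h), hb.symm⟩
  have f2 : ∑ _q : Quotient G, 2 = 2 * Fintype.card (Quotient G) := by simp [mul_comm]
  have f3 := Finset.sum_le_sum fun q (_ : q ∈ Finset.univ) => f1 q
  omega

end Half

open Acl in
theorem half (cod : COD) (onto : ONTO) : HALF := by
  intro C F _ _ _ _ _ _ T _ hF S hS
  obtain ⟨n₁, h₁⟩ := cod C F T hF
  obtain ⟨n₂, h₂⟩ := onto C F T S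
  haveI := fin_Pn (C := C) (T := T) (max n₁ n₂)
  have key := Half.core (Pn C T (max n₁ n₂)) (En C T (max n₁ n₂)) (En_le _) (evS S _) (fun φ => by
      classical
      obtain ⟨y, hy, e⟩ := h₂ _ (le_max_right n₁ n₂) fun b => if h : b ∈ S then φ ⟨b, h⟩ else 0
      exact ⟨⟨y, hy⟩, funext fun b => (e b.1 b.2).trans (dif_pos b.2)⟩) (gl S)
      (fun a => by
        obtain ⟨b, hb, ne, h⟩ := hS a.1 a.2
        exact ⟨⟨b, hb⟩, fun e => ne (congrArg Subtype.val e), h⟩)
      (fun y hy a b h => En_glue hy h) (h₁ _ (le_max_left n₁ n₂))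
  rwa [Fintype.card_coe] at key

end Vale.Agent.P027M.I
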