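import Vale.Agent.P027M.I.Basic
import Vale.Agent.P025.R2.H816.J05

/-!
# P027 route M, block I: Frobenius on the new part (row I2A)

Paper: notes/P027/I.md section 2.
-/

set_option linter.unusedSectionVars false

noncomputable section

open IntermediateField Vale.Agent.P019P P025H746 P025H492 Module

namespace Vale.Agent.P027M.I

namespace I2a

section triv

variable {C : Type} [NontriviallyNormedField C] [IsUltrametricDist C] [IsAlgClosed C]
variable {F : Type} [Field F] [Algebra C F] {w w' : NV C F} {m : ℕ} {f g : F}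

theorem le_one_of (h : w (f - 1) < 1) : w f ≤ 1 := by
  have h1 : w (f - 1 + 1) ≤ 1 := NV.add_le h.le (by simp)
  rwa [sub_add_cancel] at h1

theorem eq_one_of (h : w (f - 1) < 1) : w f = 1 := by
  refine le_antisymm (le_one_of h) (not_lt.1 fun h1 => ?_)
  have h2 := NV.sub_lt h1 h
  rw [sub_sub_cancel, map_one] at h2
  exact lt_irrefl _ h2

theorem triv_mul (hf : Triv m w f) (hg : Triv m w g) : Triv m w (f * g) := by
  obtain ⟨y, hy⟩ := hf
  obtain ⟨z, hz⟩ := hg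
  refine ⟨y * z, ?_⟩
  have h1 : f * g * (y * z) ^ m - 1 = (f * y ^ m - 1) * (g * z ^ m) + (g * z ^ m - 1) := by ring
  rw [h1]
  refine NV.add_lt ?_ hz
  rw [map_mul, eq_one_of hz, mul_one]
  exact hy

theorem triv_inv (hf : Triv m w f) : Triv m w f⁻¹ := by
  obtain ⟨y, hy⟩ := hf
  refine ⟨y⁻¹, ?_⟩
  have h0 := eq_one_of hy
  have h2 : f * y ^ m ≠ 0 := by
    intro h
    rw [h, map_zero] at h0
    exact zero_ne_one h0
  have h1 : f⁻¹ * y⁻¹ ^ m - 1 = -(f * y ^ m - 1) * (f * y ^ m)⁻¹ := by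
    rw [inv_pow, ← mul_inv, neg_mul, sub_mul, mul_inv_cancel₀ h2]
    ring
  rw [h1, map_mul, NV.map_neg', map_inv₀, h0, inv_one, mul_one]
  exact hy

theorem triv_map {G : Type} [FunLike G F F] [RingHomClass G F F] (e : G)
    (hw : ∀ y, w' (e y) = w y) (hf : Triv m w f) : Triv m w' (e f) := by
  obtain ⟨y, hy⟩ := hf
  refine ⟨e y, ?_⟩
  rw [← hw, map_sub, map_mul, map_pow, map_one] at hy
  exact hy

theorem dvd_map [CFF C F] (e : F ≃+* F) (s : C ≃+* C)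
    (he : ∀ c, e (algebraMap C F c) = algebraMap C F (s c))
    (hf : ∀ P : Plk C F, (m : ℤ) ∣ ord P f) (P : Plk C F) : (m : ℤ) ∣ ord P (e f) := by
  obtain ⟨Q, rfl⟩ := (plEquiv e s he).surjective P
  rw [ord_plEquiv]
  exact hf Q

theorem ev_congr {T : F} [FiniteDimensional C⟮T⟯ F] (b : Br C T) (hg : b.w.1 g ≤ 1)
    (h : b.w.1 (f - g) < 1) : b.ev (redv C T f) = b.ev (redv C T g) := by
  have hf : b.w.1 f ≤ 1 := by
    have h1 := NV.add_le h.le hg
    rwa [sub_add_cancel] at h1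
  have h1 := NV.red_of_lt h
  rw [NV.red_sub hf hg, sub_eq_zero] at h1
  change vl b.x (b.w.1.red f) = vl b.x (b.w.1.red g)
  rw [h1]

theorem ev_pow {T : F} [FiniteDimensional C⟮T⟯ F] (b : Br C T) (hg : BB C T g) (n : ℕ) :
    b.ev (redv C T (g ^ n)) = b.ev (redv C T g) ^ n := by
  rw [redv_pow hg.1]
  exact vl_pow' (hg.red_mem b) n

theorem ev_frob {T : F} [FiniteDimensional C⟮T⟯ F] (b : Br C T) (hg : BB C T g) {n : ℕ}
    (h : b.w.1 (f - g ^ n) < 1) : b.ev (redv C T f) = b.ev (redv C T g) ^ n := by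
  rw [ev_congr b ((hg.pow n).1 b.w) h, ev_pow b hg]

end triv

section main

variable {C K' K₀ : Type} [NontriviallyNormedField C] [IsUltrametricDist C] [IsAlgClosed C]
  [Field K'] [Algebra C K'] [CFF C K'] [Field K₀] [Algebra C K₀] [CFF C K₀] [Algebra K' K₀]
  [IsScalarTower C K' K₀] [FiniteDimensional K' K₀] {T : K'} [FiniteDimensional C⟮T⟯ K']
  [FiniteDimensional C⟮algebraMap K' K₀ T⟯ K₀]

theorem trivA {u : WW C (algebraMap K' K₀ T)} {m : ℕ} (hm : m ≠ 0) {W : K₀ ≃ₐ[C] K₀}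
    {φ : K₀ ≃+* K₀} {s : C ≃+* C} (hφ : ∀ c, φ (algebraMap C K₀ c) = algebraMap C K₀ (s c))
    (hN : ∀ h : K₀, u.1 h = 1 → u.1 (algebraMap K' K₀ (Algebra.norm K' (W.symm h)) /
      (W.symm h * φ h) - 1) < 1) {h : K₀} (h0 : h ≠ 0) {z : K'}
    (hz : Algebra.norm K' (W.symm h) = z ^ m) : Triv m u.1 (φ h * W.symm h) := by
  obtain ⟨c, hc⟩ := exists_norm_eq u.2 h
  have hc0 : c ≠ 0 := by
    intro e
    rw [e, norm_zero, eq_comm, map_eq_zero] at hc
    exact h0 hc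
  have h1 : u.1 (algebraMap C K₀ c⁻¹ * h) = 1 := by
    rw [map_mul, u.1.ext', norm_inv, ← hc, inv_mul_cancel₀ (norm_ne_zero_iff.2 hc0)]
  have h2 := hN _ h1
  obtain ⟨d, hd⟩ := IsAlgClosed.exists_pow_nat_eq (c⁻¹ ^ finrank K' K₀ * c * s c)
    (Nat.pos_of_ne_zero hm)
  have h3 : Algebra.norm K' (W.symm (algebraMap C K₀ c⁻¹ * h)) =
      algebraMap C K' c⁻¹ ^ finrank K' K₀ * z ^ m := by
    rw [map_mul, W.symm.commutes, map_mul, hz, IsScalarTower.algebraMap_apply C K' K₀,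
      Algebra.norm_algebraMap]
  have h4 : algebraMap K' K₀ (Algebra.norm K' (W.symm (algebraMap C K₀ c⁻¹ * h))) /
      (W.symm (algebraMap C K₀ c⁻¹ * h) * φ (algebraMap C K₀ c⁻¹ * h)) =
      (φ h * W.symm h)⁻¹ * (algebraMap C K₀ d * algebraMap K' K₀ z) ^ m := by
    have e1 : algebraMap C K₀ c ≠ 0 := (map_ne_zero _).2 hc0
    have e2 : algebraMap C K₀ (s c) ≠ 0 := (map_ne_zero _).2 ((map_ne_zero s).2 hc0)
    have e3 : φ h ≠ 0 := (map_ne_zero φ).2 h0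
    have e4 : W.symm h ≠ 0 := (map_ne_zero W.symm).2 h0
    rw [h3, mul_pow, ← map_pow (algebraMap C K₀) d, hd, map_mul W.symm, W.symm.commutes, map_mul φ,
      hφ]
    simp only [map_mul, map_pow, map_inv₀, ← IsScalarTower.algebraMap_apply]
    field_simp
  rw [h4] at h2
  have h5 := triv_inv (w := u.1) (m := m) (f := (φ h * W.symm h)⁻¹) ⟨_, h2⟩
  rwa [inv_inv] at h5

/-- the value of `φ² D⁻¹ f` at a glued branch of the first component -/
theorem ev_gam {u : Fin 2 → WW C (algebraMap K' K₀ T)} {q : ℕ} {W : K₀ ≃ₐ[C] K₀}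
    {φ : K₀ ≃+* K₀} {φ' D' : K' ≃+* K'}
    (hφ' : ∀ y, φ (algebraMap K' K₀ y) = algebraMap K' K₀ (φ' y))
    (hD : ∀ y, W (W (algebraMap K' K₀ (D' y))) = algebraMap K' K₀ y)
    (hφW : ∀ y, φ (W y) = W (φ y)) (hu1 : ∀ y, (u 1).1 y = (u 0).1 (W y))
    (hE : ∀ f : K', (u 0).1 (algebraMap K' K₀ f) ≤ 1 →
      (u 0).1 (φ (W (algebraMap K' K₀ f)) - algebraMap K' K₀ f ^ q) < 1)
    (B1 : ∀ f, BB C T f → BB C (algebraMap K' K₀ T) (algebraMap K' K₀ f))
    (B2 : ∀ f, BB C T f → BB C (algebraMap K' K₀ T) (W (algebraMap K' K₀ f)))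
    (Bφ : ∀ f, BB C T (φ' f) ↔ BB C T f) (BD : ∀ f, BB C T (D' f) ↔ BB C T f)
    {b b' : Br C (algebraMap K' K₀ T)} (hb : b.w = u 0) (hb' : b'.w = u 1) (hg : Glue b b')
    {f g : K'} (hf : BB C T f) (hfg : D' g = φ' f) :
    b.ev (redv C _ (algebraMap K' K₀ (φ' g))) = b.ev (redv C _ (algebraMap K' K₀ f)) ^ q ^ 2 := by
  have hg0 : BB C T g := by rw [← BD, hfg, Bφ]; exact hf
  have h1 : b.ev (redv C _ (W (algebraMap K' K₀ (D' g)))) =
      b.ev (redv C _ (algebraMap K' K₀ f)) ^ q := by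
    refine ev_frob b (B1 f hf) ?_
    rw [hb, hfg, ← hφ', ← hφW]
    exact hE f ((B1 f hf).1 (u 0))
  have h2 : b'.ev (redv C _ (algebraMap K' K₀ (φ' g))) =
      b'.ev (redv C _ (W (algebraMap K' K₀ (D' g)))) ^ q := by
    refine ev_frob b' (B2 _ ((BD g).2 hg0)) ?_
    rw [hb', hu1, map_sub, map_pow, hD, ← hφ', ← hφW]
    exact hE g ((B1 g hg0).1 (u 0))
  rw [hg _ (B1 _ ((Bφ g).2 hg0)), h2, ← hg _ (B2 _ ((BD g).2 hg0)), h1, ← pow_mul, sq]

end main

end I2a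

open I2a in
theorem i2a (hNODE : NODE) (hPTS : PTS) (hACT : ACT) : I2A := by
  intro C K' K₀ _ _ _ _ _ _ _ _ _ _ _ _ _ T _ _ u S m q W Dm D' φ φ' s hF' hcd hF hS hu hsep hm hq
    hφ hs hφ' hφT hD hDT hWW hφW hφD hu1 huφ huD hsurj hP hE hN h h0 hord hN1 hN2 A hA
  have hm0 : m ≠ 0 := by rintro rfl; simp at hm
  have hWs : ∀ y, W.symm y = W (Dm y) := fun y => by
    rw [AlgEquiv.symm_apply_eq, hWW]
  have hDW : ∀ y, Dm (W y) = W (Dm y) := fun y => by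
    apply W.injective
    apply W.injective
    rw [hWW, hWW]
  have hall : ∀ {p : WW C (algebraMap K' K₀ T) → Prop}, p (u 0) → p (u 1) → ∀ v, p v := by
    intro p h1 h2 v
    obtain ⟨i, rfl⟩ := hu v
    fin_cases i
    exacts [h1, h2]
  have hvφ : ∀ v : WW C (algebraMap K' K₀ T), ∀ y, v.1 (φ y) = v.1 y :=
    hall huφ fun y => by rw [hu1, ← hφW, huφ, hu1]
  have hvD : ∀ v : WW C (algebraMap K' K₀ T), ∀ y, v.1 (Dm y) = v.1 y :=
    hall huD fun y => by rw [hu1, ← hDW, huD, hu1]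
  have hvD' : ∀ v : WW C (algebraMap K' K₀ T), ∀ y, v.1 (Dm.symm y) = v.1 y := fun v y => by
    rw [← hvD, AlgEquiv.apply_symm_apply]
  have hu0 : ∀ y, (u 1).1 (W y) = (u 0).1 y := fun y => by
    rw [← hvD, hDW, hu1, hWW]
  have hu1s : ∀ y, (u 1).1 (W.symm y) = (u 0).1 y := fun y => by
    rw [hu1, AlgEquiv.apply_symm_apply]
  have hu0s : ∀ y, (u 0).1 (W.symm y) = (u 1).1 y := fun y => by
    rw [← hu0, AlgEquiv.apply_symm_apply]
  have hφs : ∀ y, φ (W.symm y) = W.symm (φ y) := fun y => by rw [hWs, hWs, hφW, hφD]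
  -- the class `Dm A` is trivial on both components
  have hT : ∀ v : WW C (algebraMap K' K₀ T), Triv m v.1 (Dm A) := by
    obtain ⟨z₁, hz₁⟩ := hN1
    obtain ⟨z₂, hz₂⟩ := hN2
    have e1 : Algebra.norm K' (W.symm h) = D' z₂ ^ m := by
      have e := Algebra.norm_eq_of_equiv_equiv (D' : K' ≃+* K') (Dm : K₀ ≃+* K₀)
        (RingHom.ext fun y => (hD y).symm) (W h)
      rw [hz₂, eq_comm, RingEquiv.symm_apply_eq, map_pow] at e
      rw [hWs, ← hDW]
      exact e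
    have t0 : Triv m (u 0).1 (φ h * W.symm h) := trivA hm0 hφ.1 hN h0 e1
    have t1 : Triv m (u 1).1 (φ h * W.symm h) := by
      have t := trivA hm0 hφ.1 hN ((map_ne_zero W).2 h0) (z := z₁)
        (by rw [AlgEquiv.symm_apply_apply]; exact hz₁)
      have t' := triv_map W.symm hu1s t
      rwa [map_mul, hφW, AlgEquiv.symm_apply_apply, AlgEquiv.symm_apply_apply] at t'
    have e2 : A = φ (φ h * W.symm h) * (W.symm (φ h * W.symm h))⁻¹ := by
      have e3 : W.symm (φ h) ≠ 0 := (map_ne_zero _).2 ((map_ne_zero _).2 h0)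
      have e4 : W.symm (W.symm h) = Dm h := by
        rw [AlgEquiv.symm_apply_eq, AlgEquiv.symm_apply_eq, hWW]
      rw [hA, map_mul, map_mul, hφs, e4, mul_inv, div_eq_mul_inv]
      field_simp
    have tW : ∀ v : WW C (algebraMap K' K₀ T), Triv m v.1 (W.symm (φ h * W.symm h)) :=
      hall (triv_map W.symm hu0s t1) (triv_map W.symm hu1s t0)
    have tg : ∀ v : WW C (algebraMap K' K₀ T), Triv m v.1 (φ h * W.symm h) := hall t0 t1
    intro v
    refine triv_map Dm (hvD v) ?_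
    rw [e2]
    exact triv_mul (triv_map φ (hvφ v) (tg v)) (triv_inv (tW v))
  have hO : ∀ P : Plk C K₀, (m : ℤ) ∣ ord P (Dm A) := by
    refine dvd_map (Dm : K₀ ≃+* K₀) (RingEquiv.refl C) Dm.commutes fun P => ?_
    rw [hA, div_eq_mul_inv, ord_mul P ((map_ne_zero _).2 ((map_ne_zero _).2 h0))
      (inv_ne_zero ((map_ne_zero _).2 h0)), ord_inv]
    exact dvd_add (dvd_map φ s hφ.1 (dvd_map φ s hφ.1 hord) P)
      (dvd_neg.2 (dvd_map (Dm : K₀ ≃+* K₀) (RingEquiv.refl C) Dm.commutes hord P))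
  -- the automorphism `φ² Dm⁻¹`
  obtain ⟨γ, hγ⟩ : ∃ γ : K₀ ≃+* K₀, ∀ y, γ y = φ (φ (Dm.symm y)) :=
    ⟨((Dm.symm : K₀ ≃+* K₀).trans φ).trans φ, fun _ => rfl⟩
  have hγs : Semi C γ (s.trans s) := ⟨fun c => by
    rw [hγ, Dm.symm.commutes, hφ.1, hφ.1]; rfl, fun c => by
    rw [RingEquiv.trans_apply, hφ.2, hφ.2]⟩
  have hDs : ∀ y, Dm.symm (algebraMap K' K₀ y) = algebraMap K' K₀ (D'.symm y) := fun y => by
    rw [AlgEquiv.symm_apply_eq, hD, AlgEquiv.apply_symm_apply]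
  have hγ' : ∀ y, γ (algebraMap K' K₀ y) = algebraMap K' K₀ (φ' (φ' (D'.symm y))) := fun y => by
    rw [hγ, hDs, hφ', hφ']
  have hγT : γ (algebraMap K' K₀ T) = algebraMap K' K₀ T := by
    rw [hγ', (AlgEquiv.symm_apply_eq D').2 hDT.symm, hφT, hφT]
  have hvγ : ∀ v : WW C (algebraMap K' K₀ T), ∀ y, v.1 (γ y) = v.1 y := fun v y => by
    rw [hγ, hvφ, hvφ, hvD']
  have hinj := (algebraMap K' K₀).injective
  have hφ's : Semi C φ' s := ⟨fun c => hinj (by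
    rw [← hφ', ← IsScalarTower.algebraMap_apply, ← IsScalarTower.algebraMap_apply, hφ.1]), hφ.2⟩
  have Bφ := (hACT C K' T φ' s hφ's hφT).1
  have BD := (hACT C K' T (D' : K' ≃+* K') (RingEquiv.refl C) ⟨D'.commutes, fun _ => rfl⟩ hDT).1
  obtain ⟨B1, hsepf⟩ := hPTS C K' K₀ T (algebraMap K' K₀ T) (IsScalarTower.toAlgHom C K' K₀) hF' hcd
    (fun w => w.2) fun _ hP => hP
  have hOW : ∀ v : WW C (algebraMap K' K₀ T), v.1.OverG (W (algebraMap K' K₀ T)) :=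
    hall (fun P => by rw [Polynomial.aeval_algHom_apply W, ← hu1]; exact (u 1).2 P)
      fun P => by rw [Polynomial.aeval_algHom_apply W, hu0]; exact (u 0).2 P
  have B2 := (hPTS C K' K₀ T (algebraMap K' K₀ T)
    ((W : K₀ →ₐ[C] K₀).comp (IsScalarTower.toAlgHom C K' K₀)) hF' hcd hOW fun P h => (hP P).1 h).1
  obtain ⟨-, hex, hev, hgl⟩ := hACT C K₀ (algebraMap K' K₀ T) γ (s.trans s) hγs hγT
  have hside : ∀ b b' : Br C (algebraMap K' K₀ T), Tw (γ : K₀ →+* K₀) b b' → b.w = b'.w := by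
    intro b b' h
    refine Subtype.ext (NV.ext (AbsoluteValue.ext fun y => ?_))
    exact (h.1 y).symm.trans (hvγ b'.w y)
  have hfix0 : ∀ b b' : Br C (algebraMap K' K₀ T), b.w = u 0 → b'.w = u 1 → Glue b b' →
      Tw (γ : K₀ →+* K₀) b b := by
    intro b b' hb hb' hg
    obtain ⟨b₂, h₂⟩ := hex b
    have : b = b₂ := by
      refine hsepf b b₂ (hside b b₂ h₂) (by rw [hb]; exact hsurj) fun f hf => ?_
      obtain ⟨f, rfl⟩ : ∃ f₀, f = φ' (φ' (D'.symm f₀)) :=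
        ⟨D' (φ'.symm (φ'.symm f)), by simp⟩
      have hf₀ : BB C T f := by
        rw [Bφ, Bφ, ← BD] at hf
        simpa using hf
      have e1 := hev b b₂ h₂ _ (B1 f hf₀) 0 (by simp)
      rw [map_zero, cred_zero, IsScalarTower.toAlgHom_apply, hγ'] at e1
      have e2 := ev_gam (D' := (D' : K' ≃+* K')) hφ' (fun y => by
        rw [← hWW (algebraMap K' K₀ y), hD]; rfl) hφW hu1 hE B1 B2 Bφ BD hb hb' hg hf₀
        (g := φ' (D'.symm f)) (hinj (by
          change algebraMap K' K₀ (D' _) = _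
          rw [← hD, ← hφ', ← hφD, hD, AlgEquiv.apply_symm_apply, hφ']))
      change b.ev (redv C _ (algebraMap K' K₀ _)) = 0 ↔ b₂.ev (redv C _ (algebraMap K' K₀ _)) = 0
      rw [e2, e1, pow_eq_zero_iff (pow_ne_zero 2 hq)]
    rw [← this] at h₂
    exact h₂
  have hfix : ∀ b ∈ S, Tw (γ : K₀ →+* K₀) b b := by
    intro b hb
    obtain ⟨b', -, hne, hg⟩ := hS.2 b hb
    have hw : b'.w ≠ b.w := fun e => hne (hsep b' b e hg.symm)
    have h01 : ∀ v, v = u 0 ∨ v = u 1 := hall (Or.inl rfl) (Or.inr rfl)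
    by_cases h1 : b.w = u 0
    · exact hfix0 b b' h1 ((h01 b'.w).resolve_left (h1 ▸ hw)) hg
    · have h2 := (h01 b.w).resolve_left h1
      have h3 := hfix0 b' b ((h01 b'.w).resolve_right (h2 ▸ hw)) h2 hg.symm
      obtain ⟨b₂, h₂⟩ := hex b
      have h4 := hsep b b₂ (hside b b₂ h₂) (hg.trans ((hgl b' b' b b₂ h3 h₂).1.1 hg.symm))
      rw [← h4] at h₂
      exact h₂
  obtain ⟨z, hz, e⟩ := hNODE C K₀ (algebraMap K' K₀ T) hF S hS m (q ^ 2) γ (s.trans s) hm hγs hγT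
    hfix (fun μ hμ => by
      rw [RingEquiv.trans_apply, hs μ hμ, map_pow, hs μ hμ, ← pow_mul, sq]) (Dm A) hO hT
  rw [hγ, AlgEquiv.symm_apply_apply] at e
  exact ⟨z, hz, e⟩

end Vale.Agent.P027M.I
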