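import Vale.Agent.P027M.I.Spec

/-!
# P027 route M, block I: basic facts on values, `BB`, `En`, `Pn`
-/

set_option linter.unusedSectionVars false

noncomputable section

open IntermediateField Vale.Agent.P019P P025H746 P025H492 Module

namespace Vale.Agent.P027M.I

section vals

variable {k K : Type*} [Field k] [Field K] [Algebra k K] [CFF k K] {P : Plk k K} {y z : K}

theorem mem_Mge0 : z ∈ Mge P 0 ↔ z ∈ P.1 := by rw [mem_Mge, mem_iff_ord]

theorem sub_vl (hz : z ∈ P.1) : z - algebraMap k K (vl P z) ∈ Mge P 1 :=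
  sub_vl_mem (ord_nonneg_of_mem P hz)

theorem vl_add' (hy : y ∈ P.1) (hz : z ∈ P.1) : vl P (y + z) = vl P y + vl P z := by
  apply vl_eq
  have := add_mem (sub_vl hy) (sub_vl hz)
  convert this using 1
  rw [map_add]; ring

theorem vl_mul' (hy : y ∈ P.1) (hz : z ∈ P.1) : vl P (y * z) = vl P y * vl P z := by
  apply vl_eq
  have h1 := mul_mem_Mge (sub_vl hy) (mem_Mge0.2 hz)
  have h2 := mul_mem_Mge (mem_Mge0.2 (P.2.1 (vl P y))) (sub_vl hz)
  rw [add_zero] at h1
  rw [zero_add] at h2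
  have := add_mem h1 h2
  convert this using 1
  rw [map_mul]; ring

theorem vl_zero' : vl P (0 : K) = 0 := by simpa using vl_const P (0 : k)

theorem vl_one' : vl P (1 : K) = 1 := by simpa using vl_const P (1 : k)

theorem vl_smul' (c : k) (hz : z ∈ P.1) : vl P (c • z) = c * vl P z := by
  rw [Algebra.smul_def, vl_mul' (P.2.1 c) hz, vl_const]

theorem vl_neg' (hz : z ∈ P.1) : vl P (-z) = -vl P z := by
  have := vl_smul' (P := P) (-1 : k) hz
  simpa using this

theorem vl_sub' (hy : y ∈ P.1) (hz : z ∈ P.1) : vl P (y - z) = vl P y - vl P z := by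
  rw [sub_eq_add_neg, vl_add' hy (neg_mem hz), vl_neg' hz, sub_eq_add_neg]

theorem vl_pow' (hz : z ∈ P.1) (n : ℕ) : vl P (z ^ n) = vl P z ^ n := by
  induction n with
  | zero => simpa using vl_one'
  | succ n ih => rw [pow_succ, vl_mul' (pow_mem hz n) hz, ih, pow_succ]

theorem vl_sum' {ι : Type*} (s : Finset ι) (f : ι → K) (h : ∀ i ∈ s, f i ∈ P.1) :
    vl P (∑ i ∈ s, f i) = ∑ i ∈ s, vl P (f i) := by
  classical
  induction s using Finset.induction_on with
  | empty => simpa using vl_zero'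
  | insert a s ha ih =>
    rw [Finset.sum_insert ha, Finset.sum_insert ha, vl_add' (h a (Finset.mem_insert_self _ _))
      (sum_mem fun i hi => h i (Finset.mem_insert_of_mem hi)),
      ih fun i hi => h i (Finset.mem_insert_of_mem hi)]

theorem vl_prod' {ι : Type*} (s : Finset ι) (f : ι → K) (h : ∀ i ∈ s, f i ∈ P.1) :
    vl P (∏ i ∈ s, f i) = ∏ i ∈ s, vl P (f i) := by
  classical
  induction s using Finset.induction_on with
  | empty => simpa using vl_one'
  | insert a s ha ih =>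
    rw [Finset.prod_insert ha, Finset.prod_insert ha, vl_mul' (h a (Finset.mem_insert_self _ _))
      (prod_mem fun i hi => h i (Finset.mem_insert_of_mem hi)),
      ih fun i hi => h i (Finset.mem_insert_of_mem hi)]

theorem vl_eq_iff (hz : z ∈ P.1) {c : k} : vl P z = c ↔ z - algebraMap k K c ∈ Mge P 1 :=
  ⟨fun h => h ▸ sub_vl hz, vl_eq⟩

theorem vl_eq_zero_iff (hz : z ∈ P.1) : vl P z = 0 ↔ z ∈ Mge P 1 := by
  rw [vl_eq_iff hz, map_zero, sub_zero]

theorem mem_Mge_one_iff : z ∈ Mge P 1 ↔ z = 0 ∨ z⁻¹ ∉ P.1 := by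
  rw [mem_Mge, mem_iff_ord, ord_inv]
  by_cases h : z = 0
  · simp [h]
  · simp only [h, false_or, inv_eq_zero]; omega

theorem mem_of_LL {T : K} {n : ℕ} (hz : z ∈ LL k (n • pol k T)) (hT : T ∈ P.1) : z ∈ P.1 := by
  have h := mem_LL_iff.1 hz P
  have h0 := ord_nonneg_of_mem P hT
  rw [Finsupp.smul_apply, pol_apply, max_eq_left (by omega), smul_zero, neg_zero] at h
  exact mem_Mge0.1 h

theorem exists_LL {T : K} (h : ∀ P : Plk k K, T ∈ P.1 → z ∈ P.1) :
    ∃ n : ℕ, z ∈ LL k (n • pol k T) := by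
  obtain ⟨r, hr⟩ := exists_mem_Mr (k := k) (x := T) (z := z) fun P hP =>
    mem_Mge0.2 (h P ((mem_iff_ord P T).2 (Or.inr hP)))
  exact ⟨r, by simpa [Mr] using hr⟩

theorem LL_pol_mono {T : K} {n n' : ℕ} (h : n ≤ n') : LL k (n • pol k T) ≤ LL k (n' • pol k T) :=
  LL_mono (nsmul_le_nsmul_left (pol_nonneg T) h)

theorem LL_mul {D E : Plk k K →₀ ℤ} (hy : y ∈ LL k D) (hz : z ∈ LL k E) : y * z ∈ LL k (D + E) := by
  rw [mem_LL_iff] at hy hz ⊢
  intro P
  have := mul_mem_Mge (hy P) (hz P)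
  rwa [Finsupp.add_apply, neg_add]

theorem const_mem_LL {D : Plk k K →₀ ℤ} (hD : 0 ≤ D) (c : k) : algebraMap k K c ∈ LL k D :=
  mem_LL.2 (Or.inr fun P => by rw [ord_const]; have := hD P; simpa using this)

theorem pow_mem_LL (T : K) (n : ℕ) : T ^ n ∈ LL k (n • pol k T) :=
  mem_LL.2 (Or.inr fun P => by
    rw [ord_pow, Finsupp.smul_apply, pol_apply, nsmul_eq_mul]
    have h1 : -ord P T ≤ max 0 (-ord P T) := le_max_right _ _
    have h2 : (0 : ℤ) ≤ n := Int.natCast_nonneg n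
    nlinarith)

end vals

section red

variable {C : Type} [NontriviallyNormedField C] [IsUltrametricDist C] [IsAlgClosed C]
variable {F : Type} [Field F] [Algebra C F] {T : F} {f g : F}

theorem mem_Rd {V : Submodule C F} {y : PP C T} :
    y ∈ Rd C T V ↔ ∃ x ∈ V, Itg C T x ∧ redv C T x = y := Iff.rfl

theorem Itg.add (hf : Itg C T f) (hg : Itg C T g) : Itg C T (f + g) :=
  fun w => NV.add_le (hf w) (hg w)

theorem Itg.sub (hf : Itg C T f) (hg : Itg C T g) : Itg C T (f - g) :=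
  fun w => NV.sub_le (hf w) (hg w)

theorem Itg.mul (hf : Itg C T f) (hg : Itg C T g) : Itg C T (f * g) :=
  fun w => NV.mul_le_one (hf w) (hg w)

theorem Itg.pow (hf : Itg C T f) (n : ℕ) : Itg C T (f ^ n) := fun w => NV.pow_le_one' (hf w) n

theorem Itg.const {c : C} (hc : ‖c‖ ≤ 1) : Itg C T (algebraMap C F c) :=
  fun w => by rw [w.1.ext']; exact hc

theorem Itg.self : Itg C T T := fun w => w.2.apply_T.le

theorem redv_add (hf : Itg C T f) (hg : Itg C T g) : redv C T (f + g) = redv C T f + redv C T g :=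
  funext fun w => NV.red_add (hf w) (hg w)

theorem redv_sub (hf : Itg C T f) (hg : Itg C T g) : redv C T (f - g) = redv C T f - redv C T g :=
  funext fun w => NV.red_sub (hf w) (hg w)

theorem redv_mul (hf : Itg C T f) (hg : Itg C T g) : redv C T (f * g) = redv C T f * redv C T g :=
  funext fun w => NV.red_mul (hf w) (hg w)

theorem redv_pow (hf : Itg C T f) (n : ℕ) : redv C T (f ^ n) = redv C T f ^ n :=
  funext fun w => NV.red_pow (hf w) n

theorem redv_const {c : C} (hc : ‖c‖ ≤ 1) :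
    redv C T (algebraMap C F c) = algebraMap (kC C) (PP C T) (cred c) :=
  funext fun _ => NV.red_algebraMap hc

theorem BB.add (hf : BB C T f) (hg : BB C T g) : BB C T (f + g) :=
  ⟨hf.1.add hg.1, fun P h => add_mem (hf.2 P h) (hg.2 P h)⟩

theorem BB.sub (hf : BB C T f) (hg : BB C T g) : BB C T (f - g) :=
  ⟨hf.1.sub hg.1, fun P h => sub_mem (hf.2 P h) (hg.2 P h)⟩

theorem BB.mul (hf : BB C T f) (hg : BB C T g) : BB C T (f * g) :=
  ⟨hf.1.mul hg.1, fun P h => mul_mem (hf.2 P h) (hg.2 P h)⟩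

theorem BB.pow (hf : BB C T f) (n : ℕ) : BB C T (f ^ n) :=
  ⟨hf.1.pow n, fun P h => pow_mem (hf.2 P h) n⟩

theorem BB.const {c : C} (hc : ‖c‖ ≤ 1) : BB C T (algebraMap C F c) :=
  ⟨Itg.const hc, fun P _ => P.2.1 c⟩

theorem BB.self : BB C T T := ⟨Itg.self, fun _ h => h⟩

theorem BB.one : BB C T 1 := by simpa using BB.const (C := C) (T := T) (c := 1) (by simp)

theorem BB.zero : BB C T 0 := by simpa using BB.const (C := C) (T := T) (c := 0) (by simp)

theorem BB.prod {ι : Type*} (s : Finset ι) (f : ι → F) (h : ∀ i ∈ s, BB C T (f i)) :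
    BB C T (∏ i ∈ s, f i) :=
  Finset.prod_induction f (BB C T) (fun _ _ => BB.mul) BB.one h

theorem BB.sum {ι : Type*} (s : Finset ι) (f : ι → F) (h : ∀ i ∈ s, BB C T (f i)) :
    BB C T (∑ i ∈ s, f i) :=
  Finset.sum_induction f (BB C T) (fun _ _ => BB.add) BB.zero h

theorem Br.ext' {b b' : Br C T} (h : b.w = b'.w)
    (hx : ∀ y, b.w.1 y ≤ 1 → (b.w.1.red y ∈ b.x.1 ↔ b'.w.1.red y ∈ b'.x.1)) : b = b' := by
  obtain ⟨w, x, h1⟩ := b
  obtain ⟨w', x', h2⟩ := b'
  dsimp only at h hx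
  subst h
  have : x = x' := by
    apply Subtype.ext
    ext z
    obtain ⟨y, hy, rfl⟩ := NV.red_surj z
    exact hx y hy
  subst this
  rfl

variable [FiniteDimensional C⟮T⟯ F]

theorem Full.nonempty (h : Full C T) : Nonempty (WW C T) := by
  by_contra hn
  rw [not_nonempty_iff] at hn
  have h1 : 0 < finrank C⟮T⟯ F := Module.finrank_pos
  rw [← h, Finset.univ_eq_empty, Finset.sum_empty] at h1
  exact lt_irrefl _ h1

theorem Full.transc (h : Full C T) : Transcendental C T := h.nonempty.some.2.transc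

theorem nc_of_transc {k K : Type*} [Field k] [Field K] [Algebra k K] {x : K}
    (h : Transcendental k x) (a : k) : x ≠ algebraMap k K a :=
  fun e => h (e ▸ isAlgebraic_algebraMap a)

theorem BB.red_mem (hf : BB C T f) (b : Br C T) : b.w.1.red f ∈ b.x.1 :=
  P025H458.red_mem b.w.2.transc hf.2 (fun w hw => hf.1 ⟨w, hw⟩) b.w.2 b.x b.fin

theorem mem_Pn {n : ℕ} {y : PP C T} :
    y ∈ Pn C T n ↔ ∀ w : WW C T, y w ∈ LL (kC C) (n • pol (kC C) (w.1.red T)) := by
  simp [Pn, Submodule.mem_pi]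

theorem Pn_mono {n n' : ℕ} (h : n ≤ n') : Pn C T n ≤ Pn C T n' :=
  fun _ hy => mem_Pn.2 fun w => LL_pol_mono h (mem_Pn.1 hy w)

theorem Pn_mul {n n' : ℕ} {y z : PP C T} (hy : y ∈ Pn C T n) (hz : z ∈ Pn C T n') :
    y * z ∈ Pn C T (n + n') :=
  mem_Pn.2 fun w => by rw [add_nsmul]; exact LL_mul (mem_Pn.1 hy w) (mem_Pn.1 hz w)

theorem Pn_reg {n : ℕ} {y : PP C T} (hy : y ∈ Pn C T n) (b : Br C T) : y b.w ∈ b.x.1 :=
  mem_of_LL (mem_Pn.1 hy b.w) b.fin

instance (n : ℕ) : FiniteDimensional (kC C) (Pn C T n) := by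
  let φ : (Pn C T n) →ₗ[kC C] (∀ w : WW C T, LL (kC C) (n • pol (kC C) (w.1.red T))) :=
    LinearMap.pi fun w => LinearMap.codRestrict _ ((LinearMap.proj w).comp (Pn C T n).subtype)
      fun y => mem_Pn.1 y.2 w
  refine FiniteDimensional.of_injective φ fun y z h => Subtype.ext (funext fun w => ?_)
  exact congrArg Subtype.val (congrFun h w)

theorem ev_add {y z : PP C T} (b : Br C T) (hy : y b.w ∈ b.x.1) (hz : z b.w ∈ b.x.1) :
    b.ev (y + z) = b.ev y + b.ev z := vl_add' hy hz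

theorem ev_sub {y z : PP C T} (b : Br C T) (hy : y b.w ∈ b.x.1) (hz : z b.w ∈ b.x.1) :
    b.ev (y - z) = b.ev y - b.ev z := vl_sub' hy hz

theorem ev_mul {y z : PP C T} (b : Br C T) (hy : y b.w ∈ b.x.1) (hz : z b.w ∈ b.x.1) :
    b.ev (y * z) = b.ev y * b.ev z := vl_mul' hy hz

theorem ev_smul {y : PP C T} (b : Br C T) (c : kC C) (hy : y b.w ∈ b.x.1) :
    b.ev (c • y) = c * b.ev y := vl_smul' c hy

theorem ev_const (b : Br C T) (c : kC C) : b.ev (algebraMap (kC C) (PP C T) c) = c :=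
  vl_const b.x c

/-- evaluation at a branch as a linear form on `Pn` -/
def evL (b : Br C T) (n : ℕ) : Pn C T n →ₗ[kC C] kC C where
  toFun y := b.ev y.1
  map_add' y z := ev_add b (Pn_reg y.2 b) (Pn_reg z.2 b)
  map_smul' c y := ev_smul b c (Pn_reg y.2 b)

theorem evL_apply (b : Br C T) (n : ℕ) (y : Pn C T n) : evL b n y = b.ev y.1 := rfl

theorem evB_add (b : Br C T) (hf : BB C T f) (hg : BB C T g) :
    b.ev (redv C T (f + g)) = b.ev (redv C T f) + b.ev (redv C T g) := by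
  rw [redv_add hf.1 hg.1, ev_add b (hf.red_mem b) (hg.red_mem b)]

theorem evB_sub (b : Br C T) (hf : BB C T f) (hg : BB C T g) :
    b.ev (redv C T (f - g)) = b.ev (redv C T f) - b.ev (redv C T g) := by
  rw [redv_sub hf.1 hg.1, ev_sub b (hf.red_mem b) (hg.red_mem b)]

theorem evB_mul (b : Br C T) (hf : BB C T f) (hg : BB C T g) :
    b.ev (redv C T (f * g)) = b.ev (redv C T f) * b.ev (redv C T g) := by
  rw [redv_mul hf.1 hg.1, ev_mul b (hf.red_mem b) (hg.red_mem b)]

theorem evB_const (b : Br C T) {c : C} (hc : ‖c‖ ≤ 1) :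
    b.ev (redv C T (algebraMap C F c)) = cred c := by
  rw [redv_const hc, ev_const]

theorem evB_prod (b : Br C T) {ι : Type*} (s : Finset ι) (f : ι → F) (h : ∀ i ∈ s, BB C T (f i)) :
    b.ev (redv C T (∏ i ∈ s, f i)) = ∏ i ∈ s, b.ev (redv C T (f i)) := by
  classical
  induction s using Finset.induction_on with
  | empty => simpa using evB_const (T := T) b (c := 1) (by simp)
  | insert a s ha ih =>
    rw [Finset.prod_insert ha, Finset.prod_insert ha, evB_mul b (h a (Finset.mem_insert_self _ _))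
      (BB.prod s f fun i hi => h i (Finset.mem_insert_of_mem hi)),
      ih fun i hi => h i (Finset.mem_insert_of_mem hi)]

theorem evB_sum (b : Br C T) {ι : Type*} (s : Finset ι) (f : ι → F) (h : ∀ i ∈ s, BB C T (f i)) :
    b.ev (redv C T (∑ i ∈ s, f i)) = ∑ i ∈ s, b.ev (redv C T (f i)) := by
  classical
  induction s using Finset.induction_on with
  | empty => simpa using evB_const (T := T) b (c := 0) (by simp)
  | insert a s ha ih =>
    rw [Finset.sum_insert ha, Finset.sum_insert ha, evB_add b (h a (Finset.mem_insert_self _ _))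
      (BB.sum s f fun i hi => h i (Finset.mem_insert_of_mem hi)),
      ih fun i hi => h i (Finset.mem_insert_of_mem hi)]

theorem Glue.refl (b : Br C T) : Glue b b := fun _ _ => rfl

theorem Glue.symm {b b' : Br C T} (h : Glue b b') : Glue b' b := fun f hf => (h f hf).symm

theorem Glue.trans {b b' b'' : Br C T} (h : Glue b b') (h' : Glue b' b'') : Glue b b'' :=
  fun f hf => (h f hf).trans (h' f hf)

theorem glue_iff_zero {b b' : Br C T} :
    Glue b b' ↔ ∀ f, BB C T f → (b.ev (redv C T f) = 0 ↔ b'.ev (redv C T f) = 0) := by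
  refine ⟨fun h f hf => by rw [h f hf], fun h f hf => ?_⟩
  obtain ⟨c, hc, hc'⟩ := cred_surj (b.ev (redv C T f))
  have h1 := h _ (hf.sub (BB.const hc))
  rw [evB_sub b hf (BB.const hc), evB_sub b' hf (BB.const hc), evB_const b hc, evB_const b' hc,
    hc', sub_self] at h1
  exact (sub_eq_zero.1 (h1.1 rfl)).symm

variable [CFF C F]

theorem mem_En {n : ℕ} {y : PP C T} :
    y ∈ En C T n ↔ ∃ x ∈ LL C (n • pol C T), Itg C T x ∧ redv C T x = y := Iff.rfl

theorem En_le_Pn (n : ℕ) : En C T n ≤ Pn C T n := by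
  rintro _ ⟨x, hx, h1, rfl⟩
  exact mem_Pn.2 fun w =>
    P025H458.hred (nc_of_transc w.2.transc) w.2 n hx fun v hv => h1 ⟨v, hv⟩

instance (n : ℕ) : FiniteDimensional (kC C) (En C T n) :=
  Submodule.finiteDimensional_of_le (En_le_Pn n)

theorem En_mono {n n' : ℕ} (h : n ≤ n') : En C T n ≤ En C T n' := by
  rintro _ ⟨x, hx, h1, rfl⟩
  exact ⟨x, LL_pol_mono h hx, h1, rfl⟩

theorem En_mul {n n' : ℕ} {y z : PP C T} (hy : y ∈ En C T n) (hz : z ∈ En C T n') :
    y * z ∈ En C T (n + n') := by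
  obtain ⟨x, hx, h1, rfl⟩ := hy
  obtain ⟨x', hx', h1', rfl⟩ := hz
  exact ⟨x * x', by rw [add_nsmul]; exact LL_mul hx hx', h1.mul h1', redv_mul h1 h1'⟩

theorem BB_of_LL {n : ℕ} (hf : f ∈ LL C (n • pol C T)) (h1 : Itg C T f) : BB C T f :=
  ⟨h1, fun _ hP => mem_of_LL hf hP⟩

theorem BB.exists_En (hf : BB C T f) : ∃ n, redv C T f ∈ En C T n := by
  obtain ⟨n, hn⟩ := exists_LL hf.2
  exact ⟨n, f, hn, hf.1, rfl⟩

theorem Glue.ev_En {b b' : Br C T} (h : Glue b b') {n : ℕ} {y : PP C T} (hy : y ∈ En C T n) :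
    b.ev y = b'.ev y := by
  obtain ⟨x, hx, h1, rfl⟩ := hy
  exact h x (BB_of_LL hx h1)

end red

end Vale.Agent.P027M.I
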