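import Vale.Agent.P027M.I.Spec2
import Vale.Agent.P027M.I.Basic

/-!
# P027 route M, block I: no gluing at infinity
-/

set_option linter.all false

noncomputable section

open IntermediateField Vale.Agent.P019P P025H746 P025H492 Module

namespace Vale.Agent.P027M.I

namespace InfAux

theorem comp {k K : Type*} [Field k] [Field K] [Algebra k K] [CFF k K] {x : K}
    (hx : ∀ a : k, x ≠ algebraMap k K a) : ∃ r : ℕ, ∀ n, r ≤ n →
      ∀ y ∈ LL k ((n + 2) • pol k x), ∃ a ∈ LL k ((n + 1) • pol k x),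
        y - x * a ∈ LL k ((n + 1) • pol k x) := by
  obtain ⟨r, hr⟩ := exists_l_pol_eq hx
  refine ⟨r, fun n hn y hy => ?_⟩
  have x0 : x ≠ 0 := fun e => hx 0 (by rw [e, map_zero])
  have hi : Function.Injective (LinearMap.mulLeft k x) := mul_right_injective₀ x0
  have e := fun m : ℕ => (Submodule.equivMapOfInjective _ hi (LL k (m • pol k x))).finrank_eq
  have h1 : (LL k ((n + 1) • pol k x)).map (LinearMap.mulLeft k x) ⊔ LL k ((n + 1) • pol k x) ≤
      LL k ((n + 2) • pol k x) := by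
    refine sup_le ?_ (LL_pol_mono (by omega))
    rintro _ ⟨a, ha, rfl⟩
    have := LL_mul (pow_mem_LL (k := k) x 1) ha
    rwa [← add_nsmul, pow_one, show 1 + (n + 1) = n + 2 by omega] at this
  have h2 : (LL k ((n + 1) • pol k x)).map (LinearMap.mulLeft k x) ⊓ LL k ((n + 1) • pol k x) ≤
      (LL k (n • pol k x)).map (LinearMap.mulLeft k x) := by
    rintro _ ⟨⟨a, ha, rfl⟩, hb⟩
    refine ⟨a, mem_LL_iff.2 fun P => ?_, rfl⟩
    have a1 := mem_LL_iff.1 ha P
    have a2 := (mul_mem_Mge_iff x0).1 (mem_LL_iff.1 hb P)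
    simp only [Finsupp.smul_apply, pol_apply, nsmul_eq_mul] at a1 a2 ⊢
    rcases le_total 0 (-ord P x) with h | h
    · rw [max_eq_right h] at a2 ⊢
      exact Mge_mono P (by push_cast; linarith) a2
    · rw [max_eq_left h] at a1 ⊢
      simpa using a1
  have h3 := Submodule.finrank_sup_add_finrank_inf_eq
    ((LL k ((n + 1) • pol k x)).map (LinearMap.mulLeft k x)) (LL k ((n + 1) • pol k x))
  have h4 := Submodule.finrank_mono h2
  have r0 := hr n hn
  have r1 := hr (n + 1) (by omega)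
  have r2 := hr (n + 2) (by omega)
  rw [← e] at h3 h4
  push_cast at r1 r2
  rw [← Submodule.eq_of_le_of_finrank_le h1 (by zify at h3 h4 ⊢; linarith)] at hy
  obtain ⟨_, ⟨a, ha, rfl⟩, z, hz, rfl⟩ := Submodule.mem_sup.1 hy
  exact ⟨a, ha, by simpa using hz⟩

theorem main {k A : Type*} [Field k] [CommRing A] [Algebra k A] (t : A) (P E : ℕ → Submodule k A)
    [∀ n, FiniteDimensional k (P n)] (hEP : ∀ n, E n ≤ P n) (hE : Monotone E)
    (tE : ∀ n, ∀ y ∈ E n, t * y ∈ E (n + 1)) (tP : ∀ n, ∀ y ∈ P n, t * y ∈ P (n + 1)) {r : ℕ}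
    (hs : ∀ n, r ≤ n → ∀ y ∈ P (n + 2), ∃ a ∈ P (n + 1), y - t * a ∈ P (n + 1)) {n₀ : ℕ} {c : ℤ}
    (hc : ∀ n, n₀ ≤ n → (finrank k (P n) : ℤ) - finrank k (E n) = c)
    (H : ∀ y ∈ P (r + 1), ∃ j : ℕ, ∃ e ∈ E (r + 1 + j), e - t ^ j * y ∈ P (r + j))
    (hP : Monotone P) : ∃ n₁ : ℕ, ∀ n, n₁ ≤ n → ∀ N, ∀ y ∈ E N, y ∈ P n → y ∈ E n := by
  have fE : ∀ n, FiniteDimensional k (E n) := fun n => Submodule.finiteDimensional_of_le (hEP n)
  have h1 : ∀ j, ∀ y ∈ P (r + 1 + j), ∃ a ∈ P (r + 1), y - t ^ j * a ∈ P (r + j) := by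
    intro j
    induction j with
    | zero => exact fun y hy => ⟨y, hy, by simp⟩
    | succ j ih =>
      intro y hy
      obtain ⟨a, ha, h2⟩ := hs (r + j) (by omega) y (by rwa [show r + j + 2 = r + 1 + (j + 1) by omega])
      obtain ⟨b, hb, h3⟩ := ih a (by rwa [show r + 1 + j = r + j + 1 by omega])
      refine ⟨b, hb, ?_⟩
      have e : y - t ^ (j + 1) * b = y - t * a + t * (a - t ^ j * b) := by ring
      rw [e]
      exact add_mem h2 (tP _ _ h3)
  let S : ℕ →o Submodule k (P (r + 1)) := ⟨fun j => (E (r + 1 + j) ⊔ P (r + j)).comap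
    ((LinearMap.mulLeft k (t ^ j)).comp (P (r + 1)).subtype), monotone_nat_of_le_succ fun j y hy => by
      obtain ⟨e, he, z, hz, h⟩ := Submodule.mem_sup.1 hy
      refine Submodule.mem_sup.2 ⟨t * e, tE _ _ he, t * z, tP _ _ hz, ?_⟩
      have h' : e + z = t ^ j * y := h
      show _ = t ^ (j + 1) * y
      rw [← mul_add, h']
      ring⟩
  obtain ⟨j₀, hj⟩ := monotone_stabilizes_iff_noetherian.2 inferInstance S
  have h2 : ∀ j, j₀ ≤ j → P (r + j + 1) ≤ E (r + j + 1) ⊔ P (r + j) := by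
    intro j hj0 y hy
    rw [show r + j + 1 = r + 1 + j by omega] at hy ⊢
    obtain ⟨a, ha, h3⟩ := h1 j y hy
    obtain ⟨i, e, he, h4⟩ := H a ha
    have h5 : (⟨a, ha⟩ : P (r + 1)) ∈ S i := by
      refine Submodule.mem_sup.2 ⟨e, he, -(e - t ^ i * a), neg_mem h4, ?_⟩
      show _ = t ^ i * a
      ring
    have h6 := S.monotone (le_max_left i j₀) h5
    rw [← hj _ (le_max_right i j₀), hj j hj0] at h6
    have h7 : t ^ j * a ∈ E (r + 1 + j) ⊔ P (r + j) := h6
    have := add_mem (Submodule.mem_sup_right h3) h7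
    rwa [sub_add_cancel] at this
  have h3 : ∀ n, max n₀ (r + j₀) ≤ n → E (n + 1) ⊓ P n = E n := by
    intro n hn
    obtain ⟨j, rfl⟩ : ∃ j, n = r + j := ⟨n - r, by omega⟩
    have h4 := Submodule.finrank_sup_add_finrank_inf_eq (E (r + j + 1)) (P (r + j))
    have h5 := Submodule.finrank_mono (h2 j (by omega))
    have c1 := hc (r + j) (by omega)
    have c2 := hc (r + j + 1) (by omega)
    exact (Submodule.eq_of_le_of_finrank_le (le_inf (hE (Nat.le_add_right _ 1)) (hEP _)) (by omega)).symm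
  refine ⟨max n₀ (r + j₀), fun n hn N y hy hy' => ?_⟩
  have h4 : ∀ i, y ∈ E (n + i) → y ∈ E n := by
    intro i
    induction i with
    | zero => exact id
    | succ i ih =>
      intro h
      refine ih ?_
      rw [← h3 (n + i) (by omega)]
      exact ⟨h, hP (Nat.le_add_right n i) hy'⟩
  exact h4 N (hE (Nat.le_add_left N n) hy)

end InfAux

theorem inf (hc : COD) : INF := by
  intro C F _ _ _ _ _ _ T _ h H
  obtain ⟨n₀, h0⟩ := hc C F T h
  choose r hr using fun w : WW C T => InfAux.comp (nc_of_transc w.2.transc_red)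
  have t1 : redv C T T ∈ En C T 1 := ⟨T, by simpa using pow_mem_LL (k := C) T 1, Itg.self, rfl⟩
  obtain ⟨n₁, h1⟩ := InfAux.main (redv C T T) (Pn C T) (En C T) En_le_Pn (fun _ _ => En_mono)
    (fun n y hy => by rw [add_comm]; exact En_mul t1 hy)
    (fun n y hy => by rw [add_comm]; exact Pn_mul (En_le_Pn 1 t1) hy)
    (r := Finset.univ.sup r) (fun n hn y hy => by
      choose a ha hb using fun w => hr w n ((Finset.le_sup (Finset.mem_univ w)).trans hn) (y w)
        (mem_Pn.1 hy w)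
      exact ⟨a, mem_Pn.2 ha, mem_Pn.2 hb⟩) h0 (H _) (fun _ _ => Pn_mono)
  refine ⟨n₁, fun n hn f hf hp => ?_⟩
  obtain ⟨N, hN⟩ := hf.exists_En
  exact h1 n hn N _ hN hp

end Vale.Agent.P027M.I
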