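import Vale.Agent.P027M.I.Spec2
import Vale.Agent.P027M.I.Act

/-!
# P027 route M, block I, row LIFT: gluing lifts to Galois covers
-/

set_option linter.unusedSectionVars false

noncomputable section

open IntermediateField Vale.Agent.P019P P025H746 P025H492 Module

namespace Vale.Agent.P027M.I

namespace Lift

variable {C F L : Type} [NontriviallyNormedField C] [IsUltrametricDist C] [IsAlgClosed C]
  [Field F] [Algebra C F] [Field L] [Algebra C L] [Algebra F L]
  [IsScalarTower C F L] [FiniteDimensional F L] {T : F} [FiniteDimensional C⟮T⟯ F]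

/-- components extend -/
theorem exists_up (w : WW C T) :
    ∃ v : WW C (algebraMap F L T), ∀ y, v.1 (algebraMap F L y) = w.1 y := by
  obtain ⟨c, hc⟩ := NormedField.exists_one_lt_norm C
  obtain ⟨v, hv1, hv2⟩ := P025H458.exists_ext (C := C) (K := L) w.1.av w.1.na w.1.ext'
    (fun f => by obtain ⟨c, hc⟩ := exists_norm_eq w.2 f; exact ⟨c, hc.symm⟩)
    ⟨algebraMap C F c, by rw [w.1.ext']; exact hc⟩
  let v' : NV C L := ⟨v, hv1, fun c => by
    rw [IsScalarTower.algebraMap_apply C F L, hv2, w.1.ext']⟩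
  have : NVExt w.1 v' := ⟨hv2⟩
  exact ⟨⟨v', (NVExt.overG (w := w.1)).2 w.2⟩, hv2⟩

variable [CFF C F] [CFF C L]

theorem bb_down {f : F} (h : BB C (algebraMap F L T) (algebraMap F L f)) : BB C T f := by
  refine ⟨fun w => ?_, fun P hP => ?_⟩
  · obtain ⟨v, hv⟩ := exists_up (L := L) w
    rw [← hv]
    exact h.1 v
  · obtain ⟨Q, rfl⟩ := P025H492.exists_over (L := L) P
    exact h.2 Q hP

theorem bb_up {f : F} (h : BB C T f) : BB C (algebraMap F L T) (algebraMap F L f) :=
  ⟨fun v => h.1 ⟨v.1.comap F, v.2.comap⟩, fun Q hQ => h.2 (down F Q) hQ⟩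

theorem semi (g : L ≃ₐ[F] L) : Semi C (g : L ≃+* L) (RingEquiv.refl C) :=
  ⟨fun c => by
    rw [RingEquiv.refl_apply, IsScalarTower.algebraMap_apply C F L]
    exact g.commutes _, fun _ => rfl⟩

theorem bb_gal (g : L ≃ₐ[F] L) {f : L} (h : BB C (algebraMap F L T) f) :
    BB C (algebraMap F L T) (g f) :=
  ((semi (C := C) g).bb_iff (g.commutes T)).2 h

variable [FiniteDimensional C⟮algebraMap F L T⟯ L] [IsGalois F L]

theorem bb_norm {f : L} (h : BB C (algebraMap F L T) f) : BB C T (Algebra.norm F f) := by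
  refine bb_down (L := L) ?_
  rw [Algebra.norm_eq_prod_automorphisms]
  exact BB.prod _ _ fun g _ => bb_gal g h

theorem ev_norm {f : L} (h : BB C (algebraMap F L T) f) {b : Br C T}
    {b' : Br C (algebraMap F L T)} (hb : Tw (algebraMap F L) b b') :
    b.ev (redv C T (Algebra.norm F f)) = ∏ g : L ≃ₐ[F] L, b'.ev (redv C _ (g f)) := by
  rw [← hb.ev_eq (fun c => (IsScalarTower.algebraMap_apply C F L c).symm) ((bb_norm h).1 b.w)
    ((bb_norm h).red_mem b), Algebra.norm_eq_prod_automorphisms,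
    evB_prod b' _ _ fun g _ => bb_gal g h]

/-- the value of a conjugate is the value at a conjugate branch -/
theorem ev_gal (g : L ≃ₐ[F] L) {b : Br C T} {b' : Br C (algebraMap F L T)}
    (hb : Tw (algebraMap F L) b b') : ∃ b'' : Br C (algebraMap F L T),
      Tw (algebraMap F L) b b'' ∧ Tw (g : L →+* L) b'' b' ∧
      ∀ f, BB C (algebraMap F L T) f → b'.ev (redv C _ (g f)) = b''.ev (redv C _ f) := by
  obtain ⟨b'', h1⟩ := (semi (C := C) g).symm.exists_tw (symm_fix (g.commutes T)) b'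
  have h2 : Tw (g : L →+* L) b'' b' := h1.symm
  exact ⟨b'', (hb.comp h1).congr fun y => (g.symm.commutes y).symm, h2, fun f hf =>
    h2.ev_eq (semi (C := C) g).1 (hf.1 b''.w) (hf.red_mem b'')⟩

end Lift

theorem lift (hT : TRB) (hS : SEPF) : LIFT := by
  classical
  intro C F L _ _ _ _ _ _ _ _ _ _ _ _ _ T _ _ b₁ b₂ hg b₁' h₁
  by_contra hcon
  push Not at hcon
  obtain ⟨hfin, ⟨b₂', h₂⟩, -, -⟩ := (hT C F L T).2 b₂
  obtain ⟨f, hf, hv⟩ := hS C L (algebraMap F L T) (insert b₁' hfin.toFinset)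
    (fun b => if Glue b₁' b then 0 else 1) fun b _ b' _ h => by
      have h3 : Glue b₁' b ↔ Glue b₁' b' := ⟨fun h4 => h4.trans h, fun h4 => h4.trans h.symm⟩
      simp only [h3]
  have h3 := hg _ (Lift.bb_norm hf)
  rw [Lift.ev_norm hf h₁, Lift.ev_norm hf h₂, Finset.prod_eq_zero (Finset.mem_univ 1),
    Finset.prod_eq_one] at h3
  · exact zero_ne_one h3
  · intro g _
    obtain ⟨b'', h4, -, h5⟩ := Lift.ev_gal g h₂
    rw [h5 f hf, hv b'' (Finset.mem_insert_of_mem (hfin.mem_toFinset.2 h4)), if_neg (hcon b'' h4)]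
  · rw [AlgEquiv.one_apply, hv b₁' (Finset.mem_insert_self _ _), if_pos (Glue.refl _)]

end Vale.Agent.P027M.I
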