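import Vale.Agent.P027M.I.Spec2
import Vale.Agent.P027M.I.Act

/-!
# P027 route M, block I: Kronecker data give a nodal curve
-/

set_option linter.unusedSectionVars false

noncomputable section

open IntermediateField Vale.Agent.P019P P025H746 P025H492 Module

namespace Vale.Agent.P027M.I

namespace N0p

variable {C : Type} [NontriviallyNormedField C] [IsUltrametricDist C] [IsAlgClosed C]
variable {F : Type} [Field F] [Algebra C F] {T : F} [FiniteDimensional C⟮T⟯ F]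

theorem ord_pos_iff (b : Br C T) (c : kC C) :
    b.ev (redv C T T) = c ↔ 0 < ord b.x (b.w.1.red T - algebraMap (kC C) (kap b.w.1) c) := by
  refine (vl_eq_iff b.fin).trans ?_
  rw [mem_Mge]
  have := sub_ne_zero.2 (b.w.2.red_ne c)
  simp only [this, false_or]
  omega

theorem mem_of_pos {k K : Type*} [Field k] [Field K] [Algebra k K] [CFF k K] {x : Plk k K}
    {z : K} {c : k} (h : 0 < ord x (z - algebraMap k K c)) : z ∈ x.1 :=
  (mem_iff_ord _ _).2 (Or.inr (ord_nonneg_of_sub (mem_Mge_one_of_pos h)))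

theorem fin_val1 (c : kC C) (w : WW C T) :
    {b : Br C T | b.w = w ∧ b.ev (redv C T T) = c}.Finite := by
  have hA := fib_finite (k := kC C) (F := kap w.1) (x := w.1.red T) (NV.OverG.red_ne w.2) c
  have h : ∀ x : Plk (kC C) (kap w.1), {b : Br C T | b.w = w ∧ HEq b.x x}.Finite := fun x =>
    Set.Subsingleton.finite (by
      rintro ⟨w₁, x₁, h₁⟩ ⟨e₁, e₁'⟩ ⟨w₂, x₂, h₂⟩ ⟨e₂, e₂'⟩
      dsimp only at e₁ e₂ e₁' e₂'
      subst e₁ e₂
      cases e₁'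
      cases e₂'
      rfl)
  refine (hA.biUnion fun x _ => h x).subset ?_
  rintro ⟨w', x, hx⟩ ⟨h1, h2⟩
  dsimp only at h1
  subst h1
  have h3 := (ord_pos_iff _ c).1 h2
  exact Set.mem_biUnion (x := x) h3 ⟨rfl, HEq.rfl⟩

theorem fin_val (c : kC C) : {b : Br C T | b.ev (redv C T T) = c}.Finite :=
  (Set.finite_iUnion (fin_val1 c)).subset fun b hb => Set.mem_iUnion.2 ⟨b.w, rfl, hb⟩

theorem fin_S {Q : ℕ} (hQ : 1 < Q) :
    {b : Br C T | b.ev (redv C T T) ^ Q = b.ev (redv C T T) ∧ b.ev (redv C T T) ≠ 0 ∧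
      b.ev (redv C T T) ≠ 1}.Finite := by
  classical
  have h1 : (Polynomial.X ^ Q - Polynomial.X : Polynomial (kC C)) ≠ 0 :=
    FiniteField.X_pow_card_sub_X_ne_zero _ hQ
  refine (Set.Finite.biUnion (Polynomial.rootSet_finite
    (Polynomial.X ^ Q - Polynomial.X : Polynomial (kC C)) (kC C))
    fun c _ => fin_val (T := T) c).subset fun b hb => ?_
  refine Set.mem_biUnion (x := b.ev (redv C T T)) ?_ rfl
  rw [Polynomial.mem_rootSet]
  exact ⟨h1, by simp [hb.1]⟩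

theorem core (hV : VAN2) {K' K₀ : Type} [Field K'] [Field K₀] [Algebra C K₀] [CFF C K₀]
    [Algebra K' K₀] {T₀ : K₀} [FiniteDimensional C⟮T₀⟯ K₀] {q : ℕ} {W : K₀ ≃ₐ[C] K₀} {u : NV C K₀}
    {v : Fin 2 → WW C T₀} (hv : Two C K' T₀ W u v) (hq : q.Prime) (hc : (q : kC C) = 0)
    (hwwT : W (W T₀) = T₀) (hwwu : ∀ y, u (W (W y)) = u y) (hkro : u (W T₀ - T₀ ^ q) < 1)
    (side : ∀ z : kap (v 0).1,
      (∀ x : Plk (kC C) (kap (v 0).1), (v 0).1.red T₀ ∈ x.1 → z ∈ x.1) →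
      (∀ (x : Plk (kC C) (kap (v 0).1)) (c : kC C), c ^ q ^ 2 = c → c ≠ 0 → c ≠ 1 →
        0 < ord x ((v 0).1.red T₀ - algebraMap (kC C) (kap (v 0).1) c) → z ∈ Mge x 1) →
      ∃ f, BB C T₀ f ∧ (v 0).1.red f = z ∧ (v 1).1 f < 1) {n₀ : ℕ}
    (hn₀ : ∀ n, n₀ ≤ n → ∀ f, BB C T₀ f → redv C T₀ f ∈ Pn C T₀ n → redv C T₀ f ∈ En C T₀ n) :
    ∃ S : Finset (Br C T₀), Nodal C T₀ S := by
  classical
  haveI := Fact.mk hq
  haveI : CharP (kC C) q := (CharP.charP_iff_prime_eq_zero hq).2 hc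
  have hQ : 1 < q ^ 2 := Nat.one_lt_pow two_ne_zero hq.one_lt
  have h01 : ∀ y, (v 0).1 (W y) = (v 1).1 y := fun y => by rw [hv.v1, hv.v0]
  have hT1 : (v 0).1 (W T₀) ≤ 1 := by rw [h01]; exact (v 1).2.apply_T.le
  have hTq : (v 0).1.red (W T₀) = (v 0).1.red T₀ ^ q := by
    rw [← NV.red_pow (v 0).2.apply_T.le,
      red_eq_iff hT1 (NV.pow_le_one' (v 0).2.apply_T.le q), hv.v0]
    exact hkro
  have hWc : ∀ c, (W : K₀ →+* K₀) (algebraMap C K₀ c) = algebraMap C K₀ c := W.commutes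
  exact hV C K₀ T₀ hv.full (fin_S (T := T₀) hQ).toFinset ⟨n₀, fun n hn y hy h0 => by
    obtain ⟨f₀, hf₀, h1, h2⟩ := side (y (v 0)) (fun x hx => Pn_reg hy ⟨v 0, x, hx⟩)
      fun x c hc hc0 hc1 hx => by
        have hx' := mem_of_pos hx
        have h3 := (ord_pos_iff (⟨v 0, x, hx'⟩ : Br C T₀) c).2 hx
        exact (vl_eq_zero_iff (Pn_reg hy ⟨v 0, x, hx'⟩)).1 (h0 ⟨v 0, x, hx'⟩
          ((Set.Finite.mem_toFinset _).2 (by
            simp only [Set.mem_setOf_eq, h3]; exact ⟨hc, hc0, hc1⟩)))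
    obtain ⟨y₁, hy₁, hy₁'⟩ := NV.red_surj (y (v 1))
    have dn : ∀ (x : Plk (kC C) (kap (v 0).1)) (hx : (v 0).1.red T₀ ∈ x.1),
        ∃ (x₁ : Plk (kC C) (kap (v 1).1)) (hx₁ : (v 1).1.red T₀ ∈ x₁.1),
          Tw (W : K₀ →+* K₀) (⟨v 1, x₁, hx₁⟩ : Br C T₀) (⟨v 0, x, hx⟩ : Br C T₀) := fun x hx => by
      obtain ⟨⟨w₁, x₁, hx₁⟩, h3, h4⟩ := exists_down (W : K₀ →+* K₀) (s := RingEquiv.refl C) hWc
        (fun _ => rfl) (⟨v 0, x, hx⟩ : Br C T₀) (v 1) h01 (by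
          change (v 0).1.red (W T₀) ∈ x.1
          rw [hTq]; exact pow_mem hx q)
      dsimp only at h3
      subst h3
      exact ⟨x₁, hx₁, h4⟩
    obtain ⟨f, hf, h3, h4⟩ := side ((v 0).1.red (W y₁)) (fun x hx => by
      obtain ⟨x₁, hx₁, h3⟩ := dn x hx
      exact (h3.2 y₁ hy₁).2 (by
        change (v 1).1.red y₁ ∈ x₁.1
        rw [hy₁']; exact Pn_reg hy ⟨v 1, x₁, hx₁⟩)) fun x c hc hc0 hc1 hx => by
      have hx' := mem_of_pos hx
      obtain ⟨x₁, hx₁, h3⟩ := dn x hx'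
      have h4 : Br.ev (⟨v 1, x₁, hx₁⟩ : Br C T₀) (redv C T₀ T₀) = c ^ q := by
        rw [← h3.ev_eq hWc (v 1).2.apply_T.le hx₁]
        change vl x ((v 0).1.red (W T₀)) = _
        rw [hTq, vl_pow' hx', vl_eq_of_pos hx]
      have h5 := (vl_eq_zero_iff (Pn_reg hy ⟨v 1, x₁, hx₁⟩)).1 (h0 ⟨v 1, x₁, hx₁⟩
        ((Set.Finite.mem_toFinset _).2 (by
          simp only [Set.mem_setOf_eq, h4]
          refine ⟨by rw [← pow_mul, mul_comm, pow_mul, hc], pow_ne_zero q hc0, fun h => hc1 ?_⟩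
          exact frobenius_inj (kC C) q (by rw [frobenius_def, h, map_one]))))
      exact (h3.van hy₁).2 (by
        change (v 1).1.red y₁ ∈ Mge x₁ 1
        rw [hy₁']; exact h5)
    have h5 : (v 1).1 (W.symm f) ≤ 1 := by rw [← h01, W.apply_symm_apply]; exact hf.1 _
    have h6 : (v 0).1 (W.symm f) < 1 := by
      rw [hv.v0, ← hwwu, W.apply_symm_apply, ← hv.v1]; exact h4
    have h7 : (v 1).1.red (W.symm f) = y (v 1) := by
      apply (rm (W : K₀ →+* K₀) h01).injective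
      rw [← hy₁']
      refine (rm_red (W : K₀ →+* K₀) h01 _).trans (Eq.trans ?_ (rm_red (W : K₀ →+* K₀) h01 _).symm)
      change (v 0).1.red (W (W.symm f)) = (v 0).1.red (W y₁)
      rw [W.apply_symm_apply, h3]
    have hf₁ : BB C T₀ (W.symm f) := ⟨fun w => by
      obtain ⟨i, rfl⟩ := hv.all w
      fin_cases i
      · exact h6.le
      · exact h5, fun P hP => (mem_tr W P f).1 (hf.2 _ ((mem_tr W P T₀).2 (by
        have : W.symm T₀ = W T₀ := by rw [W.symm_apply_eq, hwwT]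
        rw [this]; exact (hv.pl P).1 hP)))⟩
    have h8 : redv C T₀ (f₀ + W.symm f) = y := by
      rw [redv_add hf₀.1 hf₁.1]
      funext w
      obtain ⟨i, rfl⟩ := hv.all w
      fin_cases i
      · change (v 0).1.red f₀ + (v 0).1.red (W.symm f) = y (v 0)
        rw [h1, NV.red_of_lt h6, add_zero]
      · change (v 1).1.red f₀ + (v 1).1.red (W.symm f) = y (v 1)
        rw [h7, NV.red_of_lt h2, zero_add]
    rw [← h8] at hy ⊢
    exact hn₀ n hn _ (hf₀.add hf₁) hy⟩ fun b _ b' _ b'' _ h1 h2 => by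
    by_contra hcon
    push Not at hcon
    obtain ⟨e1, e2, e3⟩ := hcon
    have a1 : b.w ≠ b'.w := fun h => e1 (hv.sep b b' h h1).symm
    have a2 : b.w ≠ b''.w := fun h => e2 (hv.sep b b'' h h2).symm
    have a3 : b'.w ≠ b''.w := fun h => e3 (hv.sep b' b'' h (h1.symm.trans h2))
    obtain ⟨i, hi⟩ := hv.all b.w
    obtain ⟨j, hj⟩ := hv.all b'.w
    obtain ⟨l, hl⟩ := hv.all b''.w
    rw [hi, hj] at a1
    rw [hi, hl] at a2
    rw [hj, hl] at a3
    have b1 : i ≠ j := fun h => a1 (by rw [h])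
    have b2 : i ≠ l := fun h => a2 (by rw [h])
    have b3 : j ≠ l := fun h => a3 (by rw [h])
    omega

end N0p

theorem n0 (hA : N0A) (hS : SIDE) (hP : POLE) (hI : INF) (hV : VAN2) : N0 := by
  intro C K' K₀ _ _ _ _ _ _ _ _ _ _ _ _ T _ _ q W u' u hK
  obtain ⟨v, hv⟩ := hA C K' K₀ T q W u' u hK
  obtain ⟨n₀, hn₀⟩ := hI C K₀ _ hv.full (hP C K' K₀ T q W u' u v hK hv)
  obtain ⟨S, hS'⟩ := N0p.core hV hv hK.prime hK.chr hK.wwT hK.wwu hK.kro
    (hS C K' K₀ T q W u' u v hK hv) hn₀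
  exact ⟨v, S, hv, hS'⟩

end Vale.Agent.P027M.I
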