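import Vale.Agent.P027M.I.Spec2
import Vale.Agent.P027M.I.Act

/-!
# P027 route M, block I: the two components of a Kronecker datum
-/

set_option linter.unusedSectionVars false

noncomputable section

open IntermediateField Vale.Agent.P019P P025H746 P025H492 Module

namespace Vale.Agent.P027M.I

namespace N0a

theorem fr_equiv {k F L : Type} [Field k] [Field F] [Field L] [Algebra k F] [Algebra k L]
    (e : F ≃ₐ[k] L) (x : F) : finrank k⟮x⟯ F = finrank k⟮e x⟯ L := by
  have h : k⟮x⟯.map (e : F →ₐ[k] L) = k⟮e x⟯ := by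
    rw [adjoin_map, Set.image_singleton]
    rfl
  refine Algebra.finrank_eq_of_equiv_equiv
    ((k⟮x⟯.equivMap (e : F →ₐ[k] L)).trans (equivOfEq h)).toRingEquiv e.toRingEquiv ?_
  ext y
  rfl

theorem fr_pow {k F : Type} [Field k] [Field F] [Algebra k F] [CFF k F] {x : F}
    (hx : Transcendental k x) {q : ℕ} (hq : 0 < q) : finrank k⟮x ^ q⟯ F = q * finrank k⟮x⟯ F := by
  have e : pol k (x ^ q) = q • pol k x := by
    ext P
    rw [Finsupp.smul_apply, pol_apply, pol_apply, ord_pow, nsmul_eq_mul,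
      mul_max_of_nonneg _ _ (Int.natCast_nonneg q), mul_zero, mul_neg]
  have h1 := dg_pol (nc_of_transc (hx.pow hq))
  rw [e, map_nsmul, dg_pol (nc_of_transc hx), nsmul_eq_mul] at h1
  exact_mod_cast h1.symm

variable {C : Type} [NontriviallyNormedField C] [IsUltrametricDist C] [IsAlgClosed C]

theorem overG_of {F : Type} [Field F] [Algebra C F] {w : NV C F} {x : F} (hx : w x ≤ 1)
    (ht : Transcendental (kC C) (w.red x)) : w.OverG x := by
  intro P
  by_cases h0 : P = 0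
  · rw [h0, map_zero, map_zero, P025H373.gp_zero]
  obtain ⟨i, hi⟩ := P025H373.exists_coeff_eq P
  have g0 : P025H373.gp P ≠ 0 := fun h => h0 (P025H373.gp_eq_zero.1 h)
  have g1 : P025H373.gp (Polynomial.C (P.coeff i)⁻¹ * P) = 1 := by
    rw [P025H373.gp_mul, P025H373.gp_C, norm_inv, hi, inv_mul_cancel₀ g0]
  have h1 : w (Polynomial.aeval x (Polynomial.C (P.coeff i)⁻¹ * P)) = 1 := by
    refine (NV.aeval_le hx g1.le).eq_of_not_lt fun h => ?_
    have h2 := NV.red_of_lt h
    rw [NV.red_aeval hx g1.le] at h2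
    exact ((pred_eq_zero g1.le).1 (transcendental_iff.1 ht _ h2)).ne g1
  rw [map_mul, Polynomial.aeval_C, map_mul, w.ext', norm_inv, hi] at h1
  exact ((inv_mul_eq_one₀ g0).1 h1).symm

/-- the isomorphism of residue fields given by an automorphism -/
def resE {F : Type} [Field F] [Algebra C F] (W : F ≃ₐ[C] F) {w w' : NV C F}
    (h : ∀ y, w' (W y) = w y) : kap w ≃ₐ[kC C] kap w' :=
  AlgEquiv.ofRingEquiv (f := RingEquiv.ofBijective (rm (W : F →+* F) h) ⟨RingHom.injective _,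
    rm_surj _ h fun y _ => ⟨W.symm y, by simp⟩⟩) fun a => by
    obtain ⟨c, hc, rfl⟩ := cred_surj a
    exact rm_const (s := RingEquiv.refl C) (W : F →+* F) h W.commutes (fun _ => rfl) hc

theorem resE_red {F : Type} [Field F] [Algebra C F] (W : F ≃ₐ[C] F) {w w' : NV C F}
    (h : ∀ y, w' (W y) = w y) (x : F) : resE W h (w.red x) = w'.red (W x) :=
  rm_red (W : F →+* F) h x

theorem count {ι : Type} [Fintype ι] (f : ι → ℕ) (a b : ι) (hab : a ≠ b) (pos : ∀ i, 0 < f i)
    {N : ℕ} (h1 : ∑ i, f i ≤ N) (h2 : N ≤ f a + f b) :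
    (∀ i, i = a ∨ i = b) ∧ ∑ i, f i = N ∧ f a + f b = N := by
  classical
  have h3 : f a + f b ≤ ∑ i, f i := by
    rw [← Finset.sum_pair hab]
    exact Finset.sum_le_sum_of_subset (Finset.subset_univ _)
  refine ⟨fun i => ?_, by omega, by omega⟩
  by_contra h
  have h4 : i ∉ ({a, b} : Finset ι) := by simpa using h
  have h5 : ∑ j ∈ insert i ({a, b} : Finset ι), f j ≤ ∑ j, f j :=
    Finset.sum_le_sum_of_subset (Finset.subset_univ _)
  rw [Finset.sum_insert h4, Finset.sum_pair hab] at h5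
  have := pos i
  omega

theorem etl_of {k F L : Type} [Field k] [Field F] [Field L] [Algebra k F] [Algebra k L] [CFF k F]
    [CFF k L] (e : F ≃+* L) (h : ∀ a, e (algebraMap k F a) = algebraMap k L a) {y : F}
    (hy : Etl k y) : Etl k (e y) := by
  intro c c0 c1 x hx
  obtain ⟨P, rfl⟩ := (plEquiv e (RingEquiv.refl k) h).surjective x
  have e1 := ord_plEquiv e (RingEquiv.refl k) h P (y - algebraMap k F c)
  rw [map_sub, h] at e1
  exact e1.trans (hy c c0 c1 P (hx.trans_eq e1))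

theorem pl_of {F : Type} [Field F] [Algebra C F] [CFF C F] (W : F ≃ₐ[C] F) {T : F} {q : ℕ}
    (ww : W (W T) = T) (h : ∀ P : Plk C F, ord P T < 0 → q * ord P (W T) ≤ ord P T)
    (P : Plk C F) : T ∈ P.1 ↔ W T ∈ P.1 := by
  have a : ∀ P : Plk C F, W T ∈ P.1 → T ∈ P.1 := fun P hP => by
    refine (mem_iff_ord P T).2 (Or.inr (not_lt.1 fun h1 => ?_))
    have h2 := mul_nonneg (Int.natCast_nonneg q) (ord_nonneg_of_mem P hP)
    have := h P h1
    omega
  refine ⟨fun hP => ?_, a P⟩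
  exact a (plEquiv (W.symm : F ≃+* F) (RingEquiv.refl C) W.symm.commutes P)
    (show W (W T) ∈ P.1 by rw [ww]; exact hP)

end N0a

theorem n0a (hP : PTS) : N0A := by
  intro C K' K₀ _ _ _ _ _ _ _ _ _ _ _ _ T _ _ q W u' u h
  have : NVExt u'.1 u := ⟨h.ext⟩
  have q2 := h.prime.two_le
  have h0 : u.OverG (algebraMap K' K₀ T) := NVExt.overG.2 u'.2
  have : CFF (kC C) (kap u) := h0.cff
  have p1 : u (algebraMap K' K₀ T ^ q) ≤ 1 := NV.pow_le_one' h0.apply_T.le q
  have p2 : u (W (algebraMap K' K₀ T)) ≤ 1 := by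
    have := NV.add_le h.kro.le p1
    rwa [sub_add_cancel] at this
  have p3 : u.red (W (algebraMap K' K₀ T)) = u.red (algebraMap K' K₀ T) ^ q := by
    rw [(red_eq_iff p2 p1).2 h.kro, NV.red_pow h0.apply_T.le]
  have hW : u.OverG (W (algebraMap K' K₀ T)) :=
    N0a.overG_of p2 (by rw [p3]; exact h0.transc_red.pow (by omega))
  let u₁ : NV C K₀ := pullNV (W : K₀ →+* K₀) (s := RingEquiv.refl C) W.commutes (fun _ => rfl) u
  have h1 : u₁.OverG (algebraMap K' K₀ T) := pullNV_overG _ _ _ hW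
  have h1W : u₁.OverG (W (algebraMap K' K₀ T)) :=
    pullNV_overG _ _ _ (show u.OverG (W (W (algebraMap K' K₀ T))) by rw [h.wwT]; exact h0)
  let v₀ : WW C (algebraMap K' K₀ T) := ⟨u, h0⟩
  let v₁ : WW C (algebraMap K' K₀ T) := ⟨u₁, h1⟩
  let f : WW C (algebraMap K' K₀ T) → ℕ := fun w =>
    finrank (kC C)⟮w.1.red (algebraMap K' K₀ T)⟯ (kap w.1)
  have pos : ∀ w, 0 < f w := fun w => by
    have := w.2.finite
    exact Module.finrank_pos
  have f1 : f v₁ = q * f v₀ := by
    have hh : ∀ y, u (W y) = u₁ y := fun _ => rfl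
    have := N0a.fr_equiv (N0a.resE W hh) (u₁.red (algebraMap K' K₀ T))
    rw [N0a.resE_red W hh, p3, N0a.fr_pow h0.transc_red (by omega)] at this
    exact this
  have ne : v₀ ≠ v₁ := fun e => by
    have a1 := pos v₀
    have a2 : 2 * f v₀ ≤ q * f v₀ := Nat.mul_le_mul_right _ q2
    rw [← e] at f1
    omega
  have f0 : finrank (kC C)⟮u'.1.red T⟯ (kap u'.1) * finrank (kap u'.1) (kap u) = f v₀ :=
    finrank_mul_resdeg u'.2.apply_T.le
  have f' : finrank (kC C)⟮u'.1.red T⟯ (kap u'.1) = finrank C⟮T⟯ K' := by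
    rw [← h.full, Finset.sum_eq_single u' (fun w _ hw => absurd (h.one w) hw)
      fun hw => absurd (Finset.mem_univ _) hw]
  have fN : finrank C⟮algebraMap K' K₀ T⟯ K₀ ≤ finrank C⟮T⟯ K' * (q + 1) := by
    rw [← finrank_adjoin_map, ← Module.finrank_mul_finrank C⟮T⟯ K' K₀]
    exact Nat.mul_le_mul_left _ h.deg
  have d0 : 0 < finrank (kap u'.1) (kap u) := by
    refine Nat.pos_of_ne_zero fun e => ?_
    rw [e, mul_zero] at f0
    exact (pos v₀).ne f0
  have f2 : finrank C⟮T⟯ K' ≤ f v₀ := by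
    rw [← f0, f']; exact Nat.le_mul_of_pos_right _ d0
  have f3 : f v₀ + f v₁ = f v₀ * (q + 1) := by rw [f1]; ring
  obtain ⟨all, full, f4⟩ := N0a.count f v₀ v₁ ne pos
    (sum_finrank_le (T := algebraMap K' K₀ T) Subtype.val Subtype.val_injective fun w => w.2)
    (fN.trans (by rw [f3]; exact Nat.mul_le_mul_right _ f2))
  have d1 : finrank (kap u'.1) (kap u) = 1 := by
    have a1 : f v₀ ≤ finrank C⟮T⟯ K' :=
      Nat.le_of_mul_le_mul_right (by rw [← f3, f4]; exact fN) (Nat.succ_pos q)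
    have a2 : 0 < finrank C⟮T⟯ K' := Module.finrank_pos
    rw [f'] at f0
    refine Nat.eq_of_mul_eq_mul_left a2 ?_
    omega
  have bij := Algebra.finrank_eq_one_iff_bijective_algebraMap.1 d1
  have den : ∀ y, u y ≤ 1 → ∃ y', u (y - algebraMap K' K₀ y') < 1 := fun y hy => by
    obtain ⟨z, hz⟩ := bij.2 (u.red y)
    obtain ⟨y', hy', rfl⟩ := NV.red_surj z
    refine ⟨y', (red_eq_iff hy (by rw [h.ext]; exact hy')).1 ?_⟩
    rw [red_algebraMap' hy', hz]
  have pl := N0a.pl_of W h.wwT h.pol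
  have etl : Etl (kC C) (u.red (algebraMap K' K₀ T)) := by
    rw [red_algebraMap' (w := u'.1) u'.2.apply_T.le]
    exact N0a.etl_of (RingEquiv.ofBijective _ bij)
      (fun a => (IsScalarTower.algebraMap_apply (kC C) (kap u'.1) (kap u) a).symm) h.etl
  refine ⟨![v₀, v₁], rfl, fun _ => rfl, ne, fun w => (all w).elim (fun e => ⟨0, e⟩) fun e => ⟨1, e⟩,
    full, den, pl, etl, fun b b' hb hg => ?_⟩
  rcases all b.w with e | e
  · obtain ⟨a1, a2⟩ := hP C K' K₀ T (algebraMap K' K₀ T) (IsScalarTower.toAlgHom C K' K₀) h.full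
      h.good (fun w => w.2) fun _ hT => hT
    refine a2 b b' hb (fun y hy => ?_) fun g hg' => glue_iff_zero.1 hg _ (a1 g hg')
    rw [e] at hy ⊢
    exact den y hy
  · have eT : ((W.symm : K₀ →ₐ[C] K₀).comp (IsScalarTower.toAlgHom C K' K₀)) T =
        W (algebraMap K' K₀ T) := W.symm_apply_eq.2 h.wwT.symm
    obtain ⟨a1, a2⟩ := hP C K' K₀ T (algebraMap K' K₀ T)
      ((W.symm : K₀ →ₐ[C] K₀).comp (IsScalarTower.toAlgHom C K' K₀)) h.full h.good
      (fun w => by
        rw [eT]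
        rcases all w with rfl | rfl
        · exact hW
        · exact h1W) fun P hT => by rw [eT]; exact (pl P).1 hT
    refine a2 b b' hb (fun y hy => ?_) fun g hg' => glue_iff_zero.1 hg _ (a1 g hg')
    rw [e] at hy ⊢
    obtain ⟨y', hy'⟩ := den (W y) hy
    refine ⟨y', ?_⟩
    show u (W (y - W.symm (algebraMap K' K₀ y'))) < 1
    rwa [map_sub, W.apply_symm_apply]

end Vale.Agent.P027M.I
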