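import Vale.Agent.P027M.I.Act

/-!
# P027 route M, block I: automorphisms fixing the nodes
-/

set_option linter.unusedSectionVars false

noncomputable section

open IntermediateField Vale.Agent.P019P P025H746 P025H492 Module

namespace Vale.Agent.P027M.I

namespace Node

theorem root_const {k K : Type*} [Field k] [IsAlgClosed k] [Field K] [Algebra k K] {m : ℕ}
    (hm : m ≠ 0) {u : K} (hu : u ^ m = 1) : ∃ a : k, algebraMap k K a = u ∧ a ^ m = 1 := by
  have hi : IsIntegral k u := IsIntegral.of_pow (Nat.pos_of_ne_zero hm) (hu ▸ isIntegral_one)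
  obtain ⟨a, ha⟩ := minpoly.degree_eq_one_iff.1
    (IsAlgClosed.degree_eq_one_of_irreducible k (minpoly.irreducible hi))
  exact ⟨a, ha, (algebraMap k K).injective (by rw [map_pow, ha, hu, map_one])⟩

variable {C : Type} [NontriviallyNormedField C] [IsUltrametricDist C] [IsAlgClosed C]

theorem norm_root {m : ℕ} (hm : m ≠ 0) {μ : C} (h : μ ^ m = 1) : ‖μ‖ = 1 := by
  have := congrArg norm h
  rw [norm_pow, norm_one] at this
  exact (pow_eq_one_iff_of_nonneg (norm_nonneg _) hm).1 this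

theorem ne_zero_of_cast {m : ℕ} (hm : (m : kC C) ≠ 0) : m ≠ 0 := by
  rintro rfl; exact hm Nat.cast_zero

theorem cast_ne_zero {m : ℕ} (hm : (m : kC C) ≠ 0) : (m : C) ≠ 0 := fun h => hm (by
  have h1 : (m : OC C) = 0 := Subtype.ext (by simpa using h)
  rw [← map_natCast (IsLocalRing.residue (OC C)), h1, map_zero])

theorem root_eq_one {m : ℕ} (hm : (m : kC C) ≠ 0) {μ : C} (h : μ ^ m = 1) (h1 : cred μ = 1) :
    μ = 1 := by
  by_contra hne
  have hn := (norm_root (ne_zero_of_cast hm) h).le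
  have h2 : ∑ i ∈ Finset.range m, μ ^ i = 0 := by
    have := geom_sum_mul μ m
    rw [h, sub_self] at this
    exact (mul_eq_zero.1 this).resolve_right (sub_ne_zero.2 hne)
  have h3 : ∑ i ∈ Finset.range m, (⟨μ, hn⟩ : OC C) ^ i = 0 := Subtype.ext (by simpa using h2)
  have h4 := congrArg (IsLocalRing.residue (OC C)) h3
  rw [map_sum, map_zero] at h4
  simp only [map_pow, ← cred_of hn, h1, one_pow, Finset.sum_const, Finset.card_range,
    nsmul_eq_mul, mul_one] at h4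
  exact hm h4

variable {F : Type} [Field F] [Algebra C F] {T : F} [FiniteDimensional C⟮T⟯ F]

theorem nv_one (w : NV C F) : w 1 = 1 := map_one w.av

theorem eq_one_of_sub {w : NV C F} {x : F} (h : w (x - 1) < 1) : w x ≤ 1 ∧ w.red x = 1 := by
  have h1 : w x ≤ 1 :=
    le_one_of_sub (nv_one w).le (by rw [← NV.map_neg', neg_sub]; exact h)
  exact ⟨h1, by rw [(red_eq_iff h1 (nv_one w).le).2 h, NV.red_one]⟩

/-- one normalisation for all components -/
theorem exists_norm {m : ℕ} (hm : m ≠ 0) {f : F} (h : ∀ w : WW C T, Triv m w.1 f)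
    (hne : Nonempty (WW C T)) : ∃ z : F, z ≠ 0 ∧ ∀ w : WW C T, w.1 (f * z ^ m - 1) < 1 := by
  classical
  choose z hz using h
  have hz0 : ∀ w, z w ≠ 0 := fun w h0 => by
    have := (eq_one_of_sub (hz w)).2
    rw [h0, zero_pow hm, mul_zero, NV.red_zero] at this
    exact zero_ne_one this
  obtain ⟨w₀, hw₀⟩ := Finite.exists_min fun w : WW C T => w.1 (z w)
  have hε : 0 < w₀.1 (z w₀) := w₀.1.av.pos (hz0 w₀)
  choose y hy using fun i => P025H458.exists_approx (C := C) (fun w : WW C T => w.1.av)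
    (fun w => w.1.na) (fun w => w.1.ext') (fun w w' e => Subtype.ext (NV.ext e)) i (z i) hε
  have key : ∀ w : WW C T, w.1 ((∑ i, y i) / z w - 1) < 1 := fun w => by
    have h1 : w.1 (∑ i, y i - z w) < w₀.1 (z w₀) := by
      rw [← Finset.add_sum_erase _ _ (Finset.mem_univ w), add_sub_right_comm]
      exact NV.add_lt (hy w).1 (NV.sum_lt hε fun i hi =>
        (hy i).2 w (Finset.ne_of_mem_erase hi).symm)
    rw [div_sub_one (hz0 w)]
    change w.1.av _ < 1
    rw [map_div₀, div_lt_one (w.1.av.pos (hz0 w))]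
    exact h1.trans_le (hw₀ w)
  refine ⟨∑ i, y i, fun h0 => ?_, fun w => ?_⟩
  · have := (eq_one_of_sub (key w₀)).2
    rw [h0, zero_div, NV.red_zero] at this
    exact zero_ne_one this
  · obtain ⟨h1, h2⟩ := eq_one_of_sub (hz w)
    obtain ⟨h3, h4⟩ := eq_one_of_sub (key w)
    have e : f * (∑ i, y i) ^ m = f * z w ^ m * ((∑ i, y i) / z w) ^ m := by
      rw [div_pow, mul_assoc, mul_div_cancel₀ _ (pow_ne_zero m (hz0 w))]
    rw [e, ← red_eq_iff (NV.mul_le_one h1 (NV.pow_le_one' h3 m)) (nv_one _).le,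
      NV.red_mul h1 (NV.pow_le_one' h3 m), NV.red_pow h3, h2, h4, one_pow, mul_one, NV.red_one]

variable [CFF C F]

theorem all_fixed (hG : CONG) (hF : Full C T) {S : Finset (Br C T)} (hS : Nodal C T S)
    {g : F ≃+* F} {s : C ≃+* C} (h : Semi C g s) (hT : g T = T)
    (hb : ∀ b ∈ S, Tw (g : F →+* F) b b) (w : WW C T) (y : F) : w.1 (g y) = w.1 y := by
  rcases hG C F T hF S hS {w | ∀ y, w.1 (g y) = w.1 y} (fun _ _ b' hb' _ _ => (hb b' hb').1) with
    h1 | h1
  · have h2 : ∀ b, b ∉ S := fun b hbS => by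
      have : b.w ∈ {w : WW C T | ∀ y, w.1 (g y) = w.1 y} := (hb b hbS).1
      rw [h1] at this
      exact this
    rcases hG C F T hF S hS {w} (fun b hbS => absurd hbS (h2 b)) with h3 | h3
    · exact absurd h3 (Set.singleton_ne_empty w)
    · obtain ⟨w', hw'⟩ := h.exists_w hT w
      have : w' ∈ ({w} : Set (WW C T)) := h3 ▸ Set.mem_univ _
      rw [Set.mem_singleton_iff] at this
      rw [← hw' y, this]
  · have : w ∈ {w : WW C T | ∀ y, w.1 (g y) = w.1 y} := h1 ▸ Set.mem_univ _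
    exact this y

section core

variable {L : Type} [Field L] [Algebra C L] [Algebra F L] [IsScalarTower C F L]

theorem exists_mu {m : ℕ} (hm : m ≠ 0) (τ : L ≃ₐ[F] L) {y : L} {f : F} (hy0 : y ≠ 0)
    (hy : y ^ m = algebraMap F L f) : ∃ μ : C, μ ^ m = 1 ∧ τ y = algebraMap C L μ * y := by
  obtain ⟨μ, h1, h2⟩ := root_const (k := C) hm (u := τ y / y)
    (by rw [div_pow, ← map_pow, hy, τ.commutes, ← hy, div_self (pow_ne_zero m hy0)])
  exact ⟨μ, h2, by rw [h1, div_mul_cancel₀ _ hy0]⟩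

theorem aut_const (τ : L ≃ₐ[F] L) (c : C) : τ (algebraMap C L c) = algebraMap C L c := by
  rw [IsScalarTower.algebraMap_apply C F L, τ.commutes]

theorem eq_one_of_gen {Y : Set L} (hY : IntermediateField.adjoin F Y = ⊤) {τ : L ≃ₐ[F] L}
    (h : ∀ y ∈ Y, τ y = y) : τ = 1 := by
  ext x
  have hx : x ∈ IntermediateField.adjoin F Y := hY ▸ IntermediateField.mem_top
  change τ x = x
  induction hx using IntermediateField.adjoin_induction with
  | mem y hy => exact h y hy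
  | algebraMap a => exact τ.commutes a
  | add a b _ _ ha hb => rw [map_add, ha, hb]
  | inv a _ ha => rw [map_inv₀, ha]
  | mul a b _ _ ha hb => rw [map_mul, ha, hb]

theorem free {m : ℕ} (hm : (m : kC C) ≠ 0) {Y : Set L} (hY : IntermediateField.adjoin F Y = ⊤)
    (hy : ∀ y ∈ Y, ∃ f : F, y ^ m = algebraMap F L f ∧ ∀ w : WW C T, w.1 (f - 1) < 1)
    (τ : L ≃ₐ[F] L) (v : WW C (algebraMap F L T)) (hv : ∀ y, v.1 (τ y) = v.1 y) : τ = 1 := by
  have hm0 := ne_zero_of_cast hm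
  refine eq_one_of_gen hY fun y hyY => ?_
  obtain ⟨f, hf, hf1⟩ := hy y hyY
  have h1 : v.1 (y ^ m - 1) < 1 := by
    rw [hf, ← map_one (algebraMap F L), ← map_sub]
    exact hf1 ⟨v.1.comap F, v.2.comap⟩
  obtain ⟨h2, h3⟩ := eq_one_of_sub h1
  have h4 : v.1 y ≤ 1 := by
    have : v.1.av y ^ m ≤ 1 := by rw [← map_pow]; exact h2
    exact (pow_le_one_iff_of_nonneg (v.1.av.nonneg _) hm0).1 this
  rw [NV.red_pow h4] at h3
  have h5 : v.1.red y ≠ 0 := fun h0 => by rw [h0, zero_pow hm0] at h3; exact zero_ne_one h3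
  have hy0 : y ≠ 0 := by rintro rfl; exact h5 NV.red_zero
  obtain ⟨μ, hμ, hτ⟩ := exists_mu (C := C) hm0 τ hy0 hf
  obtain ⟨a, ha, -⟩ := root_const (k := kC C) hm0 h3
  obtain ⟨c, hc, rfl⟩ := cred_surj a
  have h6 := rm_const (w := v.1) (w' := v.1) (τ : L →+* L) hv (s := RingEquiv.refl C)
    (aut_const τ) (fun _ => rfl) hc
  have hn := (norm_root hm0 hμ).le
  rw [RingEquiv.refl_apply, ha] at h6
  replace h6 : v.1.red (τ y) = v.1.red y :=
    (rm_red (w := v.1) (w' := v.1) (τ : L →+* L) hv y).symm.trans h6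
  rw [hτ, NV.red_mul (by rw [v.1.ext']; exact hn) h4, NV.red_algebraMap hn] at h6
  have h7 : cred μ = 1 := (algebraMap (kC C) (kap v.1)).injective (by
    rw [map_one]; exact mul_right_cancel₀ h5 (by rw [h6, one_mul]))
  rw [hτ, root_eq_one hm hμ h7, map_one, one_mul]

theorem deg_ne [FiniteDimensional F L] [IsGalois F L] {m : ℕ} (hm : (m : kC C) ≠ 0) {Y : Set L}
    (hY : IntermediateField.adjoin F Y = ⊤) (hy : ∀ y ∈ Y, ∃ f : F, y ^ m = algebraMap F L f) :
    ((finrank F L : ℕ) : kC C) ≠ 0 := by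
  intro h0
  have hm0 := ne_zero_of_cast hm
  rw [CharP.cast_eq_zero_iff (kC C) (ringChar (kC C))] at h0
  rcases CharP.char_is_prime_or_zero (kC C) (ringChar (kC C)) with hp | hp
  · haveI := Fact.mk hp
    rw [← IsGalois.card_aut_eq_finrank] at h0
    obtain ⟨τ, hτ⟩ := exists_prime_orderOf_dvd_card' _ h0
    have h1 : τ ^ m = 1 := eq_one_of_gen hY fun y hyY => by
      by_cases hy0 : y = 0
      · rw [hy0, map_zero]
      obtain ⟨f, hf⟩ := hy y hyY
      obtain ⟨μ, hμ, h2⟩ := exists_mu (C := C) hm0 τ hy0 hf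
      have h3 : ∀ n : ℕ, (τ ^ n) y = algebraMap C L (μ ^ n) * y := fun n => by
        induction n with
        | zero => simp
        | succ n ih =>
          rw [pow_succ', AlgEquiv.mul_apply, ih, map_mul, aut_const, h2, pow_succ, map_mul,
            mul_assoc]
      rw [h3, hμ, map_one, one_mul]
    exact hm ((CharP.cast_eq_zero_iff (kC C) (ringChar (kC C)) m).2
      (hτ ▸ orderOf_dvd_of_pow_eq_one h1))
  · rw [hp, zero_dvd_iff] at h0
    exact Module.finrank_pos.ne' h0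

theorem core [CharZero C] [CFF C L] [FiniteDimensional F L] (hC : COV) (hA : ACL) (hG : CONG)
    (hF : Full C T) {S : Finset (Br C T)} (hS : Nodal C T S) {m c : ℕ} {g : F ≃+* F} {s : C ≃+* C}
    (hm : (m : kC C) ≠ 0) (h : Semi C g s) (hT : g T = T) (hb : ∀ b ∈ S, Tw (g : F →+* F) b b)
    (hs : ∀ μ : C, μ ^ m = 1 → s μ = μ ^ c) {Y : Set L} (hY : IntermediateField.adjoin F Y = ⊤)
    (hy : ∀ y ∈ Y, ∃ f : F, y ^ m = algebraMap F L f ∧ (∀ P : Plk C F, (m : ℤ) ∣ ord P f) ∧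
      ∀ w : WW C T, w.1 (f - 1) < 1)
    (G : L ≃+* L) (hGg : ∀ x, G (algebraMap F L x) = algebraMap F L (g x)) {y : L} {f : F}
    (hy0 : y ≠ 0) (hyf : y ^ m = algebraMap F L f) : ∃ z : F, z ≠ 0 ∧ g f = f ^ c * z ^ m := by
  have hm0 := ne_zero_of_cast hm
  haveI : IsGalois F L := isGalois_radicals (k := C) hY fun y hyY => by
    obtain ⟨f, h1, -⟩ := hy y hyY
    exact ⟨m, f, cast_ne_zero hm, h1⟩
  haveI : FiniteDimensional C⟮algebraMap F L T⟯ L := finite_adjoin_map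
  have hfree := free (T := T) hm hY fun y hyY => by
    obtain ⟨f, h1, -, h2⟩ := hy y hyY
    exact ⟨f, h1, h2⟩
  obtain ⟨hFL, hres, S', hS', hS''⟩ := hC C F L T hF S hS
    (isUnr_radicals hY fun y hyY => by
      obtain ⟨f, h1, h2, -⟩ := hy y hyY
      exact ⟨m, f, cast_ne_zero hm, h1, h2⟩)
    (deg_ne hm hY fun y hyY => by
      obtain ⟨f, h1, -⟩ := hy y hyY
      exact ⟨f, h1⟩)
    (fun v => ⟨1, fun τ => by
      rw [Subgroup.zpowers_one_eq_bot, Subgroup.mem_bot]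
      exact ⟨hfree τ v, by rintro rfl y; rfl⟩⟩)
  have hsu : ∀ (v : WW C (algebraMap F L T)) (y : L), v.1 y ≤ 1 →
      ∃ y₀ : F, v.1 (y - algebraMap F L y₀) < 1 := fun v y hv => hres v y hv fun τ hτ => by
    rw [hfree τ v hτ]; simp
  have semi : ∀ G : L ≃+* L, (∀ x, G (algebraMap F L x) = algebraMap F L (g x)) → Semi C G s :=
    fun G hG => ⟨fun a => by
      rw [IsScalarTower.algebraMap_apply C F L, hG, h.1, ← IsScalarTower.algebraMap_apply], h.2⟩
  obtain ⟨v₀⟩ := hFL.nonempty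
  obtain ⟨v₁, hv₁⟩ := (semi G hGg).exists_w (by rw [hGg, hT]) v₀
  obtain ⟨τ₀, hτ₀⟩ := P025H992.exists_cj (K := F) v₀.1 v₁.1 (P025H992.nv_ext fun x => by
    obtain ⟨x, rfl⟩ := g.surjective x
    rw [P025H992.resK_apply, P025H992.resK_apply, ← hGg x, hv₁, hGg]
    exact all_fixed hG hF hS h hT hb ⟨v₀.1.comap F, v₀.2.comap⟩ x)
  let G' : L ≃+* L := G.trans (τ₀ : L ≃+* L)
  have hG' : ∀ x, G' (algebraMap F L x) = algebraMap F L (g x) := fun x => by
    change τ₀ (G _) = _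
    rw [hGg, τ₀.commutes]
  have hT' : G' (algebraMap F L T) = algebraMap F L T := by rw [hG', hT]
  have hv₀ : ∀ y, v₀.1 (G' y) = v₀.1 y := fun y => by
    rw [← hv₁ y, hτ₀]; rfl
  have hov : ∀ {b₀ : Br C T} {b b₁ : Br C (algebraMap F L T)}, b₀ ∈ S →
      Tw (algebraMap F L) b₀ b → Tw (G' : L →+* L) b b₁ → Tw (algebraMap F L) b₀ b₁ :=
    fun hb₀ h1 h2 => (((hb _ hb₀).symm.comp h1).comp h2).congr fun x => by
      change _ = G' (algebraMap F L (g.symm x))
      rw [hG', g.apply_symm_apply]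
  have hall : ∀ (v : WW C (algebraMap F L T)) y, v.1 (G' y) = v.1 y := by
    rcases hG C L _ hFL S' hS' {v | ∀ y, v.1 (G' y) = v.1 y} (fun b hbS b' hbS' hgl hw => by
      by_cases e : b' = b
      · rw [e]; exact hw
      obtain ⟨b₀, hb₀, h1⟩ := (hS'' b).1 hbS
      obtain ⟨b₀', hb₀', h1'⟩ := (hS'' b').1 hbS'
      obtain ⟨b₁, h2⟩ := (semi G' hG').exists_tw hT' b
      obtain ⟨b₂, h2'⟩ := (semi G' hG').exists_tw hT' b'
      have e1 : b = b₁ := h1.inj_right (hov hb₀ h1 h2)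
        (Subtype.ext (P025H992.nv_ext fun y => by
          obtain ⟨y, rfl⟩ := G'.surjective y
          exact (hw y).trans (h2.1 y).symm)) (hsu _)
      subst e1
      have e2 : b' = b₂ := (hA C L _ hFL S' hS').1 b hbS b' hbS' b₂
        ((hS'' b₂).2 ⟨b₀', hb₀', hov hb₀' h1' h2'⟩) e
        (by rintro rfl; exact e (h2'.inj_left h2)) hgl ((semi G' hG').glue hT' h2 h2' hgl)
      subst e2
      exact h2'.1) with h1 | h1
    · have : v₀ ∈ {v : WW C (algebraMap F L T) | ∀ y, v.1 (G' y) = v.1 y} := hv₀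
      rw [h1] at this
      exact this.elim
    · intro v
      have : v ∈ {v : WW C (algebraMap F L T) | ∀ y, v.1 (G' y) = v.1 y} := h1 ▸ Set.mem_univ _
      exact this
  have hcomm : ∀ (τ : L ≃ₐ[F] L) y, τ (G' y) = G' (τ y) := fun τ y => by
    let ρ : L ≃ₐ[F] L := AlgEquiv.ofRingEquiv
      (f := ((G'.symm.trans (τ : L ≃+* L)).trans G').trans (τ.symm : L ≃+* L)) fun x => by
        obtain ⟨x, rfl⟩ := g.surjective x
        change τ.symm (G' (τ (G'.symm _))) = _
        rw [← hG' x, G'.symm_apply_apply, τ.commutes, hG', τ.symm.commutes]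
    have h1 : ρ = 1 := hfree ρ v₀ fun y => by
      obtain ⟨v₂, hv₂⟩ := (Semi.of_alg (τ.restrictScalars C)).exists_w
        (T := algebraMap F L T) (τ.commutes T) v₀
      have h2 : ∀ y, v₂.1 (τ y) = v₀.1 y := hv₂
      change v₀.1 (τ.symm (G' (τ (G'.symm y)))) = _
      rw [← h2, τ.apply_symm_apply, hall, h2, ← hv₀, G'.apply_symm_apply]
    have h2 : τ.symm (G' (τ (G'.symm (G' y)))) = G' y := AlgEquiv.congr_fun h1 (G' y)
    rw [G'.symm_apply_apply] at h2
    rw [← h2, τ.apply_symm_apply]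
  obtain ⟨z, hz⟩ := (IsGalois.mem_range_algebraMap_iff_fixed (F := F) (G' y / y ^ c)).2 fun τ => by
    obtain ⟨μ, hμ, h1⟩ := exists_mu (C := C) hm0 τ hy0 hyf
    have h2 : algebraMap C L μ ≠ 0 := by
      rw [Ne, map_eq_zero]; rintro rfl; rw [zero_pow hm0] at hμ; exact zero_ne_one hμ
    rw [map_div₀, map_pow, hcomm, h1, map_mul, (semi G' hG').1, hs μ hμ, map_pow, mul_pow,
      mul_div_mul_left _ _ (pow_ne_zero c h2)]
  have h3 : G' y ≠ 0 := (map_ne_zero G').2 hy0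
  refine ⟨z, fun h0 => ?_, (algebraMap F L).injective ?_⟩
  · rw [h0, map_zero] at hz
    exact div_ne_zero h3 (pow_ne_zero c hy0) hz.symm
  · rw [← hG', ← hyf, map_mul, map_pow, map_pow, map_pow, hz, ← hyf, div_pow, ← pow_mul, ← pow_mul,
      mul_comm m c, mul_div_cancel₀ _ (pow_ne_zero _ hy0)]

end core

theorem map_mem {Ω : Type} [Field Ω] [Algebra F Ω] {Y : Set Ω} (H : Ω ≃+* Ω) (h : F ≃+* F)
    (hH : ∀ x, H (algebraMap F Ω x) = algebraMap F Ω (h x)) (hY : ∀ y ∈ Y, H y ∈ Y) {x : Ω}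
    (hx : x ∈ IntermediateField.adjoin F Y) : H x ∈ IntermediateField.adjoin F Y := by
  induction hx using IntermediateField.adjoin_induction with
  | mem y hy => exact subset_adjoin _ _ (hY y hy)
  | algebraMap a => rw [hH]; exact IntermediateField.algebraMap_mem _ _
  | add a b _ _ ha hb => rw [map_add]; exact add_mem ha hb
  | inv a _ ha => rw [map_inv₀]; exact inv_mem ha
  | mul a b _ _ ha hb => rw [map_mul]; exact mul_mem ha hb

/-- the roots of all Kummer functions generate a finite extension -/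
theorem fin_roots {Ω : Type} [Field Ω] [Algebra F Ω] [Algebra C Ω] [IsScalarTower C F Ω] {m : ℕ}
    (hm : (m : C) ≠ 0) {Y : Set Ω}
    (hY : ∀ y ∈ Y, ∃ f : F, f ≠ 0 ∧ y ^ m = algebraMap F Ω f ∧ ∀ P : Plk C F, (m : ℤ) ∣ ord P f) :
    FiniteDimensional F (IntermediateField.adjoin F Y) := by
  classical
  have hm0 : m ≠ 0 := by rintro rfl; exact hm Nat.cast_zero
  haveI : Finite (P025H816.HK C F m) := Nat.finite_of_card_ne_zero (by
    rw [P025H816.card_HK hm]; exact pow_ne_zero _ hm0)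
  choose! f hf0 hf hd using hY
  let cl : Y → P025H816.HK C F m := fun y =>
    QuotientGroup.mk ⟨Units.mk0 (f y) (hf0 y y.2), P025H816.mem_divU.2 (hd y y.2)⟩
  let Y₀ : Set Ω := Set.range fun κ : Set.range cl => (κ.2.choose : Ω)
  haveI : Finite Y₀ := Set.finite_range _
  have hY₀ : Y₀ ⊆ Y := by rintro _ ⟨κ, rfl⟩; exact κ.2.choose.2
  haveI := finiteDimensional_adjoin (K := F) (S := Y₀) fun y hy =>
    IsIntegral.of_pow (Nat.pos_of_ne_zero hm0) (hf y (hY₀ hy) ▸ isIntegral_algebraMap)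
  have hle : IntermediateField.adjoin F Y ≤ IntermediateField.adjoin F Y₀ := by
    rw [adjoin_le_iff]
    intro y hy
    let κ : Set.range cl := ⟨cl ⟨y, hy⟩, _, rfl⟩
    have h1 : cl κ.2.choose = cl ⟨y, hy⟩ := κ.2.choose_spec
    obtain ⟨y₀, hy₀⟩ : ∃ y₀ : Y, y₀ = κ.2.choose := ⟨_, rfl⟩
    have h0 : (y₀ : Ω) ∈ Y₀ := ⟨κ, by rw [hy₀]⟩
    rw [← hy₀, QuotientGroup.eq, Subgroup.mem_subgroupOf, P025H816.mem_powU'] at h1
    obtain ⟨z, hz⟩ := h1
    have hz' : z ^ m = (f y₀)⁻¹ * f y := by simpa using hz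
    have h2 : (y₀ : Ω) * algebraMap F Ω z ≠ 0 := fun h0 => by
      have h3 := congrArg (· ^ m) h0
      simp only [mul_pow, zero_pow hm0] at h3
      rw [hf _ y₀.2, ← map_pow, ← map_mul, hz', mul_inv_cancel_left₀ (hf0 _ y₀.2),
        map_eq_zero] at h3
      exact hf0 y hy h3
    obtain ⟨μ, hμ, -⟩ := root_const (k := C) hm0 (u := y / ((y₀ : Ω) * algebraMap F Ω z)) (by
      rw [div_pow, mul_pow, hf _ y₀.2, ← map_pow, ← map_mul, hz',
        mul_inv_cancel_left₀ (hf0 _ y₀.2), hf y hy, div_self ((map_ne_zero _).2 (hf0 y hy))])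
    have h3 : y = algebraMap F Ω (algebraMap C F μ) * ((y₀ : Ω) * algebraMap F Ω z) := by
      rw [← IsScalarTower.algebraMap_apply, hμ, div_mul_cancel₀ _ h2]
    rw [SetLike.mem_coe, h3]
    exact mul_mem (IntermediateField.algebraMap_mem _ _)
      (mul_mem (subset_adjoin _ _ h0) (IntermediateField.algebraMap_mem _ _))
  exact FiniteDimensional.of_injective (IntermediateField.inclusion hle).toLinearMap
    (IntermediateField.inclusion hle).injective

end Node

open Node in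
theorem node (hC : COV) (hA : ACL) (hG : CONG) : NODE := by
  intro C F _ _ _ _ _ _ _ T _ hF S hS m c g s hm h hT hb hs f hf htr
  have hm0 := ne_zero_of_cast hm
  have hfix := all_fixed hG hF hS h hT hb
  let Ω := AlgebraicClosure F
  let Y : Set Ω := {y | ∃ f : F, y ^ m = algebraMap F Ω f ∧ (∀ P : Plk C F, (m : ℤ) ∣ ord P f) ∧
    ∀ w : WW C T, w.1 (f - 1) < 1}
  have hne : ∀ f : F, (∀ w : WW C T, w.1 (f - 1) < 1) → f ≠ 0 := fun f h1 h0 => by
    have := (eq_one_of_sub (h1 hF.nonempty.some)).2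
    rw [h0, NV.red_zero] at this
    exact zero_ne_one this
  let L := IntermediateField.adjoin F Y
  haveI : FiniteDimensional F L := fin_roots (C := C) (cast_ne_zero hm) fun y ⟨f, h1, h2, h3⟩ =>
    ⟨f, hne f h3, h1, h2⟩
  haveI : CFF C L := cff_of_finite (K := F)
  let H : Ω ≃+* Ω := IsAlgClosure.equivOfEquiv Ω Ω g
  have hH : ∀ x, H (algebraMap F Ω x) = algebraMap F Ω (g x) :=
    IsAlgClosure.equivOfEquiv_algebraMap Ω Ω g
  have hH' : ∀ x, H.symm (algebraMap F Ω x) = algebraMap F Ω (g.symm x) :=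
    IsAlgClosure.equivOfEquiv_symm_algebraMap Ω Ω g
  have hY : ∀ y ∈ Y, H y ∈ Y := fun y ⟨f, h1, h2, h3⟩ =>
    ⟨g f, by rw [← map_pow, h1, hH], h.dvd_ord h2, fun w => by
      rw [← map_one g, ← map_sub, hfix]; exact h3 w⟩
  have hY' : ∀ y ∈ Y, H.symm y ∈ Y := fun y ⟨f, h1, h2, h3⟩ =>
    ⟨g.symm f, by rw [← map_pow, h1, hH'], h.symm.dvd_ord h2, fun w => by
      rw [← hfix, map_sub, map_one, g.apply_symm_apply]; exact h3 w⟩
  let G : L ≃+* L :=
    { toFun := fun x => ⟨H x, map_mem H g hH hY x.2⟩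
      invFun := fun x => ⟨H.symm x, map_mem H.symm g.symm hH' hY' x.2⟩
      left_inv := fun x => Subtype.ext (H.symm_apply_apply x)
      right_inv := fun x => Subtype.ext (H.apply_symm_apply x)
      map_mul' := fun x y => Subtype.ext (map_mul H x.1 y.1)
      map_add' := fun x y => Subtype.ext (map_add H x.1 y.1) }
  obtain ⟨z₀, hz₀, h1⟩ := exists_norm hm0 htr hF.nonempty
  have hf1 := hne _ h1
  have hf0 : f ≠ 0 := left_ne_zero_of_mul hf1
  obtain ⟨y, hy⟩ := IsAlgClosed.exists_pow_nat_eq (algebraMap F Ω (f * z₀ ^ m))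
    (Nat.pos_of_ne_zero hm0)
  have hyY : y ∈ Y := ⟨_, hy, fun P => by
    rw [ord_mul P hf0 (pow_ne_zero m hz₀), ord_pow]
    exact dvd_add (hf P) (dvd_mul_right _ _), h1⟩
  obtain ⟨z, hz, h2⟩ := core (L := L) hC hA hG hF hS hm h hT hb hs
    (Y := {x : L | (x : Ω) ∈ Y}) (lift_injective L (by
      rw [lift_adjoin, lift_top]
      congr 1
      ext x
      exact ⟨by rintro ⟨x, hx, rfl⟩; exact hx, fun hx => ⟨⟨x, subset_adjoin _ _ hx⟩, hx, rfl⟩⟩))
    (fun x ⟨f, h1, h2, h3⟩ => ⟨f, Subtype.ext h1, h2, h3⟩) G (fun x => Subtype.ext (hH x))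
    (y := ⟨y, subset_adjoin _ _ hyY⟩) (f := f * z₀ ^ m) (fun h0 => by
      have h3 : y = 0 := congrArg Subtype.val h0
      rw [h3, zero_pow hm0, eq_comm, map_eq_zero] at hy
      exact hf1 hy) (Subtype.ext hy)
  have h3 : g z₀ ≠ 0 := (map_ne_zero g).2 hz₀
  refine ⟨z₀ ^ c * z / g z₀, div_ne_zero (mul_ne_zero (pow_ne_zero c hz₀) hz) h3, ?_⟩
  rw [map_mul, map_pow] at h2
  rw [div_pow, ← mul_div_assoc, eq_div_iff (pow_ne_zero m h3), h2]
  ring

end Vale.Agent.P027M.I
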