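import Vale.Agent.P027M.I.Spec

/-!
# P027 route M, block I: a subfield with good reduction separates branches (row PTS)
-/

set_option linter.unusedSectionVars false

noncomputable section

open IntermediateField Vale.Agent.P019P P025H746 P025H492 Module

namespace Vale.Agent.P027M.I

namespace Pts

theorem vl_down {k K L : Type*} [Field k] [Field K] [Field L] [Algebra k K] [Algebra k L]
    [Algebra K L] [IsScalarTower k K L] [Algebra.IsAlgebraic K L] [CFF k K] [CFF k L]
    (P : Plk k L) {z : K} (h : z ∈ (down K P).1) :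
    vl P (algebraMap K L z) = vl (down K P) z := by
  refine vl_eq ?_
  rw [IsScalarTower.algebraMap_apply k K L, ← map_sub]
  rcases mem_Mge.1 (sub_vl_mem (ord_nonneg_of_mem _ h)) with e | e
  · rw [e, map_zero]; exact zero_mem _
  · exact mem_Mge_one_of_pos ((ord_up_pos_iff P _).2 (by omega))

theorem mem_of_LL {k K : Type*} [Field k] [Field K] [Algebra k K] [CFF k K] {T f : K} {n : ℕ}
    (h : f ∈ LL k (n • pol k T)) (P : Plk k K) (hP : T ∈ P.1) : f ∈ P.1 := by
  rw [mem_iff_ord]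
  refine (mem_LL.1 h).imp_right fun e => ?_
  have := e P
  have h1 := ord_nonneg_of_mem P hP
  rw [Finsupp.smul_apply, pol_apply, max_eq_left (by omega)] at this
  simpa using this

end Pts

open Pts in
theorem pts (hS : SURJ) (hO : ONTO) : PTS := by
  intro C K' K _ _ _ _ _ _ _ _ _ T' T _ _ φ h1 h2 h3 h4
  let _ : Algebra K' K := φ.toRingHom.toAlgebra
  have : IsScalarTower C K' K := IsScalarTower.of_algebraMap_eq fun c => (φ.commutes c).symm
  have e0 : ∀ y, algebraMap K' K y = φ y := fun _ => rfl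
  have p1 : ∀ f, BB C T' f → BB C T (φ f) := by
    intro f hf
    refine ⟨fun w => hf.1 ⟨w.1.comap K', NV.OverG.comap (h3 w)⟩, fun P hP => ?_⟩
    by_cases c : P.1.comap φ.toRingHom = ⊤
    · have : f ∈ P.1.comap φ.toRingHom := c ▸ ValuationSubring.mem_top f
      exact this
    · exact hf.2 ⟨P.1.comap φ.toRingHom, fun a => by
        change φ (algebraMap C K' a) ∈ P.1
        rw [φ.commutes]
        exact P.2.1 a, c⟩ (h4 P hP)
  refine ⟨p1, ?_⟩
  rintro ⟨w, x, hx⟩ ⟨w', x', hx'⟩ e hsur hev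
  change w = w' at e
  subst e
  by_contra hne
  have hxx : x ≠ x' := fun c => hne (by subst c; rfl)
  obtain ⟨u, hu⟩ : ∃ u : WW C T', NVExt u.1 w.1 :=
    ⟨⟨w.1.comap K', NV.OverG.comap (h3 w)⟩, ⟨fun _ => rfl⟩⟩
  have sur : Function.Surjective (algebraMap (kap u.1) (kap w.1)) := by
    intro z
    obtain ⟨y, hy, rfl⟩ := NV.red_surj z
    obtain ⟨y', hy'⟩ := hsur y hy
    have a1 : w.1 (φ y') ≤ 1 := by
      have := NV.sub_le hy hy'.le
      rwa [sub_sub_cancel] at this
    refine ⟨u.1.red y', ?_⟩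
    rw [← red_algebraMap' (by rw [← hu.out]; exact a1), e0, eq_comm, ← sub_eq_zero,
      ← NV.red_sub hy a1]
    exact NV.red_of_lt hy'
  have : Algebra.IsAlgebraic (kap u.1) (kap w.1) :=
    ⟨fun z => by obtain ⟨a, rfl⟩ := sur z; exact isAlgebraic_algebraMap a⟩
  have bT : BB C T' T' := ⟨fun v => v.2.apply_T.le, fun _ h => h⟩
  have key : ∀ (z : Plk (kC C) (kap w.1)), w.1.red T ∈ z.1 → ∀ f, BB C T' f →
      u.1.red f ∈ (down (kap u.1) z).1 := by
    intro z hz f hf
    rw [mem_down, ← red_algebraMap' (hf.1 u)]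
    exact P025H458.red_mem w.2.transc (p1 f hf).2 (fun v hv => (p1 f hf).1 ⟨v, hv⟩) w.2 z hz
  let a : Br C T' := ⟨u, down (kap u.1) x, key x hx T' bT⟩
  let a' : Br C T' := ⟨u, down (kap u.1) x', key x' hx' T' bT⟩
  have ne : a' ≠ a := by
    intro c
    have c2 : down (kap u.1) x' = down (kap u.1) x := by
      simpa [a, a'] using c
    refine hxx (Plk.eq_of_le fun z hz => ?_)
    obtain ⟨z, rfl⟩ := sur z
    rw [← mem_down, c2]
    exact hz
  classical
  obtain ⟨n₀, hn₀⟩ := hO C K' T' {a, a'}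
  obtain ⟨-, n₁, hn₁⟩ := (hS C K' T' h1).2 h2.le
  obtain ⟨y, hy, hv⟩ := hn₀ (max n₀ n₁) (le_max_left _ _) fun c => if c = a then 0 else 1
  obtain ⟨f, hf, hf1, rfl⟩ := hn₁ _ (le_max_right _ _) hy
  have bf : BB C T' f := ⟨hf1, mem_of_LL hf⟩
  have ev : ∀ (z : Plk (kC C) (kap w.1)), w.1.red T ∈ z.1 →
      vl z (w.1.red (φ f)) = vl (down (kap u.1) z) (u.1.red f) := fun z hz => by
    rw [← e0, red_algebraMap' (hf1 u), vl_down z (key z hz f bf)]
  have v1 := hv a (by simp)
  have v2 := hv a' (by simp)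
  rw [if_pos rfl] at v1
  rw [if_neg ne] at v2
  have v3 := (hev f bf).1 ((ev x hx).trans v1)
  exact one_ne_zero (v2.symm.trans ((ev x' hx').symm.trans v3))

end Vale.Agent.P027M.I
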