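import Vale.Agent.P027M.I.Spec

/-!
# P027 route M, block I: the Hurwitz inequality for cyclic covers (row I.RHC)
-/

set_option linter.all false

noncomputable section

open IntermediateField Vale.Agent.P019P P025H746 P025H492 Module

namespace Vale.Agent.P027M.I

namespace RhcP

theorem pair (r : ℤ) (hr : 0 < r) (j v : ℤ) :
    j * v / r + (r - j) * v / r = v - if r ∣ j * v then 0 else 1 := by
  have e : (r - j) * v = -(j * v) + r * v := by ring
  rw [e, Int.add_mul_ediv_left _ _ hr.ne', Int.neg_ediv]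
  split_ifs with h
  · ring
  · rw [Int.sign_eq_one_of_pos hr]; ring

theorem floor_sum (r : ℕ) (hr : 0 < r) (v : ℤ) :
    2 * ∑ j ∈ Finset.range r, (j : ℤ) * v / r = (r - 1) * v -
      (r - ((Finset.range r).filter fun j : ℕ => (r : ℤ) ∣ j * v).card) := by
  have r0 : (0 : ℤ) < r := by exact_mod_cast hr
  have h1 : ∑ j ∈ Finset.range r, ((r : ℤ) - j) * v / r =
      ∑ j ∈ Finset.range r, (j : ℤ) * v / r + v := by
    have h2 := Finset.sum_range_reflect (fun j : ℕ => ((j + 1 : ℕ) : ℤ) * v / r) r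
    have h3 := Finset.sum_range_succ' (fun j : ℕ => (j : ℤ) * v / r) r
    rw [Finset.sum_range_succ, Int.mul_ediv_cancel_left _ r0.ne'] at h3
    rw [h3, ← h2, Nat.cast_zero, zero_mul, Int.zero_ediv, add_zero]
    refine Finset.sum_congr rfl fun j hj => ?_
    have := Finset.mem_range.1 hj
    rw [show ((r - 1 - j + 1 : ℕ) : ℤ) = r - j by omega]
  have h4 : ∑ j ∈ Finset.range r, ((j : ℤ) * v / r + ((r : ℤ) - j) * v / r) =
      ∑ j ∈ Finset.range r, (v - 1 + if (r : ℤ) ∣ j * v then 1 else 0) :=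
    Finset.sum_congr rfl fun j _ => by
      rw [pair r r0]
      split_ifs <;> ring
  rw [Finset.sum_add_distrib, h1, Finset.sum_add_distrib, Finset.sum_const, Finset.card_range,
    Finset.sum_boole, nsmul_eq_mul] at h4
  linear_combination h4

variable {k F₀ F₁ : Type} [Field k] [Field F₀] [Field F₁] [Algebra k F₀] [Algebra k F₁]
  [Algebra F₀ F₁] [IsScalarTower k F₀ F₁] [CFF k F₀] [CFF k F₁] [FiniteDimensional F₀ F₁]
  [IsGalois F₀ F₁]

/-- a Kummer generator with its character -/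
structure Kum (a : F₁) (p : F₀) (c : (F₁ ≃ₐ[F₀] F₁) → k) : Prop where
  ne : a ≠ 0
  pw : a ^ finrank F₀ F₁ = algebraMap F₀ F₁ p
  eig : ∀ σ : F₁ ≃ₐ[F₀] F₁, σ a = algebraMap k F₁ (c σ) * a
  root : ∀ σ, c σ ^ finrank F₀ F₁ = 1
  fix : ∀ σ : F₁ ≃ₐ[F₀] F₁, σ a = a → σ = 1

theorem exists_kum [IsCyclic (F₁ ≃ₐ[F₀] F₁)] (hr : ((finrank F₀ F₁ : ℕ) : k) ≠ 0) :
    ∃ (a : F₁) (p : F₀) (c : (F₁ ≃ₐ[F₀] F₁) → k), Kum a p c := by
  haveI := CFF.ac (k := k) (F := F₀)
  haveI : NeZero ((finrank F₀ F₁ : ℕ) : k) := ⟨hr⟩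
  haveI : NeZero (finrank F₀ F₁) := NeZero.of_pos finrank_pos
  obtain ⟨ζ, hζ⟩ := HasEnoughRootsOfUnity.exists_primitiveRoot k (finrank F₀ F₁)
  obtain ⟨α, hα, ht⟩ := exists_root_adjoin_eq_top_of_isCyclic F₀ F₁
    ⟨algebraMap k F₀ ζ, (mem_primitiveRoots finrank_pos).2
      (hζ.map_of_injective (algebraMap k F₀).injective)⟩
  have fx : ∀ σ : F₁ ≃ₐ[F₀] F₁, σ α = α → σ = 1 := by
    intro σ h
    ext z
    have hz : z ∈ F₀⟮α⟯ := ht ▸ mem_top
    show σ z = z
    induction hz using adjoin_induction with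
    | mem x hx => rw [Set.mem_singleton_iff.1 hx, h]
    | algebraMap x => exact σ.commutes x
    | add x y _ _ hx hy => rw [map_add, hx, hy]
    | inv x _ hx => rw [map_inv₀, hx]
    | mul x y _ _ hx hy => rw [map_mul, hx, hy]
  obtain ⟨a, a0, ⟨p, hp⟩, fa⟩ : ∃ a : F₁, a ≠ 0 ∧
      a ^ finrank F₀ F₁ ∈ Set.range (algebraMap F₀ F₁) ∧
      ∀ σ : F₁ ≃ₐ[F₀] F₁, σ a = a → σ = 1 := by
    by_cases h : α = 0
    · exact ⟨1, one_ne_zero, ⟨1, by simp⟩, fun σ _ => fx σ (by rw [h, map_zero])⟩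
    · exact ⟨α, h, hα, fx⟩
  have ex : ∀ σ : F₁ ≃ₐ[F₀] F₁, ∃ c : k, σ a = algebraMap k F₁ c * a ∧ c ^ finrank F₀ F₁ = 1 := by
    intro σ
    have h1 : (σ a / a) ^ finrank F₀ F₁ = 1 := by
      rw [div_pow, ← map_pow, ← hp, σ.commutes, hp, div_self (pow_ne_zero _ a0)]
    obtain ⟨i, -, hi⟩ := (hζ.map_of_injective (algebraMap k F₁).injective).eq_pow_of_pow_eq_one h1
    refine ⟨ζ ^ i, by rw [map_pow, hi, div_mul_cancel₀ _ a0], ?_⟩
    rw [← pow_mul, mul_comm, pow_mul, hζ.pow_eq_one, one_pow]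
  choose c h1 h2 using ex
  exact ⟨a, p, c, a0, hp.symm, h1, h2, fa⟩

theorem aut_const (σ : F₁ ≃ₐ[F₀] F₁) (c : k) : σ (algebraMap k F₁ c) = algebraMap k F₁ c := by
  rw [IsScalarTower.algebraMap_apply k F₀ F₁, σ.commutes]

variable {a : F₁} {p : F₀} {c : (F₁ ≃ₐ[F₀] F₁) → k}

theorem Kum.p0 (h : Kum a p c) : p ≠ 0 := by
  rintro rfl
  exact pow_ne_zero _ h.ne (h.pw.trans (map_zero _))

theorem Kum.c0 (h : Kum a p c) (σ : F₁ ≃ₐ[F₀] F₁) : c σ ≠ 0 := by
  intro h0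
  have := h.root σ
  rw [h0, zero_pow (finrank_pos (R := F₀) (M := F₁)).ne'] at this
  exact zero_ne_one this

theorem Kum.iter (h : Kum a p c) (σ : F₁ ≃ₐ[F₀] F₁) (n : ℕ) :
    (σ ^ n) a = algebraMap k F₁ (c σ ^ n) * a := by
  induction n with
  | zero => simp
  | succ n ih =>
    rw [pow_succ', AlgEquiv.mul_apply, ih, map_mul, aut_const, h.eig σ, pow_succ, map_mul,
      mul_assoc]

/-- the number of exponents with trivial local monodromy is at most the size of the fibre -/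
theorem Kum.count [IsCyclic (F₁ ≃ₐ[F₀] F₁)] (h : Kum a p c)
    (hr : ((finrank F₀ F₁ : ℕ) : k) ≠ 0) (x : Plk k F₀) :
    ((Finset.range (finrank F₀ F₁)).filter fun j : ℕ =>
      ((finrank F₀ F₁ : ℕ) : ℤ) ∣ j * ord x p).card ≤ Set.ncard {y : Plk k F₁ | down F₀ y = x} := by
  classical
  obtain ⟨y, rfl⟩ := exists_over (L := F₁) x
  rw [Set.ncard_eq_toFinset_card _ (over_finite (L := F₁) (down F₀ y))]
  have h1 := sum_ram (L := F₁) (down F₀ y)
  rw [Finset.sum_congr rfl fun P hP => ram_eq_of_down_eq (mem_over.1 hP), Finset.sum_const,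
    smul_eq_mul] at h1
  obtain ⟨τ, hτ⟩ := IsCyclic.exists_generator (α := inertia F₀ y)
  have ho := orderOf_eq_card_of_forall_mem_zpowers hτ
  rw [card_inertia, ← Subgroup.orderOf_coe] at ho
  refine le_trans (Finset.card_le_card (t := (Finset.range
    (over_finite (L := F₁) (down F₀ y)).toFinset.card).image (· * ram F₀ y)) fun j hj => ?_)
    (Finset.card_image_le.trans (Finset.card_range _).le)
  obtain ⟨j1, j2⟩ := Finset.mem_filter.1 hj
  have f : (τ : F₁ ≃ₐ[F₀] F₁) (a ^ j) = a ^ j :=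
    inertia_root hr τ.2 (pow_ne_zero _ h.ne) (f := p ^ j)
      (by rw [← pow_mul, mul_comm, pow_mul, h.pw, map_pow]) (by rwa [ord_pow])
  rw [map_pow, h.eig, mul_pow, mul_eq_right₀ (pow_ne_zero _ h.ne), ← map_pow] at f
  have g := h.fix ((τ : F₁ ≃ₐ[F₀] F₁) ^ j) (by rw [h.iter, f, one_mul])
  obtain ⟨i, rfl⟩ := ho ▸ orderOf_dvd_of_pow_eq_one g
  refine Finset.mem_image.2 ⟨i, Finset.mem_range.2 ?_, mul_comm _ _⟩
  have := Finset.mem_range.1 j1
  rw [← h1, mul_comm] at this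
  exact lt_of_mul_lt_mul_right this (Nat.zero_le _)

theorem aut_mem (σ : F₁ ≃ₐ[F₀] F₁) {D : Plk k F₀ →₀ ℤ} {z : F₁} (hz : z ∈ LL k (pull F₁ D)) :
    σ z ∈ LL k (pull F₁ D) := by
  rcases mem_LL.1 hz with h | h
  · rw [h, map_zero]; exact zero_mem _
  · refine mem_LL.2 (Or.inr fun P => ?_)
    have := h (conj k σ⁻¹ P)
    rwa [pull_apply, ram_conj, down_conj, ← pull_apply, ← ord_aut] at this

theorem Kum.comp (h : Kum a p c) (z : F₁) (j : ℕ) :
    a ^ j * algebraMap F₀ F₁ (Algebra.trace F₀ F₁ (z / a ^ j)) =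
      ∑ σ : F₁ ≃ₐ[F₀] F₁, (c σ)⁻¹ ^ j • σ z := by
  rw [trace_eq_sum_automorphisms, Finset.mul_sum]
  refine Finset.sum_congr rfl fun σ _ => ?_
  have h1 : algebraMap k F₁ (c σ) ≠ 0 := (_root_.map_ne_zero _).2 (h.c0 σ)
  have h2 := h.ne
  rw [map_div₀, map_pow, h.eig, Algebra.smul_def, map_pow, map_inv₀, mul_pow, inv_pow]
  field_simp

theorem Kum.total (h : Kum a p c) (z : F₁) :
    ∑ j : Fin (finrank F₀ F₁), ∑ σ : F₁ ≃ₐ[F₀] F₁, (c σ)⁻¹ ^ (j : ℕ) • σ z =
      ((finrank F₀ F₁ : ℕ) : k) • z := by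
  classical
  have c1 : c 1 = 1 := by
    have := h.eig 1
    rw [AlgEquiv.one_apply, eq_comm, mul_eq_right₀ h.ne] at this
    exact (algebraMap k F₁).injective (this.trans (map_one _).symm)
  rw [Finset.sum_comm, Finset.sum_eq_single 1]
  · rw [← Finset.sum_smul, c1]
    simp
  · intro σ _ hσ
    have n1 : (c σ)⁻¹ ≠ 1 := fun e => hσ (h.fix σ (by rw [h.eig, inv_eq_one.1 e, map_one, one_mul]))
    rw [← Finset.sum_smul, Fin.sum_univ_eq_sum_range fun j => (c σ)⁻¹ ^ j, geom_sum_eq n1, inv_pow,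
      h.root, inv_one, sub_self, zero_div, zero_smul]
  · exact fun h => absurd (Finset.mem_univ _) h

/-- the correction divisors -/
def AA (k : Type) [Field k] {F₀ : Type} [Field F₀] [Algebra k F₀] [CFF k F₀] (p : F₀) (r j : ℕ) :
    Plk k F₀ →₀ ℤ :=
  (dv k p).mapRange (fun v => (j : ℤ) * v / r) (by simp)

theorem AA_apply (p : F₀) (r j : ℕ) (x : Plk k F₀) : AA k p r j x = (j : ℤ) * ord x p / r := by
  rw [AA, Finsupp.mapRange_apply, dv_apply]

theorem Kum.mem (h : Kum a p c) {D : Plk k F₀ →₀ ℤ} {j : ℕ} {u : F₀}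
    (hu : a ^ j * algebraMap F₀ F₁ u ∈ LL k (pull F₁ D)) :
    u ∈ LL k (D + AA k p (finrank F₀ F₁) j) := by
  by_cases u0 : u = 0
  · rw [u0]; exact zero_mem _
  have u1 : algebraMap F₀ F₁ u ≠ 0 := (_root_.map_ne_zero _).2 u0
  refine mem_LL.2 (Or.inr fun x => ?_)
  obtain ⟨y, rfl⟩ := exists_over (L := F₁) x
  have h1 := (mem_LL.1 hu).resolve_left (mul_ne_zero (pow_ne_zero _ h.ne) u1) y
  rw [ord_mul y (pow_ne_zero _ h.ne) u1, ord_pow, ord_algebraMap, pull_apply] at h1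
  have h2 := congrArg (ord y) h.pw
  rw [ord_pow, ord_algebraMap] at h2
  have r0 : (0 : ℤ) < (finrank F₀ F₁ : ℕ) := by exact_mod_cast finrank_pos (R := F₀) (M := F₁)
  have e0 : (0 : ℤ) < ram F₀ y := by exact_mod_cast ram_pos (K := F₀) y
  have h3 : -D (down F₀ y) - ord (down F₀ y) u ≤ (j : ℤ) * ord (down F₀ y) p / (finrank F₀ F₁ : ℕ) := by
    refine Int.le_ediv_of_mul_le r0 (le_of_mul_le_mul_left ?_ e0)
    have h4 := mul_le_mul_of_nonneg_left h1 r0.le
    linear_combination h4 + j * h2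
  rw [Finsupp.add_apply, AA_apply]
  linarith

theorem Kum.dim (h : Kum a p c) (hr : ((finrank F₀ F₁ : ℕ) : k) ≠ 0) (D : Plk k F₀ →₀ ℤ) :
    finrank k (LL k (pull F₁ D)) ≤
      ∑ j : Fin (finrank F₀ F₁), finrank k (LL k (D + AA k p (finrank F₀ F₁) j)) := by
  let Φ : (∀ j : Fin (finrank F₀ F₁), LL k (D + AA k p (finrank F₀ F₁) j)) →ₗ[k] F₁ :=
    { toFun := fun u => ∑ j : Fin (finrank F₀ F₁), a ^ (j : ℕ) * algebraMap F₀ F₁ (u j)
      map_add' := fun u v => by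
        simp only [Pi.add_apply, Submodule.coe_add, map_add, mul_add, Finset.sum_add_distrib]
      map_smul' := fun t u => by
        rw [RingHom.id_apply, Finset.smul_sum]
        refine Finset.sum_congr rfl fun j _ => ?_
        rw [Pi.smul_apply, Submodule.coe_smul, Algebra.smul_def, Algebra.smul_def, map_mul,
          ← IsScalarTower.algebraMap_apply]
        ring }
  have le : LL k (pull F₁ D) ≤ LinearMap.range Φ := by
    intro z hz
    have m : ∀ j : ℕ, Algebra.trace F₀ F₁ (z / a ^ j) ∈ LL k (D + AA k p (finrank F₀ F₁) j) :=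
      fun j => h.mem (by
        rw [h.comp]
        exact Submodule.sum_mem _ fun σ _ => Submodule.smul_mem _ _ (aut_mem σ hz))
    refine ⟨((finrank F₀ F₁ : ℕ) : k)⁻¹ • fun j => ⟨_, m j⟩, ?_⟩
    rw [map_smul]
    change _ • ∑ j : Fin (finrank F₀ F₁), a ^ (j : ℕ) *
      algebraMap F₀ F₁ (Algebra.trace F₀ F₁ (z / a ^ (j : ℕ))) = z
    rw [Finset.sum_congr rfl fun (j : Fin (finrank F₀ F₁)) _ => h.comp z j, h.total, smul_smul,
      inv_mul_cancel₀ hr, one_smul]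
  rw [← Module.finrank_pi_fintype]
  exact (Submodule.finrank_mono le).trans (LinearMap.finrank_range_le Φ)

end RhcP

open RhcP in
theorem rhc : RHC := by
  intro k F₀ F₁ _ _ _ _ _ _ _ _ _ _ _ S hc hr
  classical
  obtain ⟨a, p, c, h⟩ := exists_kum (F₀ := F₀) (F₁ := F₁) hr
  have cnt := h.count hr
  have dim := h.dim hr
  have dp := fun D : Plk k F₀ →₀ ℤ => dg_pull (L := F₁) D
  have r0 : 0 < finrank F₀ F₁ := finrank_pos
  generalize finrank F₀ F₁ = r at cnt dim dp r0 ⊢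
  obtain ⟨x₀⟩ := nonempty_Plk (k := k) (F := F₀)
  obtain ⟨N, hN⟩ : ∃ N : ℤ, N = ∑ j : Fin r, |dg (AA k p r j)| + |dg (can k F₀)| +
    |dg (can k F₁)| + 1 := ⟨_, rfl⟩
  have s0 : 0 ≤ ∑ j : Fin r, |dg (AA k p r j)| := Finset.sum_nonneg fun _ _ => abs_nonneg _
  have a0 := abs_nonneg (dg (can k F₀))
  have a1 := abs_nonneg (dg (can k F₁))
  have b0 := le_abs_self (dg (can k F₀))
  have b1 := le_abs_self (dg (can k F₁))
  have r1 : (1 : ℤ) ≤ r := by exact_mod_cast r0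
  have e1 := RR_large (D := pull F₁ (Finsupp.single x₀ N)) (by rw [dp, dg_sgl]; nlinarith)
  have e0 : ∀ j : Fin r, (finrank k (LL k (Finsupp.single x₀ N + AA k p r j)) : ℤ) =
      dg (AA k p r j) + (N + 1 - gen k F₀) := by
    intro j
    have h1 := Finset.single_le_sum (f := fun j : Fin r => |dg (AA k p r j)|)
      (fun _ _ => abs_nonneg _) (Finset.mem_univ j)
    have h2 := neg_abs_le (dg (AA k p r j))
    rw [RR_large (by rw [map_add, dg_sgl]; linarith), map_add, dg_sgl]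
    ring
  have d : (finrank k (LL k (pull F₁ (Finsupp.single x₀ N))) : ℤ) ≤
      ∑ j : Fin r, (finrank k (LL k (Finsupp.single x₀ N + AA k p r j)) : ℤ) := by
    exact_mod_cast dim (Finsupp.single x₀ N)
  rw [e1, dp, dg_sgl, Finset.sum_congr rfl fun j _ => e0 j, Finset.sum_add_distrib,
    Finset.sum_const, Finset.card_univ, Fintype.card_fin, nsmul_eq_mul] at d
  obtain ⟨Z, hZ⟩ : ∃ Z, Z = S ∪ (dv k p).support := ⟨_, rfl⟩
  have z0 : ∀ x, x ∉ Z → ord x p = 0 := fun x hx => by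
    rw [← dv_apply]
    exact Finsupp.notMem_support_iff.1 fun h => hx (hZ ▸ Finset.mem_union_right _ h)
  have t0 : ∑ x ∈ Z, ord x p = 0 := by
    have := dg_eq_sum (D := dv k p) (S := Z) fun x hx => by rw [dv_apply, z0 x hx]
    rw [dg_dv] at this
    rw [this]
    exact Finset.sum_congr rfl fun x _ => (dv_apply p x).symm
  have t1 : ∑ j : Fin r, dg (AA k p r j) = ∑ x ∈ Z, ∑ j ∈ Finset.range r, (j : ℤ) * ord x p / r := by
    rw [Finset.sum_comm, Fin.sum_univ_eq_sum_range fun j => dg (AA k p r j)]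
    refine Finset.sum_congr rfl fun j _ => ?_
    rw [dg_eq_sum (S := Z) fun x hx => by rw [AA_apply, z0 x hx, mul_zero, Int.zero_ediv]]
    exact Finset.sum_congr rfl fun x _ => AA_apply p r j x
  have t2 : 2 * ∑ j : Fin r, dg (AA k p r j) = -∑ x ∈ Z,
      ((r : ℤ) - ((Finset.range r).filter fun j : ℕ => (r : ℤ) ∣ j * ord x p).card) := by
    rw [t1, Finset.mul_sum, Finset.sum_congr rfl fun x _ => floor_sum r r0 (ord x p),
      Finset.sum_sub_distrib, ← Finset.mul_sum, t0]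
    ring
  have t3 : ∑ x ∈ S, ((r : ℤ) - Set.ncard {y : Plk k F₁ | down F₀ y = x}) ≤ ∑ x ∈ Z,
      ((r : ℤ) - ((Finset.range r).filter fun j : ℕ => (r : ℤ) ∣ j * ord x p).card) := by
    refine le_trans (Finset.sum_le_sum fun x _ => ?_) (Finset.sum_le_sum_of_subset_of_nonneg
      (hZ ▸ Finset.subset_union_left) fun x _ _ => ?_)
    · have := cnt x
      omega
    · have := (Finset.card_filter_le (Finset.range r) fun j : ℕ => (r : ℤ) ∣ j * ord x p)
      rw [Finset.card_range] at this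
      omega
  linarith

end Vale.Agent.P027M.I
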