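import Vale.Agent.P027M.I.Spec

/-!
# P027 route M, block I: Kronecker congruence, tame covers, inertia (definitions and rows)

Paper: notes/P027/I2.md.
-/

set_option linter.unusedSectionVars false

noncomputable section

open IntermediateField Vale.Agent.P019P P025H746 P025H492 Module

namespace Vale.Agent.P027M.I

/-- `y` is unramified over the values other than `0`, `1`, `∞` -/
def Etl (k : Type) {κ : Type} [Field k] [Field κ] [Algebra k κ] [CFF k κ] (y : κ) : Prop :=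
  ∀ c : k, c ≠ 0 → c ≠ 1 → ∀ x : Plk k κ, 0 < ord x (y - algebraMap k κ c) →
    ord x (y - algebraMap k κ c) = 1

/-- Kronecker data: a curve `K'` with good reduction and a cover `K₀` with an involution up to
diamonds -/
structure Kr (C : Type) [NontriviallyNormedField C] [IsUltrametricDist C] [IsAlgClosed C]
    {K' K₀ : Type} [Field K'] [Algebra C K'] [CFF C K'] [Field K₀] [Algebra C K₀] [CFF C K₀]
    [Algebra K' K₀] [IsScalarTower C K' K₀] (T : K') [FiniteDimensional C⟮T⟯ K'] (q : ℕ)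
    (W : K₀ ≃ₐ[C] K₀) (u' : WW C T) (u : NV C K₀) : Prop where
  prime : q.Prime
  chr : (q : kC C) = 0
  full : Full C T
  good : cd C T = 0
  one : ∀ v : WW C T, v = u'
  etl : Etl (kC C) (u'.1.red T)
  ext : ∀ y, u (algebraMap K' K₀ y) = u'.1 y
  deg : finrank K' K₀ ≤ q + 1
  wwT : W (W (algebraMap K' K₀ T)) = algebraMap K' K₀ T
  wwu : ∀ y, u (W (W y)) = u y
  kro : u (W (algebraMap K' K₀ T) - algebraMap K' K₀ T ^ q) < 1
  zer : ∀ x : K₀, x = algebraMap K' K₀ T ∨ x = 1 - algebraMap K' K₀ T → ∀ P : Plk C K₀,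
    0 < ord P x → ord P x ≤ q * ord P (W x)
  pol : ∀ P : Plk C K₀, ord P (algebraMap K' K₀ T) < 0 →
    q * ord P (W (algebraMap K' K₀ T)) ≤ ord P (algebraMap K' K₀ T)

/-- two components, interchanged by `W` -/
structure Two (C : Type) [NontriviallyNormedField C] [IsUltrametricDist C] [IsAlgClosed C]
    (K' : Type) {K₀ : Type} [Field K'] [Field K₀] [Algebra C K₀] [CFF C K₀] [Algebra K' K₀]
    (T : K₀) [FiniteDimensional C⟮T⟯ K₀] (W : K₀ ≃ₐ[C] K₀) (u : NV C K₀) (v : Fin 2 → WW C T) :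
    Prop where
  v0 : (v 0).1 = u
  v1 : ∀ y, (v 1).1 y = u (W y)
  ne : v 0 ≠ v 1
  all : ∀ w, ∃ i, w = v i
  full : Full C T
  den : ∀ y, u y ≤ 1 → ∃ y', u (y - algebraMap K' K₀ y') < 1
  pl : ∀ P : Plk C K₀, T ∈ P.1 ↔ W T ∈ P.1
  etl : Etl (kC C) ((v 0).1.red T)
  sep : ∀ b b' : Br C T, b.w = b'.w → Glue b b' → b = b'

/-- no gluing at infinity -/
def INF : Prop :=
  ∀ (C F : Type) [NontriviallyNormedField C] [IsUltrametricDist C] [IsAlgClosed C] [Field F]
    [Algebra C F] [CFF C F] (T : F) [FiniteDimensional C⟮T⟯ F], Full C T →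
    (∀ n, ∀ y ∈ Pn C T (n + 1), ∃ j : ℕ, ∃ e ∈ En C T (n + 1 + j),
      e - redv C T T ^ j * y ∈ Pn C T (n + j)) →
    ∃ n₀ : ℕ, ∀ n, n₀ ≤ n → ∀ f, BB C T f → redv C T f ∈ Pn C T n → redv C T f ∈ En C T n

/-- criterion for nodal, without the count -/
def VAN2 : Prop :=
  ∀ (C F : Type) [NontriviallyNormedField C] [IsUltrametricDist C] [IsAlgClosed C] [Field F]
    [Algebra C F] [CFF C F] (T : F) [FiniteDimensional C⟮T⟯ F], Full C T →
    ∀ S : Finset (Br C T),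
      (∃ n₀ : ℕ, ∀ n, n₀ ≤ n → ∀ y ∈ Pn C T n, (∀ b ∈ S, b.ev y = 0) → y ∈ En C T n) →
      (∀ b ∈ S, ∀ b' ∈ S, ∀ b'' ∈ S, Glue b b' → Glue b b'' → b' = b ∨ b'' = b ∨ b' = b'') →
      ∃ S' : Finset (Br C T), Nodal C T S'

/-- glued branches cost genus -/
def HALF : Prop :=
  ∀ (C F : Type) [NontriviallyNormedField C] [IsUltrametricDist C] [IsAlgClosed C] [Field F]
    [Algebra C F] [CFF C F] (T : F) [FiniteDimensional C⟮T⟯ F], Full C T →
    ∀ S : Finset (Br C T), (∀ b ∈ S, ∃ b' ∈ S, b' ≠ b ∧ Glue b b') → (S.card : ℤ) ≤ 2 * cd C T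

/-- the two components -/
def N0A : Prop :=
  ∀ (C K' K₀ : Type) [NontriviallyNormedField C] [IsUltrametricDist C] [IsAlgClosed C]
    [Field K'] [Algebra C K'] [CFF C K'] [Field K₀] [Algebra C K₀] [CFF C K₀] [Algebra K' K₀]
    [IsScalarTower C K' K₀] [FiniteDimensional K' K₀] (T : K') [FiniteDimensional C⟮T⟯ K']
    [FiniteDimensional C⟮algebraMap K' K₀ T⟯ K₀] (q : ℕ) (W : K₀ ≃ₐ[C] K₀) (u' : WW C T)
    (u : NV C K₀), Kr C T q W u' u →
      ∃ v : Fin 2 → WW C (algebraMap K' K₀ T), Two C K' (algebraMap K' K₀ T) W u v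

/-- functions on the first component which vanish at the points over the field with `q ^ 2`
elements extend by zero -/
def SIDE : Prop :=
  ∀ (C K' K₀ : Type) [NontriviallyNormedField C] [IsUltrametricDist C] [IsAlgClosed C]
    [Field K'] [Algebra C K'] [CFF C K'] [Field K₀] [Algebra C K₀] [CFF C K₀] [Algebra K' K₀]
    [IsScalarTower C K' K₀] [FiniteDimensional K' K₀] (T : K') [FiniteDimensional C⟮T⟯ K']
    [FiniteDimensional C⟮algebraMap K' K₀ T⟯ K₀] (q : ℕ) (W : K₀ ≃ₐ[C] K₀) (u' : WW C T)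
    (u : NV C K₀) (v : Fin 2 → WW C (algebraMap K' K₀ T)), Kr C T q W u' u →
    Two C K' (algebraMap K' K₀ T) W u v → ∀ z : kap (v 0).1,
      (∀ x : Plk (kC C) (kap (v 0).1), (v 0).1.red (algebraMap K' K₀ T) ∈ x.1 → z ∈ x.1) →
      (∀ (x : Plk (kC C) (kap (v 0).1)) (c : kC C), c ^ q ^ 2 = c → c ≠ 0 → c ≠ 1 →
        0 < ord x ((v 0).1.red (algebraMap K' K₀ T) - algebraMap (kC C) (kap (v 0).1) c) →
        z ∈ Mge x 1) →
      ∃ f, BB C (algebraMap K' K₀ T) f ∧ (v 0).1.red f = z ∧ (v 1).1 f < 1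

/-- the polar parts are attained -/
def POLE : Prop :=
  ∀ (C K' K₀ : Type) [NontriviallyNormedField C] [IsUltrametricDist C] [IsAlgClosed C]
    [Field K'] [Algebra C K'] [CFF C K'] [Field K₀] [Algebra C K₀] [CFF C K₀] [Algebra K' K₀]
    [IsScalarTower C K' K₀] [FiniteDimensional K' K₀] (T : K') [FiniteDimensional C⟮T⟯ K']
    [FiniteDimensional C⟮algebraMap K' K₀ T⟯ K₀] (q : ℕ) (W : K₀ ≃ₐ[C] K₀) (u' : WW C T)
    (u : NV C K₀) (v : Fin 2 → WW C (algebraMap K' K₀ T)), Kr C T q W u' u →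
    Two C K' (algebraMap K' K₀ T) W u v →
    ∀ n, ∀ y ∈ Pn C (algebraMap K' K₀ T) (n + 1), ∃ j : ℕ,
      ∃ e ∈ En C (algebraMap K' K₀ T) (n + 1 + j),
        e - redv C (algebraMap K' K₀ T) (algebraMap K' K₀ T) ^ j * y ∈
          Pn C (algebraMap K' K₀ T) (n + j)

/-- Kronecker data give a nodal curve -/
def N0 : Prop :=
  ∀ (C K' K₀ : Type) [NontriviallyNormedField C] [IsUltrametricDist C] [IsAlgClosed C]
    [Field K'] [Algebra C K'] [CFF C K'] [Field K₀] [Algebra C K₀] [CFF C K₀] [Algebra K' K₀]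
    [IsScalarTower C K' K₀] [FiniteDimensional K' K₀] (T : K') [FiniteDimensional C⟮T⟯ K']
    [FiniteDimensional C⟮algebraMap K' K₀ T⟯ K₀] (q : ℕ) (W : K₀ ≃ₐ[C] K₀) (u' : WW C T)
    (u : NV C K₀), Kr C T q W u' u →
      ∃ (v : Fin 2 → WW C (algebraMap K' K₀ T)) (S : Finset (Br C (algebraMap K' K₀ T))),
        Two C K' (algebraMap K' K₀ T) W u v ∧ Nodal C (algebraMap K' K₀ T) S

/-- the Galois group is transitive on the components and on the branches over a branch -/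
def TRB : Prop :=
  ∀ (C F L : Type) [NontriviallyNormedField C] [IsUltrametricDist C] [IsAlgClosed C]
    [Field F] [Algebra C F] [CFF C F] [Field L] [Algebra C L] [CFF C L] [Algebra F L]
    [IsScalarTower C F L] [FiniteDimensional F L] [IsGalois F L] (T : F)
    [FiniteDimensional C⟮T⟯ F] [FiniteDimensional C⟮algebraMap F L T⟯ L],
      (∀ v v' : WW C (algebraMap F L T), (∀ y, v.1 (algebraMap F L y) = v'.1 (algebraMap F L y)) →
        ∃ g : L ≃ₐ[F] L, ∀ y, v'.1 (g y) = v.1 y) ∧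
      ∀ b : Br C T, {b' : Br C (algebraMap F L T) | Tw (algebraMap F L) b b'}.Finite ∧
        (∃ b' : Br C (algebraMap F L T), Tw (algebraMap F L) b b') ∧
        (∀ b' : Br C (algebraMap F L T), Tw (algebraMap F L) b b' → ∀ f, BB C T f →
          b'.ev (redv C _ (algebraMap F L f)) = b.ev (redv C T f)) ∧
        ∀ b' b'' : Br C (algebraMap F L T), Tw (algebraMap F L) b b' → Tw (algebraMap F L) b b'' →
          ∃ g : L ≃ₐ[F] L, Tw (g : L →+* L) b' b''

/-- gluing lifts to Galois covers -/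
def LIFT : Prop :=
  ∀ (C F L : Type) [NontriviallyNormedField C] [IsUltrametricDist C] [IsAlgClosed C]
    [Field F] [Algebra C F] [CFF C F] [Field L] [Algebra C L] [CFF C L] [Algebra F L]
    [IsScalarTower C F L] [FiniteDimensional F L] [IsGalois F L] (T : F)
    [FiniteDimensional C⟮T⟯ F] [FiniteDimensional C⟮algebraMap F L T⟯ L] (b₁ b₂ : Br C T),
    Glue b₁ b₂ → ∀ b₁' : Br C (algebraMap F L T), Tw (algebraMap F L) b₁ b₁' →
      ∃ b₂' : Br C (algebraMap F L T), Tw (algebraMap F L) b₂ b₂' ∧ Glue b₁' b₂'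

/-- Galois extensions of degree prime to the residue characteristic have no defect; the residue
extensions are Galois with the decomposition groups -/
def DEC : Prop :=
  ∀ (C F L : Type) [NontriviallyNormedField C] [IsUltrametricDist C] [IsAlgClosed C]
    [Field F] [Algebra C F] [CFF C F] [Field L] [Algebra C L] [CFF C L] [Algebra F L]
    [IsScalarTower C F L] [FiniteDimensional F L] [IsGalois F L] (T : F)
    [FiniteDimensional C⟮T⟯ F] [FiniteDimensional C⟮algebraMap F L T⟯ L],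
    ((finrank F L : ℕ) : kC C) ≠ 0 → Full C T → Full C (algebraMap F L T) ∧
      ∀ w : WW C T,
        ∑ᶠ v : {v : NV C L // NVExt w.1 v}, finrank (kap w.1) (kap v.1) = finrank F L ∧
        ∀ (v : NV C L) [NVExt w.1 v], IsGalois (kap w.1) (kap v) ∧
          finrank (kap w.1) (kap v) ∣ finrank F L ∧
          (∀ τ : kap v ≃ₐ[kap w.1] kap v, ∃ g : L ≃ₐ[F] L, (∀ y, v (g y) = v y) ∧
            ∀ y, v y ≤ 1 → τ (v.red y) = v.red (g y)) ∧
          ((∃ d : L ≃ₐ[F] L, ∀ g : L ≃ₐ[F] L, (∀ y, v (g y) = v y) ↔ g ∈ Subgroup.zpowers d) →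
            IsCyclic (kap v ≃ₐ[kap w.1] kap v))

/-- `σ` acts like an inertia element: trivially at `w 0`, as `s` at `w 1` -/
structure Inr (C : Type) [NontriviallyNormedField C] [IsUltrametricDist C] [IsAlgClosed C]
    {K₀ K : Type} [Field K₀] [Field K] [Algebra C K] [Algebra K₀ K] (T : K)
    (w : Fin 2 → NV C K) (σ : K ≃+* K) (s : K ≃ₐ[K₀] K) : Prop where
  semi : ∃ c : C ≃+* C, Semi C σ c
  fix : σ T = T
  com : ∀ (g : K ≃ₐ[K₀] K) y, σ (g y) = g (σ y)
  n0 : ∀ y, w 0 (σ y) = w 0 y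
  t0 : ∀ y, w 0 y ≤ 1 → w 0 (σ y - y) < 1
  n1 : ∀ y, w 1 (σ y) = w 1 (s y)
  t1 : ∀ y, w 1 (s y) ≤ 1 → w 1 (σ y - s y) < 1

/-- inertia on a tame cyclic cover of a nodal curve with two components (I1 and I3) -/
def I1B : Prop :=
  ∀ (C K₀ K : Type) [NontriviallyNormedField C] [IsUltrametricDist C] [IsAlgClosed C] [CharZero C]
    [Field K₀] [Algebra C K₀] [CFF C K₀] [Field K] [Algebra C K] [CFF C K] [Algebra K₀ K]
    [IsScalarTower C K₀ K] [FiniteDimensional K₀ K] [IsGalois K₀ K] (T : K₀)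
    [FiniteDimensional C⟮T⟯ K₀] (v : Fin 2 → WW C T) (S : Finset (Br C T)) (w : Fin 2 → NV C K)
    (m : ℕ) (σ σ₀ : K ≃+* K) (s s₀ : K ≃ₐ[K₀] K),
    ((finrank K₀ K : ℕ) : kC C) ≠ 0 → IsUnr C K₀ K → IsCyclic (K ≃ₐ[K₀] K) →
    Full C T → Nodal C T S → v 0 ≠ v 1 →
    (∀ w, ∃ i, w = v i) → (∀ b b' : Br C T, b.w = b'.w → Glue b b' → b = b') →
    (∀ i y, w i (algebraMap K₀ K y) = (v i).1 y) → (m : kC C) ≠ 0 →
    Inr C (algebraMap K₀ K T) w σ s → Inr C (algebraMap K₀ K T) w σ₀ s₀ →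
    ∀ f : K, f ≠ 0 → (∀ P : Plk C K, (m : ℤ) ∣ ord P f) → ∀ A B : K, A = σ f / f →
      B = σ A / s A → ∃ z : K, z ≠ 0 ∧ s₀ B = B * z ^ m

end Vale.Agent.P027M.I
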