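import Vale.Agent.P027M.I.Act
import Vale.Agent.P027M.I.Spec2

/-!
# P027 route M, block I: extension by zero from the first component (row SIDE)
-/

set_option linter.unusedSectionVars false

noncomputable section

open IntermediateField Vale.Agent.P019P P025H746 P025H492 Module Polynomial

namespace Vale.Agent.P027M.I

namespace Side

/-- division by the cyclotomic factor -/
theorem div_reg {k κ : Type} [Field k] [Field κ] [Algebra k κ] [CFF k κ] {t z : κ} {N : ℕ}
    (hN : (N : k) ≠ 0) (ht : ∀ a : k, t ≠ algebraMap k κ a) (he : Etl k t)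
    (h1 : ∀ x : Plk k κ, t ∈ x.1 → z ∈ x.1)
    (h2 : ∀ (x : Plk k κ) (c : k), c ^ N = 1 → c ≠ 0 → c ≠ 1 → 0 < ord x (t - algebraMap k κ c) →
      z ∈ Mge x 1) :
    ∃ h : κ, (∀ x : Plk k κ, t ∈ x.1 → h ∈ x.1) ∧ (1 - t) * z = (1 - t ^ N) * h := by
  set p : k[X] := ∑ i ∈ Finset.range N, X ^ i with hp
  have e1 : (1 - X) * p = 1 - X ^ N := mul_neg_geom_sum X N
  have p1 : p.eval 1 ≠ 0 := by simpa [hp, eval_finsetSum] using hN
  have N0 : N ≠ 0 := by rintro rfl; simp at hN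
  have p0 : aeval t p ≠ 0 := by
    intro h0
    have hp0 : p ≠ 0 := by rintro h; rw [h] at p1; simp at p1
    have : IsAlgClosed k := CFF.ac κ
    have : IsIntegral k t := IsAlgebraic.isIntegral ⟨p, hp0, h0⟩
    obtain ⟨a, ha⟩ := minpoly.mem_range_of_degree_eq_one k t
      (IsAlgClosed.degree_eq_one_of_irreducible k (minpoly.irreducible this))
    exact ht a ha.symm
  refine ⟨z * (aeval t p)⁻¹, fun x hx => ?_, ?_⟩
  · have hc := ord_sub_vl_pos (P := x) ht (ord_nonneg_of_mem x hx)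
    set c := vl x t
    by_cases h0 : p.eval c = 0
    · have c1 : c ≠ 1 := by rintro h; rw [h] at h0; exact p1 h0
      have cN : c ^ N = 1 := by
        have := congrArg (eval c) e1
        simp only [eval_mul, h0, mul_zero, eval_sub, eval_one, eval_pow, eval_X] at this
        exact (sub_eq_zero.1 this.symm).symm
      have c0 : c ≠ 0 := by rintro h; rw [h, zero_pow N0] at cN; exact zero_ne_one cN
      obtain ⟨r, hr⟩ := dvd_iff_isRoot.2 h0
      have r0 : r.eval c ≠ 0 := by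
        intro hr0
        have := congrArg (fun f => (derivative f).eval c) e1
        simp [hr, hr0, derivative_X_pow, hN, c0] at this
      obtain ⟨r1, r2⟩ := ord_aeval_of_eval_ne hc r0
      have o1 : ord x (aeval t p) = 1 := by
        rw [hr, map_mul, map_sub, aeval_X, aeval_C, ord_mul _ (sub_ne_zero.2 (ht c)) r1, r2,
          he c c0 c1 x hc, add_zero]
      have := mul_mem_Mge (h2 x c cN c0 c1 hc)
        (show (aeval t p)⁻¹ ∈ Mge x (-1) from Or.inr (by rw [ord_inv, o1]))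
      exact mem_Mge0.1 (by simpa using this)
    · obtain ⟨-, r2⟩ := ord_aeval_of_eval_ne hc h0
      exact mul_mem (h1 x hx) ((mem_iff_ord x _).2 (Or.inr (by rw [ord_inv, r2]; rfl)))
  · have := congrArg (aeval t) e1
    simp only [map_mul, map_sub, map_one, map_pow, aeval_X] at this
    rw [← this]
    field_simp

variable {C K' K₀ : Type} [NontriviallyNormedField C] [IsUltrametricDist C] [IsAlgClosed C]
  [Field K'] [Algebra C K'] [CFF C K'] [Field K₀] [Algebra C K₀] [CFF C K₀] [Algebra K' K₀]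
  [IsScalarTower C K' K₀] [FiniteDimensional K' K₀] {T : K'} [FiniteDimensional C⟮T⟯ K']
  [FiniteDimensional C⟮algebraMap K' K₀ T⟯ K₀] {q : ℕ} {W : K₀ ≃ₐ[C] K₀} {u' : WW C T}
  {u : NV C K₀} {v : Fin 2 → WW C (algebraMap K' K₀ T)}

theorem bb_up {f : K'} (hf : BB C T f) : BB C (algebraMap K' K₀ T) (algebraMap K' K₀ f) :=
  ⟨fun w => hf.1 ⟨w.1.comap K', NV.OverG.comap w.2⟩, fun P hP => hf.2 (down K' P) hP⟩

/-- regular functions on the first component are reductions of functions of `K'` -/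
theorem lift (hS : SURJ) (H : Kr C T q W u' u) (H2 : Two C K' (algebraMap K' K₀ T) W u v)
    {z : kap (v 0).1}
    (hz : ∀ x : Plk (kC C) (kap (v 0).1), (v 0).1.red (algebraMap K' K₀ T) ∈ x.1 → z ∈ x.1) :
    ∃ f, BB C (algebraMap K' K₀ T) f ∧ (v 0).1.red f = z := by
  have h : ∀ y, (v 0).1 (algebraMap K' K₀ y) = u'.1 y := fun y => by rw [H2.v0, H.ext]
  have hd : ∀ y', (v 0).1 y' ≤ 1 → ∃ y, (v 0).1 (y' - algebraMap K' K₀ y) < 1 := by
    rw [H2.v0]; exact H2.den
  obtain ⟨z', rfl⟩ := rm_surj (algebraMap K' K₀) h hd z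
  obtain ⟨y, hy, rfl⟩ := NV.red_surj z'
  have reg : ∀ x : Plk (kC C) (kap u'.1), u'.1.red T ∈ x.1 → u'.1.red y ∈ x.1 := by
    intro x hx
    obtain ⟨⟨w', x', fin⟩, e, hb⟩ := exists_tw (T' := algebraMap K' K₀ T) (algebraMap K' K₀)
      (s := RingEquiv.refl C) (fun c => (IsScalarTower.algebraMap_apply C K' K₀ c).symm)
      (fun _ => rfl) ⟨u', x, hx⟩ (v 0) h hd ⟨T, u'.2.apply_T.le, hx, by simp⟩
    change w' = v 0 at e
    subst e
    have := hz x' fin
    rw [rm_red] at this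
    exact (hb.2 y hy).1 this
  obtain ⟨n, hn⟩ := exists_LL reg
  obtain ⟨-, n₀, hn₀⟩ := (hS C K' T H.full).2 H.good.le
  have hP : redv C T y ∈ Pn C T n := mem_Pn.2 fun w => by
    obtain rfl := H.one w
    exact hn
  obtain ⟨f, hf, hf1, e⟩ := hn₀ (max n n₀) (le_max_right _ _) (Pn_mono (le_max_left _ _) hP)
  refine ⟨algebraMap K' K₀ f, bb_up (BB_of_LL hf hf1), ?_⟩
  rw [← rm_red (algebraMap K' K₀) h]
  exact congrArg _ (congrFun e u')

/-- the two generators -/
theorem gen (H : Kr C T q W u' u) (H2 : Two C K' (algebraMap K' K₀ T) W u v) {x : K₀}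
    (hx : x = algebraMap K' K₀ T ∨ x = 1 - algebraMap K' K₀ T) :
    ∃ f, BB C (algebraMap K' K₀ T) f ∧ (v 0).1.red f = 1 - (v 0).1.red x ^ (q ^ 2 - 1) ∧
      (v 1).1 f < 1 := by
  have one : ∀ w : NV C K₀, w 1 = 1 := fun w => map_one w.av
  have n1 : ∀ w : WW C (algebraMap K' K₀ T), w.1 x = 1 := by
    intro w
    rcases hx with rfl | rfl
    · exact w.2.apply_T
    · have h1 := NV.sub_le (one w.1).le w.2.apply_T.le
      refine h1.eq_or_lt.resolve_right fun h => w.2.red_ne 1 ?_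
      have := NV.red_of_lt h
      rw [NV.red_sub (one w.1).le w.2.apply_T.le, NV.red_one, sub_eq_zero] at this
      rw [← this, map_one]
  have ww : W (W x) = x := by
    rcases hx with rfl | rfl
    · exact H.wwT
    · rw [map_sub, map_sub, map_one, map_one, H.wwT]
  have ux : u x = 1 := by rw [← H2.v0]; exact n1 _
  have uw : u (W x) = 1 := by rw [← H2.v1]; exact n1 _
  have n2 : ∀ w : WW C (algebraMap K' K₀ T), w.1 (W x) = 1 := by
    intro w
    obtain ⟨i, rfl⟩ := H2.all w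
    fin_cases i
    · exact (congrArg (fun w : NV C K₀ => w (W x)) H2.v0).trans uw
    · exact (H2.v1 _).trans (by rw [ww, ux])
  have x0 : x ≠ 0 := by rintro rfl; simp at ux
  have w0 : W x ≠ 0 := by simpa using x0
  have uT : u (algebraMap K' K₀ T) ≤ 1 := by rw [← H2.v0]; exact (v 0).2.apply_T.le
  have uS : u (W (algebraMap K' K₀ T)) ≤ 1 := by rw [← H2.v1]; exact (v 1).2.apply_T.le
  have kr : u.red (W x) = u.red x ^ q := by
    have h1 := (red_eq_iff uS (NV.pow_le_one' uT q)).2 H.kro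
    rw [NV.red_pow uT] at h1
    rcases hx with rfl | rfl
    · exact h1
    · have := Fact.mk H.prime
      have : CharP (kap u) q := (CharP.charP_iff_prime_eq_zero H.prime).2 (by
        rw [← map_natCast (algebraMap (kC C) (kap u)), H.chr, map_zero])
      rw [map_sub, map_one, NV.red_sub (one u).le uS, NV.red_sub (one u).le uT, NV.red_one, h1,
        sub_pow_char, one_pow]
  have inv : ∀ (w : NV C K₀) (y : K₀), w y = 1 → w y⁻¹ = 1 := fun w y hy => by
    have : w y⁻¹ = (w y)⁻¹ := map_inv₀ w.av y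
    rw [this, hy, inv_one]
  have n3 : ∀ w : WW C (algebraMap K' K₀ T), w.1 (W x ^ q * x⁻¹) ≤ 1 := fun w =>
    NV.mul_le_one (NV.pow_le_one' (n2 w).le q) (inv _ _ (n1 w)).le
  refine ⟨1 - W x ^ q * x⁻¹, ⟨fun w => NV.sub_le (one w.1).le (n3 w), fun P hP => ?_⟩, ?_, ?_⟩
  · refine sub_mem (one_mem _) ((mem_iff_ord P _).2 (Or.inr ?_))
    have hP' := (H2.pl P).1 hP
    have m1 : x ∈ P.1 ∧ W x ∈ P.1 := by
      rcases hx with rfl | rfl
      · exact ⟨hP, hP'⟩
      · rw [map_sub, map_one]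
        exact ⟨sub_mem (one_mem _) hP, sub_mem (one_mem _) hP'⟩
    have o1 := ord_nonneg_of_mem P m1.1
    have o2 := ord_nonneg_of_mem P m1.2
    rw [ord_mul P (pow_ne_zero _ w0) (inv_ne_zero x0), ord_pow, ord_inv]
    rcases o1.eq_or_lt with h | h
    · rw [← h]; positivity
    · have := H.zer x hx P h
      omega
  · rw [NV.red_sub (one _).le (n3 _), NV.red_one,
      NV.red_mul (NV.pow_le_one' (n2 _).le q) (inv _ _ (n1 _)).le, NV.red_pow (n2 _).le,
      NV.red_inv (n1 _)]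
    have r0 := NV.red_ne_zero (n1 (v 0))
    have kr' : (v 0).1.red (W x) = (v 0).1.red x ^ q := by
      have := H2.v0
      subst this
      exact kr
    rw [kr', ← pow_mul, ← sq, pow_sub₀ _ r0 (Nat.one_le_pow _ _ H.prime.pos), pow_one]
  · rw [H2.v1, map_sub, map_one, map_mul, map_pow, ww, map_inv₀]
    have h1 : u (x ^ q * (W x)⁻¹) ≤ 1 := NV.mul_le_one (NV.pow_le_one' ux.le q) (inv _ _ uw).le
    rw [← red_eq_iff (one u).le h1, NV.red_one,
      NV.red_mul (NV.pow_le_one' ux.le q) (inv _ _ uw).le, NV.red_pow ux.le, NV.red_inv uw, ← kr,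
      mul_inv_cancel₀ (NV.red_ne_zero uw)]

theorem mul_lt {F : Type} [Field F] [Algebra C F] {w : NV C F} {x y : F} (hx : w x < 1)
    (hy : w y ≤ 1) : w (x * y) < 1 := by
  rw [← NV.red_eq_zero (NV.mul_le_one hx.le hy), NV.red_mul hx.le hy, NV.red_of_lt hx, zero_mul]

end Side

open Side in
theorem side (hS : SURJ) : SIDE := by
  intro C K' K₀ _ _ _ _ _ _ _ _ _ _ _ _ T _ _ q W u' u v H H2 z h1 h2
  have q1 : 1 ≤ q ^ 2 := Nat.one_le_pow _ _ H.prime.pos
  have q2 : 1 < q ^ 2 := Nat.one_lt_pow two_ne_zero H.prime.one_lt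
  have hN : ((q ^ 2 - 1 : ℕ) : kC C) ≠ 0 := by
    rw [Nat.cast_sub q1, Nat.cast_pow, H.chr]; simp
  obtain ⟨h, hh, e⟩ := div_reg hN (v 0).2.red_ne H2.etl h1 fun x c cN c0 c1 hc =>
    h2 x c (by rw [← Nat.sub_add_cancel q1, pow_succ, cN, one_mul]) c0 c1 hc
  obtain ⟨fz, b1, r1⟩ := lift hS H H2 h1
  obtain ⟨fh, b2, r2⟩ := lift hS H H2 hh
  obtain ⟨e0, b3, r3, s3⟩ := Side.gen H H2 (Or.inl rfl)
  obtain ⟨e1, b4, r4, s4⟩ := Side.gen H H2 (Or.inr rfl)
  have b5 : BB C (algebraMap K' K₀ T) (1 - algebraMap K' K₀ T) := BB.one.sub BB.self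
  have r5 : (v 0).1.red (1 - algebraMap K' K₀ T) = 1 - (v 0).1.red (algebraMap K' K₀ T) := by
    rw [NV.red_sub (BB.one.1 (v 0)) (v 0).2.apply_T.le, NV.red_one]
  obtain ⟨m, hm⟩ : ∃ m, q ^ 2 - 1 = m + 1 := ⟨q ^ 2 - 2, by omega⟩
  have b6 := b2.mul (b5.pow m)
  refine ⟨e1 * fz + e0 * (fh * (1 - algebraMap K' K₀ T) ^ m), (b4.mul b1).add (b3.mul b6), ?_,
    NV.add_lt (mul_lt s4 (b1.1 _)) (mul_lt s3 (b6.1 _))⟩
  rw [NV.red_add ((b4.mul b1).1 _) ((b3.mul b6).1 _), NV.red_mul (b4.1 _) (b1.1 _),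
    NV.red_mul (b3.1 _) (b6.1 _), NV.red_mul (b2.1 _) ((b5.pow m).1 _), NV.red_pow (b5.1 _),
    r1, r2, r3, r4, r5, ← mul_assoc, ← e, hm]
  ring

end Vale.Agent.P027M.I
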