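import Vale.Agent.P027M.I.Spec2
import Vale.Agent.P027M.I.Act

/-!
# P027 route M, block I: the Galois group is transitive on components and branches
-/

set_option linter.unusedSectionVars false

noncomputable section

open IntermediateField Vale.Agent.P019P P025H746 P025H492 Module

namespace Vale.Agent.P027M.I

namespace Trb

variable {C : Type} [NontriviallyNormedField C] [IsUltrametricDist C] [IsAlgClosed C]
variable {F : Type} [Field F] [Algebra C F]

theorem red_prod {w : NV C F} {ι : Type*} (s : Finset ι) (f : ι → F) (h : ∀ i ∈ s, w (f i) ≤ 1) :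
    w (∏ i ∈ s, f i) ≤ 1 ∧ w.red (∏ i ∈ s, f i) = ∏ i ∈ s, w.red (f i) := by
  classical
  induction s using Finset.induction_on with
  | empty => simp
  | insert a s ha ih =>
    obtain ⟨h1, h2⟩ := ih fun i hi => h i (Finset.mem_insert_of_mem hi)
    have h3 := h a (Finset.mem_insert_self _ _)
    rw [Finset.prod_insert ha, Finset.prod_insert ha, NV.red_mul h3 h1, h2]
    exact ⟨NV.mul_le_one h3 h1, rfl⟩

variable {T : F} [FiniteDimensional C⟮T⟯ F]

/-- a function which is regular at the branches of a finite set and vanishes at one of them only -/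
theorem sep {S : Set (Br C T)} (hS : S.Finite) (b₀ : Br C T) :
    ∃ y : F, ∀ c ∈ S, c.w.1 y ≤ 1 ∧ c.w.1.red y ∈ c.x.1 ∧ (c.ev (redv C T y) = 0 ↔ c = b₀) := by
  classical
  obtain ⟨v, x₀, h₀⟩ := b₀
  let f : {x : Plk (kC C) (kap v.1) // v.1.red T ∈ x.1} → Br C T := fun x => ⟨v, x.1, x.2⟩
  have hf : Function.Injective f := fun x x' h => by
    simp only [f, Br.mk.injEq, heq_eq_eq, true_and] at h
    exact Subtype.ext h
  have hX : (Subtype.val '' (f ⁻¹' S)).Finite := (hS.preimage hf.injOn).image _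
  obtain ⟨z, hz0, hz⟩ := exists_ord_eq hX.toFinset fun x => if x = x₀ then 1 else 0
  obtain ⟨y₀, hy₀, rfl⟩ := NV.red_surj z
  obtain ⟨y, hy1, hy2⟩ := P025H458.exists_approx (fun u : WW C T => u.1.av) (fun u => u.1.na)
    (fun u => u.1.ext') (fun u u' h => Subtype.ext (NV.ext h)) v (y₀ - 1) one_pos
  refine ⟨y + 1, ?_⟩
  rintro ⟨w, x, h⟩ hc
  by_cases hw : w = v
  · subst hw
    have h1 : w.1 (y₀ - (y + 1)) < 1 := by
      rw [← NV.map_neg', show -(y₀ - (y + 1)) = y - (y₀ - 1) by ring]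
      exact hy1
    have h2 := le_one_of_sub hy₀ h1
    have h3 := (red_eq_iff hy₀ h2).2 h1
    have h4 := hz x (hX.mem_toFinset.2 ⟨⟨x, h⟩, hc, rfl⟩)
    have h5 : w.1.red (y + 1) ∈ x.1 := by
      rw [← h3, mem_iff_ord, h4]
      right
      split_ifs <;> omega
    refine ⟨h2, h5, (vl_eq_zero_iff h5).trans ?_⟩
    rw [← h3, mem_Mge, h4]
    by_cases hx : x = x₀
    · subst hx
      simp
    · simp [hx, hz0]
  · have h1 : w.1 (1 - (y + 1)) < 1 := by
      rw [← NV.map_neg', show -(1 - (y + 1)) = y by ring]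
      exact hy2 w hw
    have h0 : w.1 1 ≤ 1 := by simp
    have h2 := le_one_of_sub h0 h1
    have h3 : w.1.red (y + 1) = 1 := by
      rw [← (red_eq_iff h0 h2).2 h1]
      simp
    refine ⟨h2, by rw [h3]; exact one_mem _, ?_⟩
    change vl x (w.1.red (y + 1)) = 0 ↔ _
    rw [h3, vl_one']
    simp [hw]

variable {L : Type} [Field L] [Algebra C L] [Algebra F L] [IsScalarTower C F L]
  [FiniteDimensional F L] [FiniteDimensional C⟮algebraMap F L T⟯ L]

theorem fin_over (b : Br C T) :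
    {b' : Br C (algebraMap F L T) | Tw (algebraMap F L) b b'}.Finite := by
  have key : ∀ v : WW C (algebraMap F L T),
      {b' : Br C (algebraMap F L T) | b'.w = v ∧ Tw (algebraMap F L) b b'}.Finite := by
    intro v
    by_cases hv : NVExt b.w.1 v.1
    · have := finite_resdeg b.w.1 (exists_norm_eq b.w.2) v.1
      let f : {x : Plk (kC C) (kap v.1) // v.1.red (algebraMap F L T) ∈ x.1} →
        Br C (algebraMap F L T) := fun x => ⟨v, x.1, x.2⟩
      refine (((over_finite (L := kap v.1) b.x).preimage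
        Subtype.val_injective.injOn).image f).subset ?_
      rintro ⟨w, x, h⟩ ⟨rfl, hb⟩
      refine ⟨⟨x, h⟩, Subtype.ext (ValuationSubring.ext _ _ fun z => ?_), rfl⟩
      obtain ⟨y, hy, rfl⟩ := NV.red_surj z
      rw [mem_down, ← red_algebraMap' hy]
      exact hb.2 y hy
    · refine Set.finite_empty.subset ?_
      rintro b' ⟨rfl, hb⟩
      exact hv ⟨hb.1⟩
  refine (Set.finite_iUnion key).subset fun b' hb => ?_
  exact Set.mem_iUnion.2 ⟨b'.w, rfl, hb⟩

theorem exists_up (b : Br C T) : ∃ b' : Br C (algebraMap F L T), Tw (algebraMap F L) b b' := by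
  obtain ⟨c, hc⟩ := NormedField.exists_one_lt_norm C
  obtain ⟨a, ha, hv⟩ := P025H458.exists_ext (K := L) b.w.1.av b.w.1.na b.w.1.ext'
    (fun y => (exists_norm_eq b.w.2 y).imp fun _ h => h.symm)
    ⟨algebraMap C F c, by rw [b.w.1.ext']; exact hc⟩
  let u : NV C L := ⟨a, ha, fun c => by
    rw [IsScalarTower.algebraMap_apply C F L, hv, b.w.1.ext']⟩
  have hu : NVExt b.w.1 u := ⟨hv⟩
  obtain ⟨v, hv'⟩ : ∃ v : WW C (algebraMap F L T), NVExt b.w.1 v.1 :=
    ⟨⟨u, NVExt.overG.2 b.w.2⟩, hu⟩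
  have := finite_resdeg b.w.1 (exists_norm_eq b.w.2) v.1
  obtain ⟨x, hx⟩ := P025H492.exists_over (L := kap v.1) b.x
  have h1 : ∀ y, b.w.1 y ≤ 1 → (v.1.red (algebraMap F L y) ∈ x.1 ↔ b.w.1.red y ∈ b.x.1) := by
    intro y hy
    rw [red_algebraMap' (w := b.w.1) hy, ← mem_down, hx]
  exact ⟨⟨v, x, (h1 T b.w.2.apply_T.le).2 b.fin⟩, hv'.out, h1⟩

theorem exists_pre [CFF C L] (g : L ≃ₐ[F] L) (d : Br C (algebraMap F L T)) :
    ∃ c : Br C (algebraMap F L T), Tw (g : L →+* L) c d ∧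
      ∀ b : Br C T, Tw (algebraMap F L) b d → Tw (algebraMap F L) b c := by
  obtain ⟨c, hc⟩ := (Semi.of_alg (g.symm.restrictScalars C)).exists_tw (g.symm.commutes T) d
  exact ⟨c, hc.symm.congr fun _ => rfl, fun b hb =>
    (hb.comp hc).congr fun y => (g.symm.commutes y).symm⟩

variable [IsGalois F L]

theorem trans_w (v v' : WW C (algebraMap F L T))
    (h : ∀ y, v.1 (algebraMap F L y) = v'.1 (algebraMap F L y)) :
    ∃ g : L ≃ₐ[F] L, ∀ y, v'.1 (g y) = v.1 y := by
  classical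
  by_contra hne
  have og : ∀ (u : WW C (algebraMap F L T)) (g : L ≃ₐ[F] L),
      (u.1.twist g).OverG (algebraMap F L T) :=
    fun u g => (NVExt.overG (w := u.1.comap F)).2 u.2.comap
  obtain ⟨e, he0, -, he2⟩ := P025H458.exists_idem (fun u : WW C (algebraMap F L T) => u.1.av)
    (fun u => u.1.na) (fun u => u.1.ext') (fun u u' h => Subtype.ext (NV.ext h)) v
  have hone : ∀ u : WW C (algebraMap F L T), u ≠ v → u.1 (e - 1) = 1 := by
    intro u hn
    have h1 : u.1 e < 1 := he2 u hn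
    refine le_antisymm (NV.sub_le h1.le (by simp)) ?_
    by_contra hlt
    have := NV.sub_lt h1 (not_le.1 hlt)
    simp at this
  have hle : ∀ u : WW C (algebraMap F L T), u.1 (e - 1) ≤ 1 := by
    intro u
    by_cases hn : u = v
    · subst hn
      exact le_of_lt he0
    · exact (hone u hn).le
  have h1 : v'.1 (algebraMap F L (Algebra.norm F (e - 1))) = 1 := by
    rw [Algebra.norm_eq_prod_automorphisms, map_prod]
    exact Finset.prod_eq_one fun g _ => hone ⟨_, og v' g⟩ fun q => hne ⟨g, fun y => by rw [← q]; rfl⟩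
  have h2 : v.1 (algebraMap F L (Algebra.norm F (e - 1))) < 1 := by
    rw [Algebra.norm_eq_prod_automorphisms, map_prod,
      ← Finset.mul_prod_erase _ _ (Finset.mem_univ (1 : L ≃ₐ[F] L))]
    refine mul_lt_one_of_nonneg_of_lt_one_left (v.1.av.nonneg _) he0 ?_
    exact Finset.prod_le_one (fun g _ => v.1.av.nonneg _) (fun g _ => hle ⟨_, og v g⟩)
  rw [h, h1] at h2
  exact lt_irrefl _ h2

theorem trans_br [CFF C L] {b : Br C T} {b' b'' : Br C (algebraMap F L T)}
    (h' : Tw (algebraMap F L) b b') (h'' : Tw (algebraMap F L) b b'') :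
    ∃ g : L ≃ₐ[F] L, Tw (g : L →+* L) b' b'' := by
  obtain ⟨y, hy⟩ := sep (fin_over (L := L) b) b'
  have key : ∀ d : Br C (algebraMap F L T), Tw (algebraMap F L) b d →
      (b.ev (redv C T (Algebra.norm F y)) = 0 ↔ ∃ g : L ≃ₐ[F] L, Tw (g : L →+* L) b' d) := by
    intro d hd
    choose c hc1 hc2 using fun g : L ≃ₐ[F] L => exists_pre g d
    have h1 := fun g => hy (c g) (hc2 g b hd)
    have h2 : ∀ g : L ≃ₐ[F] L, d.w.1 (g y) ≤ 1 := fun g => ((hc1 g).1 y).trans_le (h1 g).1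
    have h3 : ∀ g : L ≃ₐ[F] L, d.w.1.red (g y) ∈ d.x.1 := fun g =>
      ((hc1 g).2 y (h1 g).1).2 (h1 g).2.1
    obtain ⟨h4, h5⟩ := red_prod Finset.univ (fun g : L ≃ₐ[F] L => g y) fun g _ => h2 g
    rw [← Algebra.norm_eq_prod_automorphisms] at h4 h5
    have h6 : b.w.1 (Algebra.norm F y) ≤ 1 := by rw [← hd.1]; exact h4
    have h7 : b.w.1.red (Algebra.norm F y) ∈ b.x.1 := by
      rw [← hd.2 _ h6, h5]
      exact prod_mem fun g _ => h3 g
    rw [← hd.ev_zero h6 h7]
    change vl d.x (d.w.1.red _) = 0 ↔ _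
    rw [h5, vl_prod' _ _ fun g _ => h3 g, Finset.prod_eq_zero_iff]
    refine exists_congr fun g => ?_
    have h8 := ((hc1 g).ev_zero (h1 g).1 (h1 g).2.1).trans (h1 g).2.2
    refine ⟨fun q => h8.1 q.2 ▸ hc1 g, fun q => ⟨Finset.mem_univ _, h8.2 ((hc1 g).inj_left q)⟩⟩
  exact (key b'' h'').1 ((key b' h').2 ⟨1, (Tw.id b').congr fun _ => rfl⟩)

end Trb

theorem trb : TRB := by
  intro C F L _ _ _ _ _ _ _ _ _ _ _ _ _ T _ _
  exact ⟨Trb.trans_w, fun b => ⟨Trb.fin_over b, Trb.exists_up b,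
    fun b' h f hf => h.ev_eq (fun c => (IsScalarTower.algebraMap_apply C F L c).symm) (hf.1 _)
      (hf.red_mem _), fun _ _ => Trb.trans_br⟩⟩

end Vale.Agent.P027M.I
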