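import Vale.Agent.P027M.I.Basic

/-!
# P027 route M, block I, row VAL: values at integral points
-/

set_option linter.unusedSectionVars false

noncomputable section

open IntermediateField Vale.Agent.P019P P025H746 P025H492 P025H373 Module Polynomial

namespace Vale.Agent.P027M.I

namespace Val

variable {k K : Type*} [Field k] [Field K] [Algebra k K] [CFF k K] {P : Plk k K} {T : K}

theorem aeval_mem (hT : T ∈ P.1) (q : k[X]) : aeval T q ∈ P.1 := by
  rw [aeval_eq_sum_range]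
  refine sum_mem fun j _ => ?_
  rw [Algebra.smul_def]
  exact mul_mem (P.2.1 _) (pow_mem hT _)

theorem vl_aeval (hT : T ∈ P.1) (q : k[X]) : vl P (aeval T q) = q.eval (vl P T) := by
  rw [aeval_eq_sum_range, eval_eq_sum_range, vl_sum']
  · refine Finset.sum_congr rfl fun j _ => ?_
    rw [vl_smul' _ (pow_mem hT _), vl_pow' hT]
  · intro j _
    rw [Algebra.smul_def]
    exact mul_mem (P.2.1 _) (pow_mem hT _)

variable {C F : Type} [NontriviallyNormedField C] [IsUltrametricDist C] [IsAlgClosed C] [Field F]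
  [Algebra C F] [CFF C F] {T : F}

theorem eval_mem {q : C[X]} (hq : gp q ≤ 1) {t : C} (ht : ‖t‖ ≤ 1) : q.eval t ∈ OC C := by
  rw [eval_eq_sum_range]
  exact sum_mem fun j _ => mul_mem (mem_OC.2 ((norm_coeff_le q j).trans hq))
    (pow_mem (mem_OC.2 ht) _)

theorem val_le (hT : Transcendental C T) {x : F} (hx : ∀ P : Plk C F, T ∈ P.1 → x ∈ P.1)
    {P : Plk C F} (hP : T ∈ P.1) (ht : ‖vl P T‖ ≤ 1) (h : ∀ w : WW C T, w.1 x ≤ 1) :
    ‖vl P x‖ ≤ 1 := by
  obtain ⟨-, hfd⟩ := finite_of_notMem (nc_of_transc hT)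
  obtain ⟨p, hp1, hp2, hp3⟩ := P025H458.exists_monic hT (P025H458.isIntegral_adjoin_of_places hx)
    fun w hw => h ⟨w, hw⟩
  refine mem_OC.1 (P025H458.mem_of_monic (OC C) (q := p.map (evalRingHom (vl P T)))
    (hp1.map _) (fun i => ?_) ?_)
  · rw [coeff_map]
    exact eval_mem (hp2 i) ht
  · rw [eval₂_eq_sum_range] at hp3
    have h1 : vl P (∑ i ∈ Finset.range (p.natDegree + 1), aeval T (p.coeff i) * x ^ i) = vl P 0 :=
      congrArg (vl P) hp3
    rw [vl_zero', vl_sum' _ _ fun i _ => mul_mem (aeval_mem hP _) (pow_mem (hx P hP) _)] at h1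
    rw [eval_map, eval₂_eq_sum_range, ← h1]
    refine Finset.sum_congr rfl fun i _ => ?_
    have h2 := vl_mul' (aeval_mem hP (p.coeff i)) (pow_mem (hx P hP) i)
    rw [vl_aeval hP, vl_pow' (hx P hP)] at h2
    exact h2.symm

theorem val_lt (hT : Transcendental C T) {x : F} (hx : ∀ P : Plk C F, T ∈ P.1 → x ∈ P.1)
    {P : Plk C F} (hP : T ∈ P.1) (ht : ‖vl P T‖ ≤ 1) (h : ∀ w : WW C T, w.1 x < 1) :
    ‖vl P x‖ < 1 := by
  obtain ⟨-, hfd⟩ := finite_of_notMem (nc_of_transc hT)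
  have : Nonempty (WW C T) := nonempty_overG hT
  obtain ⟨w₀, hw₀⟩ := Finite.exists_max fun w : WW C T => w.1 x
  obtain ⟨c, hc⟩ := exists_norm_eq w₀.2 x
  by_cases h0 : c = 0
  · rw [h0, norm_zero] at hc
    rw [w₀.1.av.eq_zero.1 hc.symm, vl_zero', norm_zero]
    exact zero_lt_one
  have hcn : 0 < ‖c‖ := norm_pos_iff.2 h0
  have h1 := val_le (x := c⁻¹ • x) hT (fun Q hQ => by
      rw [Algebra.smul_def]; exact mul_mem (Q.2.1 _) (hx Q hQ)) hP ht fun w => by
    rw [Algebra.smul_def, map_mul, w.1.ext', norm_inv, inv_mul_le_iff₀ hcn, mul_one, hc]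
    exact hw₀ w
  rw [vl_smul' _ (hx P hP), norm_mul, norm_inv, inv_mul_le_iff₀ hcn, mul_one, hc] at h1
  exact h1.trans_lt (h w₀)

end Val

theorem val : VAL := fun _ _ _ _ _ _ _ _ _ hT _ hx _ hP ht =>
  ⟨Val.val_le hT hx hP ht, Val.val_lt hT hx hP ht⟩

end Vale.Agent.P027M.I
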