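import Vale.Agent.P027M.I.Acl
import Vale.Agent.P027M.I.Cod0
import Vale.Agent.P027M.I.Cong
import Vale.Agent.P027M.I.Conn
import Vale.Agent.P027M.I.Cov
import Vale.Agent.P027M.I.Dec
import Vale.Agent.P027M.I.Dim
import Vale.Agent.P027M.I.Gr
import Vale.Agent.P027M.I.Half
import Vale.Agent.P027M.I.I2a
import Vale.Agent.P027M.I.Inf
import Vale.Agent.P027M.I.Lift
import Vale.Agent.P027M.I.N0
import Vale.Agent.P027M.I.N0a
import Vale.Agent.P027M.I.Node
import Vale.Agent.P027M.I.Pts
import Vale.Agent.P027M.I.Rhc
import Vale.Agent.P027M.I.Sepf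
import Vale.Agent.P027M.I.Side
import Vale.Agent.P027M.I.Trb
import Vale.Agent.P027M.I.Val

/-!
# P027 route M, block I: closed terms
-/

namespace Vale.Agent.P027M.I

theorem cod' : COD := cod0 dim
theorem acl' : ACL := acl cod' onto0
theorem conn' : CONN := conn val
theorem cong' : CONG := cong acl' conn'
theorem surj' : SURJ := surj cod' acl' conn'
theorem gr' : GR := gr surj'
theorem pts' : PTS := pts surj' onto0
theorem half' : HALF := half cod' onto0
theorem lift' : LIFT := lift trb sepf
theorem cov' : COV := cov dec trb lift' half' rhc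
theorem node' : NODE := node cov' acl' cong'
theorem i2a' : I2A := i2a node' pts' act
theorem inf' : INF := inf cod'
theorem n0a' : N0A := n0a pts'
theorem side' : SIDE := side surj'

end Vale.Agent.P027M.I
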