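import Vale.Agent.P027M.I.All1

/-!
# P027 route M, block I, row VAN2; the closed term for `N0`
-/

set_option linter.unusedSectionVars false

noncomputable section

open IntermediateField Vale.Agent.P019P P025H746 P025H492 Module

namespace Vale.Agent.P027M.I

namespace Van3

theorem count {σ : Type} [Fintype σ] (G : Setoid σ)
    (h2 : ∀ a b b', G a b → G a b' → b = a ∨ b' = a ∨ b = b') (A : Finset σ)
    (hA : ∀ a, a ∈ A ↔ ∃ b, b ≠ a ∧ G a b) :
    A.card + 2 * Nat.card (Quotient G) = 2 * Fintype.card σ := by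
  classical
  have f0 : Fintype.card σ =
      ∑ q : Quotient G, (Finset.univ.filter fun a => Quotient.mk G a = q).card :=
    Finset.card_eq_sum_card_fiberwise fun a _ => Finset.mem_univ _
  have f1 : A.card = ∑ q : Quotient G, (A.filter fun a => Quotient.mk G a = q).card :=
    Finset.card_eq_sum_card_fiberwise fun a _ => Finset.mem_univ _
  have f2 : ∑ _q : Quotient G, 2 = 2 * Fintype.card (Quotient G) := by simp [mul_comm]
  rw [Nat.card_eq_fintype_card, f0, f1, ← f2, Finset.mul_sum, ← Finset.sum_add_distrib]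
  refine Finset.sum_congr rfl fun q _ => ?_
  obtain ⟨a, rfl⟩ := Quotient.mk_surjective q
  have e0 : ∀ B : Finset σ, (Finset.univ.filter fun x => Quotient.mk G x = Quotient.mk G a) = B →
      (A.filter fun x => Quotient.mk G x = Quotient.mk G a) = B.filter (· ∈ A) := by
    rintro _ rfl
    ext x
    simp only [Finset.mem_filter, Finset.mem_univ, true_and]
    exact and_comm
  by_cases h : ∃ b, b ≠ a ∧ G a b
  · obtain ⟨b, hb, hab⟩ := h
    have e1 : (Finset.univ.filter fun x => Quotient.mk G x = Quotient.mk G a) = {a, b} := by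
      ext x
      simp only [Finset.mem_filter, Finset.mem_univ, true_and, Finset.mem_insert,
        Finset.mem_singleton, Quotient.eq]
      refine ⟨fun hx => ?_, ?_⟩
      · rcases h2 a x b (G.symm hx) hab with e | e | e
        exacts [Or.inl e, absurd e hb, Or.inr e]
      · rintro (rfl | rfl)
        exacts [G.refl _, G.symm hab]
    have e2 : ({a, b} : Finset σ).filter (· ∈ A) = {a, b} := by
      rw [Finset.filter_eq_self]
      intro x hx
      rw [hA]
      rcases Finset.mem_insert.1 hx with rfl | hx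
      · exact ⟨b, hb, hab⟩
      · rw [Finset.mem_singleton.1 hx]; exact ⟨a, hb.symm, G.symm hab⟩
    rw [e0 _ e1, e1, e2, Finset.card_pair hb.symm]
    rfl
  · have e1 : (Finset.univ.filter fun x => Quotient.mk G x = Quotient.mk G a) = {a} := by
      ext x
      simp only [Finset.mem_filter, Finset.mem_univ, true_and, Finset.mem_singleton, Quotient.eq]
      exact ⟨fun hx => by_contra fun e => h ⟨x, e, G.symm hx⟩, by rintro rfl; exact G.refl _⟩
    have e2 : ({a} : Finset σ).filter (· ∈ A) = ∅ := by
      rw [Finset.filter_eq_empty_iff]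
      intro x hx
      rw [Finset.mem_singleton.1 hx, hA]
      exact h
    rw [e0 _ e1, e1, e2, Finset.card_empty, Finset.card_singleton]
    rfl

theorem core {k V σ : Type} [Field k] [AddCommGroup V] [Module k V] [Fintype σ]
    (P E : Submodule k V) [FiniteDimensional k P] (hE : E ≤ P) (ev : P →ₗ[k] (σ → k))
    (hs : Function.Surjective ev) (G : Setoid σ)
    (hc : ∀ y : P, (y : V) ∈ E ↔ ∀ a b, G a b → ev y a = ev y b) :
    finrank k P + Nat.card (Quotient G) = finrank k E + Fintype.card σ := by
  classical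
  rw [Nat.card_eq_fintype_card]
  let ι : (Quotient G → k) →ₗ[k] (σ → k) := LinearMap.funLeft k k (Quotient.mk G)
  have ιi : Function.Injective ι :=
    LinearMap.funLeft_injective_of_surjective k k _ Quotient.mk_surjective
  have hW : ∀ f : σ → k, (∀ a b, G a b → f a = f b) ↔ f ∈ LinearMap.range ι := fun f =>
    ⟨fun hf => ⟨Quotient.lift f hf, rfl⟩, by
      rintro ⟨g, rfl⟩ a b h
      exact congrArg g (Quotient.sound h)⟩
  have d1 : finrank k (LinearMap.range ι) = Fintype.card (Quotient G) := by
    rw [LinearMap.finrank_range_of_inj ιi, Module.finrank_fintype_fun_eq_card]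
  let pr := (LinearMap.range ι).mkQ ∘ₗ ev
  have ps : LinearMap.range pr = ⊤ :=
    LinearMap.range_eq_top.2 ((Submodule.mkQ_surjective _).comp hs)
  have d2 := LinearMap.finrank_range_add_finrank_ker pr
  rw [ps, finrank_top] at d2
  have d3 := Submodule.finrank_quotient_add_finrank (LinearMap.range ι)
  rw [d1, Module.finrank_fintype_fun_eq_card] at d3
  have e : E.comap P.subtype = LinearMap.ker pr := Submodule.ext fun y =>
    (hc y).trans ((hW _).trans (Submodule.Quotient.mk_eq_zero _).symm)
  have d4 : finrank k (E.comap P.subtype) = finrank k E :=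
    (Submodule.comapSubtypeEquivOfLe hE).finrank_eq
  rw [e] at d4
  omega

end Van3

open Acl in
theorem van3 (cod : COD) (onto : ONTO) (sep : SEPF) : VAN2 := by
  classical
  intro C F _ _ _ _ _ _ T _ hF S ⟨n₀, h₀⟩ h2
  obtain ⟨n₁, h₁⟩ := cod C F T hF
  obtain ⟨n₂, h₂⟩ := onto C F T S
  choose f hf hv using fun a : S => sep C F T S (fun b => if Glue a.1 b then 1 else 0)
    fun b _ b' _ h => by
      have h3 : Glue a.1 b ↔ Glue a.1 b' := ⟨fun h4 => h4.trans h, fun h4 => h4.trans h.symm⟩
      simp only [h3]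
  choose m hm using fun a : S => (hf a).exists_En
  obtain ⟨n, hn⟩ : ∃ n, n₀ ≤ n ∧ n₁ ≤ n ∧ n₂ ≤ n ∧ ∀ a, m a ≤ n :=
    ⟨n₀ + n₁ + n₂ + ∑ a, m a, by omega, by omega, by omega, fun a =>
      (Finset.single_le_sum (fun _ _ => Nat.zero_le _) (Finset.mem_univ a)).trans (by omega)⟩
  have hm' : ∀ a, redv C T (f a) ∈ En C T n := fun a => En_mono (hn.2.2.2 a) (hm a)
  have key := Van3.core (Pn C T n) (En C T n) (En_le n) (evS S n) (fun φ => by
      obtain ⟨y, hy, e⟩ := h₂ n hn.2.2.1 fun b => if h : b ∈ S then φ ⟨b, h⟩ else 0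
      exact ⟨⟨y, hy⟩, funext fun b => (e b.1 b.2).trans (dif_pos b.2)⟩) (gl S) fun y =>
    ⟨fun hy a b h => En_glue hy h, fun hy => by
      let z : Pn C T n := ∑ q : Quotient (gl S),
        evS S n y q.out • (⟨redv C T (f q.out), En_le n (hm' _)⟩ : Pn C T n)
      have hz : (z : PP C T) ∈ En C T n := by
        simp only [z, Submodule.coe_sum, Submodule.coe_smul]
        exact Submodule.sum_mem _ fun q _ => Submodule.smul_mem _ _ (hm' _)
      have h3 : ((y - z : Pn C T n) : PP C T) ∈ En C T n := h₀ n hn.1 _ (y - z).2 fun b hb => by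
        change evS S n (y - z) ⟨b, hb⟩ = 0
        rw [map_sub, Pi.sub_apply, sub_eq_zero, map_sum, Finset.sum_apply,
          Finset.sum_eq_single (Quotient.mk (gl S) ⟨b, hb⟩)]
        · have h4 : (gl S) (Quotient.mk (gl S) ⟨b, hb⟩).out ⟨b, hb⟩ := Quotient.mk_out _
          rw [map_smul, Pi.smul_apply, smul_eq_mul, hy _ _ h4]
          change _ = _ * b.ev (redv C T (f _))
          rw [hv _ b hb, if_pos (show Glue _ b from h4), mul_one]
        · intro q _ hq
          rw [map_smul, Pi.smul_apply, smul_eq_mul]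
          change _ * b.ev (redv C T (f _)) = 0
          rw [hv _ b hb, if_neg, mul_zero]
          intro h4
          exact hq (q.out_eq.symm.trans (Quotient.sound (s := gl S) h4))
        · intro h
          exact absurd (Finset.mem_univ _) h
      have h5 := add_mem h3 hz
      rwa [Submodule.coe_sub, sub_add_cancel] at h5⟩
  have cnt := Van3.count (gl S) (fun a b b' h h' => by
    rcases h2 a.1 a.2 b.1 b.2 b'.1 b'.2 h h' with e | e | e
    exacts [Or.inl (Subtype.ext e), Or.inr (Or.inl (Subtype.ext e)),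
      Or.inr (Or.inr (Subtype.ext e))]) (Finset.univ.filter fun a : S => ∃ b, b ≠ a ∧ gl S a b)
    fun a => by rw [Finset.mem_filter]; exact and_iff_right (Finset.mem_univ _)
  refine ⟨(Finset.univ.filter fun a : S => ∃ b, b ≠ a ∧ gl S a b).map
    (Function.Embedding.subtype _), ?_, fun b hb => ?_⟩
  · rw [Finset.card_map, ← h₁ n hn.2.1]
    omega
  · obtain ⟨a, ha, rfl⟩ := Finset.mem_map.1 hb
    obtain ⟨a', h3, h4⟩ := (Finset.mem_filter.1 ha).2
    exact ⟨a'.1, Finset.mem_map.2 ⟨a', Finset.mem_filter.2 ⟨Finset.mem_univ _, a, h3.symm,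
      (gl S).symm h4⟩, rfl⟩, fun e => h3 (Subtype.ext e), h4⟩

theorem n0' : N0 := n0_of (van3 cod' onto0 sepf)

end Vale.Agent.P027M.I
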