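import Vale.Agent.P027M.I.N0a

/-!
# P027 route M, block I: Kronecker data, the invariance of the first component is automatic
-/

set_option linter.unusedSectionVars false

noncomputable section

open IntermediateField Vale.Agent.P019P P025H746 P025H492 Module

namespace Vale.Agent.P027M.I

/-- Kronecker data without the invariance under `W ∘ W` -/
structure Kr0 (C : Type) [NontriviallyNormedField C] [IsUltrametricDist C] [IsAlgClosed C]
    {K' K₀ : Type} [Field K'] [Algebra C K'] [CFF C K'] [Field K₀] [Algebra C K₀] [CFF C K₀]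
    [Algebra K' K₀] [IsScalarTower C K' K₀] (T : K') [FiniteDimensional C⟮T⟯ K'] (q : ℕ)
    (W : K₀ ≃ₐ[C] K₀) (u' : WW C T) (u : NV C K₀) : Prop where
  prime : q.Prime
  chr : (q : kC C) = 0
  full : Full C T
  good : cd C T = 0
  one : ∀ v : WW C T, v = u'
  etl : Etl (kC C) (u'.1.red T)
  ext : ∀ y, u (algebraMap K' K₀ y) = u'.1 y
  deg : finrank K' K₀ ≤ q + 1
  wwT : W (W (algebraMap K' K₀ T)) = algebraMap K' K₀ T
  kro : u (W (algebraMap K' K₀ T) - algebraMap K' K₀ T ^ q) < 1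
  zer : ∀ x : K₀, x = algebraMap K' K₀ T ∨ x = 1 - algebraMap K' K₀ T → ∀ P : Plk C K₀,
    0 < ord P x → ord P x ≤ q * ord P (W x)
  pol : ∀ P : Plk C K₀, ord P (algebraMap K' K₀ T) < 0 →
    q * ord P (W (algebraMap K' K₀ T)) ≤ ord P (algebraMap K' K₀ T)

variable {C K' K₀ : Type} [NontriviallyNormedField C] [IsUltrametricDist C] [IsAlgClosed C]
  [Field K'] [Algebra C K'] [CFF C K'] [Field K₀] [Algebra C K₀] [CFF C K₀] [Algebra K' K₀]
  [IsScalarTower C K' K₀] [FiniteDimensional K' K₀] {T : K'} [FiniteDimensional C⟮T⟯ K'] {q : ℕ}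
  {W : K₀ ≃ₐ[C] K₀} {u' : WW C T} {u : NV C K₀}

/-- a semilinear automorphism which fixes `T` and `W T` keeps the first component -/
theorem Kr0.fix (h : Kr0 C T q W u' u) {D : K₀ ≃+* K₀} {s : C ≃+* C} (hD : Semi C D s)
    (hT : D (algebraMap K' K₀ T) = algebraMap K' K₀ T)
    (hWT : D (W (algebraMap K' K₀ T)) = W (algebraMap K' K₀ T)) (y : K₀) : u (D y) = u y := by
  have : FiniteDimensional C⟮algebraMap K' K₀ T⟯ K₀ := finite_adjoin_map
  have : NVExt u'.1 u := ⟨h.ext⟩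
  have q2 := h.prime.two_le
  have h0 : u.OverG (algebraMap K' K₀ T) := NVExt.overG.2 u'.2
  have : CFF (kC C) (kap u) := h0.cff
  have p1 : u (algebraMap K' K₀ T ^ q) ≤ 1 := NV.pow_le_one' h0.apply_T.le q
  have p2 : u (W (algebraMap K' K₀ T)) ≤ 1 := by
    have := NV.add_le h.kro.le p1
    rwa [sub_add_cancel] at this
  have p3 : u.red (W (algebraMap K' K₀ T)) = u.red (algebraMap K' K₀ T) ^ q := by
    rw [(red_eq_iff p2 p1).2 h.kro, NV.red_pow h0.apply_T.le]
  have hW : u.OverG (W (algebraMap K' K₀ T)) :=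
    N0a.overG_of p2 (by rw [p3]; exact h0.transc_red.pow (by omega))
  let u₁ : NV C K₀ := pullNV (W : K₀ →+* K₀) (s := RingEquiv.refl C) W.commutes (fun _ => rfl) u
  have h1 : u₁.OverG (algebraMap K' K₀ T) := pullNV_overG _ _ _ hW
  have h1W : u₁.OverG (W (algebraMap K' K₀ T)) :=
    pullNV_overG _ _ _ (show u.OverG (W (W (algebraMap K' K₀ T))) by rw [h.wwT]; exact h0)
  let v₀ : WW C (algebraMap K' K₀ T) := ⟨u, h0⟩
  let v₁ : WW C (algebraMap K' K₀ T) := ⟨u₁, h1⟩
  let f : WW C (algebraMap K' K₀ T) → ℕ := fun w =>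
    finrank (kC C)⟮w.1.red (algebraMap K' K₀ T)⟯ (kap w.1)
  have pos : ∀ w, 0 < f w := fun w => by
    have := w.2.finite
    exact Module.finrank_pos
  have f1 : f v₁ = q * f v₀ := by
    have hh : ∀ y, u (W y) = u₁ y := fun _ => rfl
    have := N0a.fr_equiv (N0a.resE W hh) (u₁.red (algebraMap K' K₀ T))
    rw [N0a.resE_red W hh, p3, N0a.fr_pow h0.transc_red (by omega)] at this
    exact this
  have ne : v₀ ≠ v₁ := fun e => by
    have a1 := pos v₀
    have a2 : 2 * f v₀ ≤ q * f v₀ := Nat.mul_le_mul_right _ q2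
    rw [← e] at f1
    omega
  have f0 : finrank (kC C)⟮u'.1.red T⟯ (kap u'.1) * finrank (kap u'.1) (kap u) = f v₀ :=
    finrank_mul_resdeg u'.2.apply_T.le
  have f' : finrank (kC C)⟮u'.1.red T⟯ (kap u'.1) = finrank C⟮T⟯ K' := by
    rw [← h.full, Finset.sum_eq_single u' (fun w _ hw => absurd (h.one w) hw)
      fun hw => absurd (Finset.mem_univ _) hw]
  have fN : finrank C⟮algebraMap K' K₀ T⟯ K₀ ≤ finrank C⟮T⟯ K' * (q + 1) := by
    rw [← finrank_adjoin_map, ← Module.finrank_mul_finrank C⟮T⟯ K' K₀]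
    exact Nat.mul_le_mul_left _ h.deg
  have d0 : 0 < finrank (kap u'.1) (kap u) := by
    refine Nat.pos_of_ne_zero fun e => ?_
    rw [e, mul_zero] at f0
    exact (pos v₀).ne f0
  have f2 : finrank C⟮T⟯ K' ≤ f v₀ := by
    rw [← f0, f']; exact Nat.le_mul_of_pos_right _ d0
  have f3 : f v₀ + f v₁ = f v₀ * (q + 1) := by rw [f1]; ring
  obtain ⟨all, full, f4⟩ := N0a.count f v₀ v₁ ne pos
    (sum_finrank_le (T := algebraMap K' K₀ T) Subtype.val Subtype.val_injective fun w => w.2)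
    (fN.trans (by rw [f3]; exact Nat.mul_le_mul_right _ f2))
  have hv : (pullNV (D : K₀ →+* K₀) hD.1 hD.2 u).OverG (algebraMap K' K₀ T) :=
    pullNV_overG _ _ _ (show u.OverG (D (algebraMap K' K₀ T)) by rw [hT]; exact h0)
  rcases all ⟨_, hv⟩ with e | e
  · exact congrArg (fun w : WW C (algebraMap K' K₀ T) => w.1 y) e
  · exfalso
    have e1 : u (D (W (algebraMap K' K₀ T) - algebraMap K' K₀ T ^ q)) =
        u (W (W (algebraMap K' K₀ T) - algebraMap K' K₀ T ^ q)) :=
      congrArg (fun w : WW C (algebraMap K' K₀ T) =>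
        w.1 (W (algebraMap K' K₀ T) - algebraMap K' K₀ T ^ q)) e
    rw [map_sub D, map_pow D, hT, hWT, map_sub W, map_pow W, h.wwT] at e1
    have e2 := (red_eq_iff h0.apply_T.le (NV.pow_le_one' p2 q)).2 (e1 ▸ h.kro)
    rw [NV.red_pow p2, p3, ← pow_mul] at e2
    have e3 : (Polynomial.X : Polynomial (kC C)) = Polynomial.X ^ (q * q) :=
      transcendental_iff_injective.1 h0.transc_red (by simpa using e2)
    have e4 := congrArg Polynomial.natDegree e3
    rw [Polynomial.natDegree_X, Polynomial.natDegree_X_pow] at e4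
    nlinarith

theorem Kr0.kr (h : Kr0 C T q W u' u) : Kr C T q W u' u :=
  ⟨h.prime, h.chr, h.full, h.good, h.one, h.etl, h.ext, h.deg, h.wwT,
    h.fix (Semi.of_alg (W.trans W)) h.wwT (congrArg W h.wwT), h.kro, h.zer, h.pol⟩

theorem Kr.kr0 (h : Kr C T q W u' u) : Kr0 C T q W u' u :=
  ⟨h.prime, h.chr, h.full, h.good, h.one, h.etl, h.ext, h.deg, h.wwT, h.kro, h.zer, h.pol⟩

end Vale.Agent.P027M.I
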