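import Vale.Agent.P027M.I.Defs

/-!
# P027 route M, block I: the rows of the abstract part (IGA)

Paper: notes/P027/I.md section 1.
-/

set_option linter.unusedSectionVars false

noncomputable section

open IntermediateField Vale.Agent.P019P P025H746 P025H492 Module

namespace Vale.Agent.P027M.I

/-- orthonormal bases: reduction keeps the dimension -/
def DIM : Prop :=
  ∀ (C F : Type) [NontriviallyNormedField C] [IsUltrametricDist C] [IsAlgClosed C] [Field F]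
    [Algebra C F] (T : F) [FiniteDimensional C⟮T⟯ F], Full C T →
    ∀ V : Submodule C F, FiniteDimensional C V →
      FiniteDimensional (kC C) (Rd C T V) ∧ finrank (kC C) (Rd C T V) = finrank C V

/-- the codimension of `En` in `Pn` -/
def COD : Prop :=
  ∀ (C F : Type) [NontriviallyNormedField C] [IsUltrametricDist C] [IsAlgClosed C] [Field F]
    [Algebra C F] [CFF C F] (T : F) [FiniteDimensional C⟮T⟯ F], Full C T →
    ∃ n₀ : ℕ, ∀ n, n₀ ≤ n →
      (finrank (kC C) (Pn C T n) : ℤ) - finrank (kC C) (En C T n) = cd C T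

/-- values can be prescribed at finitely many branches -/
def ONTO : Prop :=
  ∀ (C F : Type) [NontriviallyNormedField C] [IsUltrametricDist C] [IsAlgClosed C] [Field F]
    [Algebra C F] (T : F) [FiniteDimensional C⟮T⟯ F] (S : Finset (Br C T)),
    ∃ n₀ : ℕ, ∀ n, n₀ ≤ n → ∀ φ : Br C T → kC C, ∃ y ∈ Pn C T n, ∀ b ∈ S, b.ev y = φ b

/-- functions constant on classes are values of global functions -/
def SEPF : Prop :=
  ∀ (C F : Type) [NontriviallyNormedField C] [IsUltrametricDist C] [IsAlgClosed C] [Field F]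
    [Algebra C F] [CFF C F] (T : F) [FiniteDimensional C⟮T⟯ F] (S : Finset (Br C T))
    (φ : Br C T → kC C), (∀ b ∈ S, ∀ b' ∈ S, Glue b b' → φ b = φ b') →
    ∃ f, BB C T f ∧ ∀ b ∈ S, b.ev (redv C T f) = φ b

/-- nodal curves: classes are pairs, and `En` is cut out by the pairs -/
def ACL : Prop :=
  ∀ (C F : Type) [NontriviallyNormedField C] [IsUltrametricDist C] [IsAlgClosed C] [Field F]
    [Algebra C F] [CFF C F] (T : F) [FiniteDimensional C⟮T⟯ F], Full C T →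
    ∀ S : Finset (Br C T), Nodal C T S →
      (∀ b ∈ S, ∀ b' ∈ S, ∀ b'' ∈ S, b' ≠ b → b'' ≠ b → Glue b b' → Glue b b'' → b' = b'') ∧
      ∃ n₀ : ℕ, ∀ n, n₀ ≤ n → ∀ y ∈ Pn C T n,
        (∀ b ∈ S, ∀ b' ∈ S, Glue b b' → b.ev y = b'.ev y) → y ∈ En C T n

/-- criterion for nodal -/
def VAN : Prop :=
  ∀ (C F : Type) [NontriviallyNormedField C] [IsUltrametricDist C] [IsAlgClosed C] [Field F]
    [Algebra C F] [CFF C F] (T : F) [FiniteDimensional C⟮T⟯ F], Full C T →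
    ∀ S : Finset (Br C T), (S.card : ℤ) = 2 * cd C T →
      (∃ n₀ : ℕ, ∀ n, n₀ ≤ n → ∀ y ∈ Pn C T n, (∀ b ∈ S, b.ev y = 0) → y ∈ En C T n) →
      (∀ b ∈ S, ∀ b' ∈ S, ∀ b'' ∈ S, Glue b b' → Glue b b'' → b' = b ∨ b'' = b ∨ b' = b'') →
      Nodal C T S

/-- the special fibre is connected -/
def CONN : Prop :=
  ∀ (C F : Type) [NontriviallyNormedField C] [IsUltrametricDist C] [IsAlgClosed C] [Field F]
    [Algebra C F] [CFF C F] (T : F) [FiniteDimensional C⟮T⟯ F] (A : Set (WW C T)) (n : ℕ),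
    ind C T A ∈ En C T n → redv C T (T ^ n) * ind C T A ∈ En C T n → A = ∅ ∨ A = Set.univ

/-- connectedness of the graph of a nodal curve -/
def CONG : Prop :=
  ∀ (C F : Type) [NontriviallyNormedField C] [IsUltrametricDist C] [IsAlgClosed C] [Field F]
    [Algebra C F] [CFF C F] (T : F) [FiniteDimensional C⟮T⟯ F], Full C T →
    ∀ S : Finset (Br C T), Nodal C T S → ∀ A : Set (WW C T),
      (∀ b ∈ S, ∀ b' ∈ S, Glue b b' → b.w ∈ A → b'.w ∈ A) → A = ∅ ∨ A = Set.univ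

/-- good reduction from the count of the points over the branch values -/
def GR : Prop :=
  ∀ (C F : Type) [NontriviallyNormedField C] [IsUltrametricDist C] [IsAlgClosed C] [CharZero C]
    [Field F] [Algebra C F] [CFF C F] (T : F) [FiniteDimensional C⟮T⟯ F], Full C T →
    (∀ w : WW C T, Algebra.IsSeparable (kC C)⟮w.1.red T⟯ (kap w.1)) →
    ∀ S : Finset C, (∀ s ∈ S, ‖s‖ ≤ 1) → (∀ s ∈ S, ∀ s' ∈ S, cred s = cred s' → s = s') →
      (∀ P : Plk C F, ord P T < 0 → ord P T = -1) →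
      (∀ c, c ∉ S → ∀ P : Plk C F, 0 < ord P (T - algebraMap C F c) →
        ord P (T - algebraMap C F c) = 1) →
      (∑ s ∈ S, ∑ w : WW C T, Set.ncard {x : Plk (kC C) (kap w.1) |
          0 < ord x (w.1.red T - algebraMap (kC C) (kap w.1) (cred s))} ≤
        ∑ s ∈ S, Set.ncard {P : Plk C F | 0 < ord P (T - algebraMap C F s)}) →
      cd C T = 0 ∧ Subsingleton (WW C T) ∧
        ∀ (w : WW C T) (c : kC C), (∀ s ∈ S, c ≠ cred s) → ∀ x : Plk (kC C) (kap w.1),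
          0 < ord x (w.1.red T - algebraMap (kC C) (kap w.1) c) →
          ord x (w.1.red T - algebraMap (kC C) (kap w.1) c) = 1

/-- transport of branches -/
def ACT : Prop :=
  ∀ (C F : Type) [NontriviallyNormedField C] [IsUltrametricDist C] [IsAlgClosed C] [Field F]
    [Algebra C F] [CFF C F] (T : F) [FiniteDimensional C⟮T⟯ F] (g : F ≃+* F) (s : C ≃+* C),
    Semi C g s → g T = T →
      (∀ f, BB C T (g f) ↔ BB C T f) ∧
      (∀ b : Br C T, ∃ b' : Br C T, Tw (g : F →+* F) b b') ∧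
      (∀ b b' : Br C T, Tw (g : F →+* F) b b' → ∀ f, BB C T f → ∀ c : C, ‖c‖ ≤ 1 →
        (b'.ev (redv C T (g f)) = cred (s c) ↔ b.ev (redv C T f) = cred c)) ∧
      ∀ b₁ b₁' b₂ b₂' : Br C T, Tw (g : F →+* F) b₁ b₁' → Tw (g : F →+* F) b₂ b₂' →
        (Glue b₁ b₂ ↔ Glue b₁' b₂') ∧ (b₁ = b₂ ↔ b₁' = b₂')

/-- a subfield with good reduction separates the branches of one component -/
def PTS : Prop :=
  ∀ (C K' K : Type) [NontriviallyNormedField C] [IsUltrametricDist C] [IsAlgClosed C] [Field K']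
    [Algebra C K'] [CFF C K'] [Field K] [Algebra C K] [CFF C K] (T' : K') (T : K)
    [FiniteDimensional C⟮T'⟯ K'] [FiniteDimensional C⟮T⟯ K] (φ : K' →ₐ[C] K),
    Full C T' → cd C T' = 0 → (∀ w : WW C T, w.1.OverG (φ T')) →
    (∀ P : Plk C K, T ∈ P.1 → φ T' ∈ P.1) →
      (∀ f, BB C T' f → BB C T (φ f)) ∧
      ∀ b b' : Br C T, b.w = b'.w →
        (∀ y, b.w.1 y ≤ 1 → ∃ y', b.w.1 (y - φ y') < 1) →
        (∀ f, BB C T' f → (b.ev (redv C T (φ f)) = 0 ↔ b'.ev (redv C T (φ f)) = 0)) → b = b'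

/-- unramified Galois covers of order prime to the residue characteristic, with cyclic
decomposition groups, of nodal curves are nodal -/
def COV : Prop :=
  ∀ (C F L : Type) [NontriviallyNormedField C] [IsUltrametricDist C] [IsAlgClosed C] [CharZero C]
    [Field F] [Algebra C F] [CFF C F] [Field L] [Algebra C L] [CFF C L] [Algebra F L]
    [IsScalarTower C F L] [FiniteDimensional F L] [IsGalois F L] (T : F)
    [FiniteDimensional C⟮T⟯ F] [FiniteDimensional C⟮algebraMap F L T⟯ L], Full C T →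
    ∀ S : Finset (Br C T), Nodal C T S → IsUnr C F L → ((finrank F L : ℕ) : kC C) ≠ 0 →
    (∀ v : WW C (algebraMap F L T), ∃ d : L ≃ₐ[F] L, ∀ g : L ≃ₐ[F] L,
      (∀ y, v.1 (g y) = v.1 y) ↔ g ∈ Subgroup.zpowers d) →
      Full C (algebraMap F L T) ∧
      (∀ (v : WW C (algebraMap F L T)) (y : L), v.1 y ≤ 1 →
        (∀ g : L ≃ₐ[F] L, (∀ y, v.1 (g y) = v.1 y) → v.1 (g y - y) < 1) →
        ∃ y₀ : F, v.1 (y - algebraMap F L y₀) < 1) ∧
      ∃ S' : Finset (Br C (algebraMap F L T)), Nodal C (algebraMap F L T) S' ∧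
        ∀ b', b' ∈ S' ↔ ∃ b ∈ S, Tw (algebraMap F L) b b'

/-- Hurwitz inequality for a cyclic cover of degree prime to the characteristic -/
def RHC : Prop :=
  ∀ (k F₀ F₁ : Type) [Field k] [Field F₀] [Field F₁] [Algebra k F₀] [Algebra k F₁] [Algebra F₀ F₁]
    [IsScalarTower k F₀ F₁] [CFF k F₀] [CFF k F₁] [FiniteDimensional F₀ F₁] [IsGalois F₀ F₁]
    (S : Finset (Plk k F₀)), IsCyclic (F₁ ≃ₐ[F₀] F₁) → ((finrank F₀ F₁ : ℕ) : k) ≠ 0 →
    (finrank F₀ F₁ : ℤ) * (2 * gen k F₀ - 2) +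
      ∑ x ∈ S, ((finrank F₀ F₁ : ℤ) - Set.ncard {y : Plk k F₁ | down F₀ y = x}) ≤ 2 * gen k F₁ - 2

/-- values at integral points -/
def VAL : Prop :=
  ∀ (C F : Type) [NontriviallyNormedField C] [IsUltrametricDist C] [IsAlgClosed C] [Field F]
    [Algebra C F] [CFF C F] (T : F), Transcendental C T → ∀ x : F,
    (∀ P : Plk C F, T ∈ P.1 → x ∈ P.1) → ∀ P : Plk C F, T ∈ P.1 → ‖vl P T‖ ≤ 1 →
      ((∀ w : WW C T, w.1 x ≤ 1) → ‖vl P x‖ ≤ 1) ∧ ((∀ w : WW C T, w.1 x < 1) → ‖vl P x‖ < 1)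

/-- no defect: one component, and reduction of Riemann-Roch spaces is onto -/
def SURJ : Prop :=
  ∀ (C F : Type) [NontriviallyNormedField C] [IsUltrametricDist C] [IsAlgClosed C] [Field F]
    [Algebra C F] [CFF C F] (T : F) [FiniteDimensional C⟮T⟯ F], Full C T →
    0 ≤ cd C T ∧ (cd C T ≤ 0 → Subsingleton (WW C T) ∧
      ∃ n₀ : ℕ, ∀ n, n₀ ≤ n → Pn C T n ≤ En C T n)

/-- an automorphism fixing the nodal branches acts on the toric part by the cyclotomic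
character -/
def NODE : Prop :=
  ∀ (C F : Type) [NontriviallyNormedField C] [IsUltrametricDist C] [IsAlgClosed C] [CharZero C]
    [Field F] [Algebra C F] [CFF C F] (T : F) [FiniteDimensional C⟮T⟯ F], Full C T →
    ∀ S : Finset (Br C T), Nodal C T S → ∀ (m c : ℕ) (g : F ≃+* F) (s : C ≃+* C),
    (m : kC C) ≠ 0 → Semi C g s → g T = T →
    (∀ b ∈ S, Tw (g : F →+* F) b b) → (∀ μ : C, μ ^ m = 1 → s μ = μ ^ c) →
    ∀ f : F, (∀ P : Plk C F, (m : ℤ) ∣ ord P f) → (∀ w : WW C T, Triv m w.1 f) →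
      ∃ z : F, z ≠ 0 ∧ g f = f ^ c * z ^ m

/-- good reduction: reduction is injective on Kummer classes -/
def KEY : Prop :=
  ∀ (C F : Type) [NontriviallyNormedField C] [IsUltrametricDist C] [IsAlgClosed C] [CharZero C]
    [Field F] [Algebra C F] [CFF C F] (T : F) [FiniteDimensional C⟮T⟯ F], Full C T → cd C T = 0 →
    ∀ m : ℕ, (m : kC C) ≠ 0 → ∀ f : F, (∀ P : Plk C F, (m : ℤ) ∣ ord P f) →
      (∀ w : WW C T, Triv m w.1 f) → ∃ z : F, f = z ^ m

/-- Frobenius on the new part (I2 in abstract form) -/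
def I2A : Prop :=
  ∀ (C K' K₀ : Type) [NontriviallyNormedField C] [IsUltrametricDist C] [IsAlgClosed C] [CharZero C]
    [Field K'] [Algebra C K'] [CFF C K'] [Field K₀] [Algebra C K₀] [CFF C K₀] [Algebra K' K₀]
    [IsScalarTower C K' K₀] [FiniteDimensional K' K₀] (T : K') [FiniteDimensional C⟮T⟯ K']
    [FiniteDimensional C⟮algebraMap K' K₀ T⟯ K₀] (u : Fin 2 → WW C (algebraMap K' K₀ T))
    (S : Finset (Br C (algebraMap K' K₀ T))) (m q : ℕ) (W Dm : K₀ ≃ₐ[C] K₀) (D' : K' ≃ₐ[C] K')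
    (φ : K₀ ≃+* K₀) (φ' : K' ≃+* K') (s : C ≃+* C),
    Full C T → cd C T = 0 → Full C (algebraMap K' K₀ T) → Nodal C (algebraMap K' K₀ T) S →
    (∀ v, ∃ i, v = u i) →
    (∀ b b' : Br C (algebraMap K' K₀ T), b.w = b'.w → Glue b b' → b = b') →
    (m : kC C) ≠ 0 → q ≠ 0 → Semi C φ s → (∀ μ : C, μ ^ m = 1 → s μ = μ ^ q) →
    (∀ y, φ (algebraMap K' K₀ y) = algebraMap K' K₀ (φ' y)) → φ' T = T →
    (∀ y, Dm (algebraMap K' K₀ y) = algebraMap K' K₀ (D' y)) → D' T = T →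
    (∀ y, W (W (Dm y)) = y) → (∀ y, φ (W y) = W (φ y)) → (∀ y, φ (Dm y) = Dm (φ y)) →
    (∀ y, (u 1).1 y = (u 0).1 (W y)) → (∀ y, (u 0).1 (φ y) = (u 0).1 y) →
    (∀ y, (u 0).1 (Dm y) = (u 0).1 y) →
    (∀ y, (u 0).1 y ≤ 1 → ∃ y', (u 0).1 (y - algebraMap K' K₀ y') < 1) →
    (∀ P : Plk C K₀, algebraMap K' K₀ T ∈ P.1 ↔ W (algebraMap K' K₀ T) ∈ P.1) →
    (∀ f : K', (u 0).1 (algebraMap K' K₀ f) ≤ 1 →
      (u 0).1 (φ (W (algebraMap K' K₀ f)) - algebraMap K' K₀ f ^ q) < 1) →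
    (∀ h : K₀, (u 0).1 h = 1 → (u 0).1 (algebraMap K' K₀ (Algebra.norm K' (W.symm h)) /
      (W.symm h * φ h) - 1) < 1) →
    ∀ h : K₀, h ≠ 0 → (∀ P : Plk C K₀, (m : ℤ) ∣ ord P h) →
      (∃ z : K', Algebra.norm K' h = z ^ m) → (∃ z : K', Algebra.norm K' (W h) = z ^ m) →
      ∀ A : K₀, A = φ (φ h) / Dm h → ∃ z : K₀, z ≠ 0 ∧ φ (φ A) = Dm A ^ q ^ 2 * z ^ m

end Vale.Agent.P027M.I
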