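import Vale.Agent.P027M.I.Lift
import Vale.Agent.P027M.I.I2a

/-!
# P027 route M, block I, row I1B: inertia on a tame cyclic cover of a nodal curve
-/

set_option linter.unusedSectionVars false

noncomputable section

open IntermediateField Vale.Agent.P019P P025H746 P025H492 Module

namespace Vale.Agent.P027M.I

namespace I1b

variable {C : Type} [NontriviallyNormedField C] [IsUltrametricDist C] [IsAlgClosed C]

section one

variable {K : Type} [Field K] [Algebra C K] {T : K} [FiniteDimensional C⟮T⟯ K]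

/-- an automorphism which is trivial on the residue field has trivial `g f / f` -/
theorem triv_div {g : K ≃+* K} {c : C ≃+* C} (h : Semi C g c) (v : WW C T)
    (h2 : ∀ y, v.1 y ≤ 1 → v.1 (g y - y) < 1) {m : ℕ} (hm : m ≠ 0) {f : K} (hf : f ≠ 0) :
    Triv m v.1 (g f / f) := by
  obtain ⟨a, ha⟩ := exists_norm_eq v.2 f
  have ha0 : a ≠ 0 := by
    intro e
    rw [e, norm_zero, eq_comm, map_eq_zero] at ha
    exact hf ha
  have h1 : v.1 (algebraMap C K a⁻¹ * f) = 1 := by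
    rw [map_mul, v.1.ext', norm_inv, ← ha, inv_mul_cancel₀ (norm_ne_zero_iff.2 ha0)]
  have h3 := h2 _ h1.le
  obtain ⟨d, hd⟩ := IsAlgClosed.exists_pow_nat_eq (a / c a) (Nat.pos_of_ne_zero hm)
  refine ⟨algebraMap C K d, ?_⟩
  have e1 : algebraMap C K a ≠ 0 := (map_ne_zero _).2 ha0
  have e2 : algebraMap C K (c a) ≠ 0 := (map_ne_zero _).2 ((map_ne_zero c).2 ha0)
  have h4 : g f / f * algebraMap C K d ^ m - 1 =
      (g (algebraMap C K a⁻¹ * f) - algebraMap C K a⁻¹ * f) * (algebraMap C K a⁻¹ * f)⁻¹ := by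
    rw [← map_pow, hd, map_mul g, h.1]
    simp only [map_inv₀, map_div₀]
    field_simp
  rw [h4, map_mul, map_inv₀ v.1.av, h1, inv_one, mul_one]
  exact h3

theorem tw_self {g : K ≃+* K} (b : Br C T) (h1 : ∀ y, b.w.1 (g y) = b.w.1 y)
    (h2 : ∀ y, b.w.1 y ≤ 1 → b.w.1 (g y - y) < 1) : Tw (g : K →+* K) b b :=
  ⟨h1, fun y hy => by
    have h3 : b.w.1.red (g y) = b.w.1.red y :=
      (red_eq_iff (by rw [h1]; exact hy) hy).2 (h2 y hy)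
    change b.w.1.red (g y) ∈ b.x.1 ↔ _
    rw [h3]⟩

end one

variable {K₀ K : Type} [Field K₀] [Algebra C K₀] [CFF C K₀] [Field K] [Algebra C K] [CFF C K]
  [Algebra K₀ K] [IsScalarTower C K₀ K] [FiniteDimensional K₀ K] [IsGalois K₀ K] {T : K₀}
  [FiniteDimensional C⟮T⟯ K₀] [FiniteDimensional C⟮algebraMap K₀ K T⟯ K]
  {w : Fin 2 → NV C K} {σ : K ≃+* K} {s : K ≃ₐ[K₀] K}

theorem exists_conj {u u' : NV C K} (h : ∀ y, u' (algebraMap K₀ K y) = u (algebraMap K₀ K y)) :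
    ∃ g : K ≃ₐ[K₀] K, ∀ y, u' y = u (g y) := by
  obtain ⟨g, hg⟩ := P025H992.exists_cj (K := K₀) u u' (P025H992.nv_ext fun y => (h y).symm)
  exact ⟨g, fun y => by rw [hg]; rfl⟩

theorem side0 (h : Inr C (algebraMap K₀ K T) w σ s) {u : NV C K}
    (hu : ∀ y, u (algebraMap K₀ K y) = w 0 (algebraMap K₀ K y)) :
    (∀ y, u (σ y) = u y) ∧ ∀ y, u y ≤ 1 → u (σ y - y) < 1 := by
  obtain ⟨g, hg⟩ := exists_conj hu
  refine ⟨fun y => by rw [hg, hg, ← h.com, h.n0], fun y hy => ?_⟩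
  rw [hg, map_sub, ← h.com]
  exact h.t0 _ (by rw [← hg]; exact hy)

/-- `σ s⁻¹` -/
def gam (σ : K ≃+* K) (s : K ≃ₐ[K₀] K) : K ≃+* K := (s.symm : K ≃+* K).trans σ

theorem gam_s (y : K) : gam σ s (s y) = σ y := congrArg σ (s.symm_apply_apply y)

theorem side1 (hc : ∀ (g g' : K ≃ₐ[K₀] K) y, g (g' y) = g' (g y))
    (h : Inr C (algebraMap K₀ K T) w σ s) {u : NV C K}
    (hu : ∀ y, u (algebraMap K₀ K y) = w 1 (algebraMap K₀ K y)) :
    (∀ y, u (gam σ s y) = u y) ∧ ∀ y, u y ≤ 1 → u (gam σ s y - y) < 1 := by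
  obtain ⟨g, hg⟩ := exists_conj hu
  refine ⟨fun y => ?_, fun y hy => ?_⟩
  · obtain ⟨y, rfl⟩ := s.surjective y
    rw [gam_s, hg, hg, ← h.com, h.n1, hc]
  · obtain ⟨y, rfl⟩ := s.surjective y
    rw [gam_s, hg, map_sub, ← h.com, hc g s]
    exact h.t1 _ (by rw [hc, ← hg]; exact hy)

theorem cyc (hc : IsCyclic (K ≃ₐ[K₀] K)) (u : NV C K) :
    ∃ d : K ≃ₐ[K₀] K, ∀ g : K ≃ₐ[K₀] K, (∀ y, u (g y) = u y) ↔ g ∈ Subgroup.zpowers d := by
  let D : Subgroup (K ≃ₐ[K₀] K) :=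
    { carrier := {g | ∀ y, u (g y) = u y}
      mul_mem' := fun {a b} ha hb y => by rw [AlgEquiv.mul_apply, ha, hb]
      one_mem' := fun _ => rfl
      inv_mem' := fun {a} ha y => by
        have := ha (a⁻¹ y)
        rw [← AlgEquiv.mul_apply, mul_inv_cancel, AlgEquiv.one_apply] at this
        exact this.symm }
  obtain ⟨d, hd⟩ := IsCyclic.exists_generator (α := D)
  refine ⟨d, fun g => ⟨fun hg => ?_, fun hg => ?_⟩⟩
  · obtain ⟨n, hn⟩ := hd ⟨g, hg⟩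
    exact ⟨n, congrArg Subtype.val hn⟩
  · exact (Subgroup.zpowers_le.2 d.2 : Subgroup.zpowers (d : K ≃ₐ[K₀] K) ≤ D) hg

theorem ex_tw (g : K ≃ₐ[K₀] K) {b : Br C T} {b' : Br C (algebraMap K₀ K T)}
    (hb : Tw (algebraMap K₀ K) b b') : ∃ b'' : Br C (algebraMap K₀ K T),
      Tw (algebraMap K₀ K) b b'' ∧ Tw ((g : K ≃+* K) : K →+* K) b' b'' := by
  obtain ⟨b'', h1⟩ := (Lift.semi (C := C) g).exists_tw (g.commutes T) b'
  exact ⟨b'', (hb.comp h1).congr fun y => (g.commutes y).symm, h1⟩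

/-- the diamond fixes the nodes -/
theorem fixes (hA : ACL) (hL : LIFT) (hc : ∀ (g g' : K ≃ₐ[K₀] K) y, g (g' y) = g' (g y))
    {v : Fin 2 → WW C T} {S : Finset (Br C T)} (hS : Nodal C T S) (hall : ∀ u, ∃ i, u = v i)
    (hsep : ∀ b b' : Br C T, b.w = b'.w → Glue b b' → b = b')
    (hw : ∀ i y, w i (algebraMap K₀ K y) = (v i).1 y) (h : Inr C (algebraMap K₀ K T) w σ s)
    (hF : Full C (algebraMap K₀ K T)) {S' : Finset (Br C (algebraMap K₀ K T))}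
    (hS' : Nodal C _ S') (hm : ∀ b', b' ∈ S' ↔ ∃ b ∈ S, Tw (algebraMap K₀ K) b b') :
    ∀ b' ∈ S', Tw ((s : K ≃+* K) : K →+* K) b' b' := by
  obtain ⟨c, hsemi⟩ := h.semi
  have huniq := (hA C K _ hF S' hS').1
  have key : ∀ (b₀ b₁ : Br C T) (c₀ c₁ : Br C (algebraMap K₀ K T)), b₀ ∈ S → b₁ ∈ S →
      b₀.w = v 0 → b₁.w = v 1 → b₀.w ≠ b₁.w → Tw (algebraMap K₀ K) b₀ c₀ →
      Tw (algebraMap K₀ K) b₁ c₁ → Glue c₀ c₁ →
      Tw ((s : K ≃+* K) : K →+* K) c₀ c₀ ∧ Tw ((s : K ≃+* K) : K →+* K) c₁ c₁ := by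
    intro b₀ b₁ c₀ c₁ hb₀ hb₁ e₀ e₁ hne t₀ t₁ hg
    have hne' : ∀ {d₀ d₁ : Br C (algebraMap K₀ K T)}, Tw (algebraMap K₀ K) b₀ d₀ →
        Tw (algebraMap K₀ K) b₁ d₁ → d₁ ≠ d₀ := fun {d₀ d₁} u₀ u₁ e => by
      subst e
      exact hne (congrArg Br.w (u₀.inj_left u₁))
    obtain ⟨d₁, u₁, r₁⟩ := ex_tw s t₁
    obtain ⟨d₀, u₀, r₀⟩ := ex_tw s t₀
    have p₀ := side0 h (u := c₀.w.1) fun y => by rw [t₀.1, e₀, hw]
    have p₁ := side1 hc h (u := d₁.w.1) fun y => by rw [u₁.1, e₁, hw]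
    have q₁ : Tw (σ : K →+* K) c₁ d₁ :=
      (r₁.comp (tw_self d₁ p₁.1 p₁.2)).congr fun y => (gam_s (s := s) y).symm
    have m₀ := (hm c₀).2 ⟨b₀, hb₀, t₀⟩
    have m₁ := (hm c₁).2 ⟨b₁, hb₁, t₁⟩
    have f₁ : c₁ = d₁ := huniq c₀ m₀ c₁ m₁ d₁ ((hm d₁).2 ⟨b₁, hb₁, u₁⟩) (hne' t₀ t₁) (hne' t₀ u₁)
      hg (hsemi.glue h.fix (tw_self c₀ p₀.1 p₀.2) q₁ hg)
    subst f₁
    have f₀ : c₀ = d₀ := huniq c₁ m₁ c₀ m₀ d₀ ((hm d₀).2 ⟨b₀, hb₀, u₀⟩) (hne' t₀ t₁).symm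
      (hne' u₀ t₁).symm hg.symm ((Lift.semi (C := C) s).glue (s.commutes T) r₁ r₀ hg.symm)
    subst f₀
    exact ⟨r₀, r₁⟩
  intro b' hb'
  obtain ⟨b, hb, t⟩ := (hm b').1 hb'
  obtain ⟨b₂, hb₂, hne, hg⟩ := hS.2 b hb
  obtain ⟨b₂', t₂, hg'⟩ := hL C K₀ K T b b₂ hg b' t
  have hw' : b.w ≠ b₂.w := fun e => hne (hsep b b₂ e hg).symm
  have h01 : ∀ u, u = v 0 ∨ u = v 1 := fun u => by
    obtain ⟨i, rfl⟩ := hall u
    fin_cases i
    exacts [Or.inl rfl, Or.inr rfl]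
  by_cases h1 : b.w = v 0
  · exact (key b b₂ b' b₂' hb hb₂ h1 ((h01 b₂.w).resolve_left (h1 ▸ hw'.symm)) hw' t t₂ hg').1
  · have h2 := (h01 b.w).resolve_left h1
    exact (key b₂ b b₂' b' hb₂ hb ((h01 b₂.w).resolve_right (h2 ▸ hw'.symm)) h2 hw'.symm t₂ t
      hg'.symm).2

theorem dvd_div {m : ℕ} {f g : K} (hf0 : f ≠ 0) (hg0 : g ≠ 0)
    (hf : ∀ P : Plk C K, (m : ℤ) ∣ ord P f) (hg : ∀ P : Plk C K, (m : ℤ) ∣ ord P g) (P : Plk C K) :
    (m : ℤ) ∣ ord P (f / g) := by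
  rw [div_eq_mul_inv, ord_mul P hf0 (inv_ne_zero hg0), ord_inv]
  exact dvd_add (hf P) (dvd_neg.2 (hg P))

end I1b

open I1b in
theorem i1b (hC : COV) (hN : NODE) (hA : ACL) (hL : LIFT) : I1B := by
  intro C K₀ K _ _ _ _ _ _ _ _ _ _ _ _ _ _ T _ v S w m σ σ₀ s s₀ hd hu hcy hF hS _ hall hsep hw hm
    h h₀ f hf0 hf A B hA' hB
  have : FiniteDimensional C⟮algebraMap K₀ K T⟯ K := finite_adjoin_map
  have hm0 : m ≠ 0 := by rintro rfl; simp at hm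
  have hc : ∀ (g g' : K ≃ₐ[K₀] K) y, g (g' y) = g' (g y) := fun g g' y => by
    obtain ⟨d, hd⟩ := IsCyclic.exists_generator (α := K ≃ₐ[K₀] K)
    obtain ⟨a, rfl⟩ := hd g
    obtain ⟨b, rfl⟩ := hd g'
    rw [← AlgEquiv.mul_apply, ← AlgEquiv.mul_apply, (Commute.refl d).zpow_zpow a b |>.eq]
  obtain ⟨hF', -, S', hS', hm'⟩ := hC C K₀ K T hF S hS hu hd fun u => cyc hcy u.1
  obtain ⟨c, hsemi⟩ := h.semi
  have hA0 : A ≠ 0 := by rw [hA']; exact div_ne_zero ((map_ne_zero σ).2 hf0) hf0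
  have hAo : ∀ P : Plk C K, (m : ℤ) ∣ ord P A := by
    rw [hA']; exact dvd_div ((map_ne_zero σ).2 hf0) hf0 (hsemi.dvd_ord hf) hf
  have t0 : ∀ u : WW C (algebraMap K₀ K T),
      (∀ y, u.1 (algebraMap K₀ K y) = w 0 (algebraMap K₀ K y)) → Triv m u.1 A := fun u hu => by
    rw [hA']; exact triv_div hsemi u (side0 h hu).2 hm0 hf0
  obtain ⟨z, hz, e⟩ := hN C K _ hF' S' hS' m 1 (s₀ : K ≃+* K) (RingEquiv.refl C) hm
    (Lift.semi s₀) (s₀.commutes T) (fixes hA hL hc hS hall hsep hw h₀ hF' hS' hm')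
    (fun μ _ => (pow_one μ).symm) B (by
      rw [hB]
      exact dvd_div ((map_ne_zero σ).2 hA0) ((map_ne_zero s).2 hA0) (hsemi.dvd_ord hAo)
        ((Lift.semi (C := C) s).dvd_ord hAo)) fun u => by
      obtain ⟨i, hi⟩ := hall ⟨u.1.comap K₀, u.2.comap⟩
      have h1 : ∀ y, u.1 (algebraMap K₀ K y) = w i (algebraMap K₀ K y) := fun y => by
        rw [hw, ← hi]; rfl
      rw [hB]
      fin_cases i
      · obtain ⟨u', hu'⟩ := (Lift.semi (C := C) s).symm.exists_w (symm_fix (s.commutes T)) u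
        have h2 : ∀ y, u.1 (s y) = u'.1 y := fun y => by
          rw [← hu']; exact congrArg u'.1 (s.symm_apply_apply y)
        rw [div_eq_mul_inv]
        exact I2a.triv_mul (I2a.triv_map σ (side0 h h1).1 (t0 u h1))
          (I2a.triv_inv (I2a.triv_map s h2 (t0 u' fun y => by rw [← h2, s.commutes]; exact h1 y)))
      · rw [← gam_s (s := s) A]
        exact triv_div (g := gam σ s) ((Lift.semi (C := C) s).symm.trans hsemi) u
          (side1 hc h h1).2 hm0 ((map_ne_zero s).2 hA0)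
  exact ⟨z, hz, by rw [pow_one] at e; exact e⟩

end Vale.Agent.P027M.I
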