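import Vale.Agent.P027M.I.Spec2
import Vale.Agent.P027M.I.Act

/-!
# P027 route M, block I: row POLE
-/

set_option linter.unusedSectionVars false

noncomputable section

open IntermediateField Vale.Agent.P019P P025H746 P025H492 Module

namespace Vale.Agent.P027M.I.Pole

section LL

variable {k K K' : Type*} [Field k] [Field K] [Algebra k K] [CFF k K] [Field K'] [Algebra k K']
  [CFF k K'] {T y z : K} {n m : ℕ}

theorem LL_iff : z ∈ LL k (n • pol k T) ↔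
    z = 0 ∨ ∀ P : Plk k K, -(n * max 0 (-ord P T)) ≤ ord P z := by
  simp only [mem_LL, Finsupp.smul_apply, pol_apply, nsmul_eq_mul]

theorem LL_equiv (e : K ≃+* K') (he : ∀ a, e (algebraMap k K a) = algebraMap k K' a) :
    e z ∈ LL k (n • pol k (e T)) ↔ z ∈ LL k (n • pol k T) := by
  rw [LL_iff, LL_iff, EmbeddingLike.map_eq_zero_iff,
    ← (plEquiv e (RingEquiv.refl k) he).forall_congr_right]
  refine or_congr Iff.rfl (forall_congr' fun P => ?_)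
  rw [ord_plEquiv e (RingEquiv.refl k) he, ord_plEquiv e (RingEquiv.refl k) he]

theorem mx (r : ℕ) (a : ℤ) : max 0 (-(r * a)) = r * max 0 (-a) := by
  rw [mul_max_of_nonneg _ _ (Int.natCast_nonneg r), mul_zero, mul_neg]

theorem LL_up [Algebra K K'] [IsScalarTower k K K'] [Algebra.IsAlgebraic K K']
    (h : z ∈ LL k (n • pol k T)) :
    algebraMap K K' z ∈ LL k (n • pol k (algebraMap K K' T)) := by
  rw [LL_iff] at h ⊢
  refine h.imp (fun h => by rw [h, map_zero]) fun h P => ?_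
  have h1 := mul_le_mul_of_nonneg_left (h (down K P)) (Int.natCast_nonneg (ram K P))
  rw [ord_algebraMap, ord_algebraMap]
  refine le_trans (le_of_eq ?_) h1
  rw [mx]
  ring

theorem LL_pow (q : ℕ) : z ∈ LL k (n • pol k (T ^ q)) ↔ z ∈ LL k ((n * q) • pol k T) := by
  rw [LL_iff, LL_iff]
  refine or_congr Iff.rfl (forall_congr' fun P => ?_)
  rw [ord_pow, mx, Nat.cast_mul, mul_assoc]

theorem LL_mul' (hy : y ∈ LL k (n • pol k T)) (hz : z ∈ LL k (m • pol k T)) :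
    y * z ∈ LL k ((n + m) • pol k T) := by
  rw [add_nsmul]; exact LL_mul hy hz

theorem LL_pow' (hy : y ∈ LL k (n • pol k T)) (j : ℕ) : y ^ j ∈ LL k ((n * j) • pol k T) := by
  induction j with
  | zero => simpa using pow_mem_LL (k := k) T 0
  | succ j ih => rw [pow_succ, mul_add, mul_one]; exact LL_mul' ih hy

theorem LL_root {q : ℕ} (hq : q ≠ 0) : z ∈ LL k (1 • pol k (z ^ q)) := by
  rw [LL_pow]
  exact LL_pol_mono (n := 1) (by omega) (by simpa using pow_mem_LL (k := k) z 1)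

theorem mem_iff (P : Plk k K) (hz : z ≠ 0) : z ∈ P.1 ↔ 0 ≤ ord P z := by
  rw [mem_iff_ord, or_iff_right hz]

theorem LL_quot {S : K} {q : ℕ} (hT : T ≠ 0) (hS : S ≠ 0)
    (pl : ∀ P : Plk k K, T ∈ P.1 ↔ S ∈ P.1)
    (hz : ∀ P : Plk k K, 0 < ord P S → ord P S ≤ q * ord P T) (hm : q * n ≤ m)
    (hy : y ∈ LL k (n • pol k S)) : y * T ^ m * (S ^ n)⁻¹ ∈ LL k (m • pol k T) := by
  rw [LL_iff] at hy ⊢
  by_cases h0 : y = 0
  · exact Or.inl (by rw [h0, zero_mul, zero_mul])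
  refine Or.inr fun P => ?_
  have h1 := hy.resolve_left h0 P
  have h2 := pl P
  have h3 := hz P
  have h4 : (q : ℤ) * n ≤ m := by exact_mod_cast hm
  rw [mem_iff P hT, mem_iff P hS] at h2
  rw [ord_mul P (mul_ne_zero h0 (pow_ne_zero _ hT)) (inv_ne_zero (pow_ne_zero _ hS)),
    ord_mul P h0 (pow_ne_zero _ hT), ord_inv, ord_pow, ord_pow]
  by_cases h5 : 0 ≤ ord P T
  · have h6 := h2.1 h5
    rw [max_eq_left (by omega)] at h1 ⊢
    rcases h6.eq_or_lt with h7 | h7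
    · rw [← h7]
      nlinarith [mul_nonneg (Int.natCast_nonneg m) h5]
    · nlinarith [mul_le_mul_of_nonneg_left (h3 h7) (Int.natCast_nonneg n),
        mul_le_mul_of_nonneg_right h4 h5]
  · have h6 : ¬ 0 ≤ ord P S := fun h => h5 (h2.2 h)
    rw [max_eq_right (by omega)] at h1 ⊢
    linarith

end LL

variable {C K' K₀ : Type} [NontriviallyNormedField C] [IsUltrametricDist C] [IsAlgClosed C]
  [Field K'] [Algebra C K'] [CFF C K'] [Field K₀] [Algebra C K₀] [CFF C K₀] [Algebra K' K₀]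
  [IsScalarTower C K' K₀] [FiniteDimensional K' K₀] {T : K'} [FiniteDimensional C⟮T⟯ K']
  [FiniteDimensional C⟮algebraMap K' K₀ T⟯ K₀] {q : ℕ} {W : K₀ ≃ₐ[C] K₀} {u' : WW C T}
  {v : Fin 2 → WW C (algebraMap K' K₀ T)}

theorem rm_const' {F F' : Type} [Field F] [Algebra C F] [Field F'] [Algebra C F'] {w : NV C F}
    {w' : NV C F'} (g : F →+* F') (h : ∀ y, w' (g y) = w y)
    (hg : ∀ c, g (algebraMap C F c) = algebraMap C F' c) (a : kC C) :
    rm g h (algebraMap (kC C) (kap w) a) = algebraMap (kC C) (kap w') a := by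
  obtain ⟨c, hc, rfl⟩ := cred_surj a
  exact rm_const g h (s := RingEquiv.refl C) hg (fun _ => rfl) hc

/-- functions on the first component lift to the lower curve -/
theorem lift (hS : SURJ) (hK : Kr C T q W u' (v 0).1)
    (h2 : Two C K' (algebraMap K' K₀ T) W (v 0).1 v) : ∃ n₀ : ℕ, ∀ N, n₀ ≤ N →
    ∀ z ∈ LL (kC C) (N • pol (kC C) ((v 0).1.red (algebraMap K' K₀ T))), ∃ f : K₀,
      f ∈ LL C (N • pol C (algebraMap K' K₀ T)) ∧ Itg C (algebraMap K' K₀ T) f ∧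
        (v 0).1.red f = z := by
  classical
  obtain ⟨-, n₀, h⟩ := (hS C K' T hK.full).2 hK.good.le
  refine ⟨n₀, fun N hN z hz => ?_⟩
  let e : kap u'.1 ≃+* kap (v 0).1 := RingEquiv.ofBijective (rm (algebraMap K' K₀) hK.ext)
    ⟨(rm _ hK.ext).injective, rm_surj _ hK.ext h2.den⟩
  have he : ∀ y, e (u'.1.red y) = (v 0).1.red (algebraMap K' K₀ y) := rm_red _ hK.ext
  obtain ⟨z', rfl⟩ := e.surjective z
  rw [← he, LL_equiv e (rm_const' _ hK.ext fun c =>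
    (IsScalarTower.algebraMap_apply C K' K₀ c).symm)] at hz
  obtain ⟨f, h3, h4, h5⟩ := h N hN (show (Pi.single u' z' : PP C T) ∈ Pn C T N from
    mem_Pn.2 fun w => by
      obtain rfl := hK.one w
      rwa [Pi.single_eq_same])
  refine ⟨algebraMap K' K₀ f, LL_up h3, fun w => h4 ⟨w.1.comap K', w.2.comap⟩, ?_⟩
  have h6 := congrFun h5 u'
  rw [Pi.single_eq_same] at h6
  rw [← he, ← h6]
  rfl

theorem core {T0 : K₀} [FiniteDimensional C⟮T0⟯ K₀] {v : Fin 2 → WW C T0} {n₀ : ℕ}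
    (hl : ∀ N, n₀ ≤ N → ∀ z ∈ LL (kC C) (N • pol (kC C) ((v 0).1.red T0)), ∃ f : K₀,
      f ∈ LL C (N • pol C T0) ∧ Itg C T0 f ∧ (v 0).1.red f = z)
    (hq : 2 ≤ q) (kro : (v 0).1 (W T0 - T0 ^ q) < 1) (wwT : W (W T0) = T0)
    (hpol : ∀ P : Plk C K₀, ord P T0 < 0 → q * ord P (W T0) ≤ ord P T0)
    (hzer : ∀ P : Plk C K₀, 0 < ord P T0 → ord P T0 ≤ q * ord P (W T0))
    (wwu : ∀ y, (v 0).1 (W (W y)) = (v 0).1 y) (hv1 : ∀ y, (v 1).1 y = (v 0).1 (W y))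
    (pl : ∀ P : Plk C K₀, T0 ∈ P.1 ↔ W T0 ∈ P.1) (hall : ∀ w, ∃ i, w = v i) (n : ℕ)
    (y : PP C T0) (hy : y ∈ Pn C T0 (n + 1)) :
    ∃ j : ℕ, ∃ e ∈ En C T0 (n + 1 + j), e - redv C T0 T0 ^ j * y ∈ Pn C T0 (n + j) := by
  have a0 : (v 0).1 T0 = 1 := (v 0).2.apply_T
  have a1 : (v 1).1 T0 = 1 := (v 1).2.apply_T
  have b0 : (v 0).1 (W T0) = 1 := by rw [← hv1, a1]
  have b1 : (v 1).1 (W T0) = 1 := by rw [hv1, wwT, a0]
  have hT : T0 ≠ 0 := fun h => zero_ne_one ((map_zero (v 0).1.av).symm.trans (h ▸ a0))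
  have hW : W T0 ≠ 0 := (map_ne_zero _).2 hT
  have itg : ∀ x, (v 0).1 x ≤ 1 → (v 1).1 x ≤ 1 → Itg C T0 x := fun x h0 h1 w => by
    obtain ⟨i, rfl⟩ := hall w
    revert i
    exact Fin.forall_fin_two.2 ⟨h0, h1⟩
  have iS : Itg C T0 (W T0) := itg _ b0.le b1.le
  have r0 : (v 0).1.red (W T0) = (v 0).1.red T0 ^ q := by
    rw [← NV.red_pow a0.le, red_eq_iff b0.le (NV.pow_le_one' a0.le _)]; exact kro
  have r1 : (v 1).1.red T0 = (v 1).1.red (W T0) ^ q := by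
    rw [← NV.red_pow b1.le, red_eq_iff a1.le (NV.pow_le_one' b1.le _), hv1, map_sub, map_pow, wwT]
    exact kro
  have tr : ∀ P : Plk C K₀, ∃ P' : Plk C K₀, ∀ x, ord P' x = ord P (W x) := fun P =>
    ⟨plEquiv W.symm.toRingEquiv (RingEquiv.refl C) W.symm.commutes P, fun x => by
      rw [← ord_plEquiv W.symm.toRingEquiv (RingEquiv.refl C) W.symm.commutes P (W x)]
      simp⟩
  have hSL : W T0 ∈ LL C (q • pol C T0) := LL_iff.2 (Or.inr fun P => by
    obtain ⟨P', hP'⟩ := tr P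
    have h3 := hpol P'
    have h4 := pl P
    rw [hP', hP', wwT] at h3
    rw [mem_iff P hT, mem_iff P hW] at h4
    by_cases h5 : 0 ≤ ord P T0
    · rw [max_eq_left (by omega)]
      simpa using h4.1 h5
    · rw [max_eq_right (by omega)]
      simpa using h3 (not_le.1 fun h => h5 (h4.2 h)))
  have hz : ∀ P : Plk C K₀, 0 < ord P (W T0) → ord P (W T0) ≤ q * ord P T0 := fun P h => by
    obtain ⟨P', hP'⟩ := tr P
    have h3 := hzer P'
    rw [hP', hP', wwT] at h3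
    exact h3 h
  have hTL : T0 ∈ LL C (1 • pol C T0) := by simpa using pow_mem_LL (k := C) T0 1
  obtain ⟨N, hN⟩ : ∃ N, N = n + 1 + n₀ := ⟨_, rfl⟩
  obtain ⟨i, hi⟩ : ∃ i, i = n₀ + q * (N * q) := ⟨_, rfl⟩
  have hqq : q ≤ q * q := Nat.le_mul_self q
  -- side 0
  obtain ⟨f, f1, f2, f3⟩ := hl (n + 1 + i) (by omega) _
    (LL_mul' (mem_Pn.1 hy (v 0)) (pow_mem_LL _ i))
  have iF : Itg C T0 (W T0 ^ q - T0) := (iS.pow q).sub Itg.self
  have F1 : f * (W T0 ^ q - T0) ∈ LL C ((n + 1 + (i + q * q)) • pol C T0) := by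
    rw [← add_assoc]
    exact LL_mul' f1 (sub_mem (LL_pow' hSL q) (LL_pol_mono (by omega) hTL))
  have F2 : (v 0).1.red (f * (W T0 ^ q - T0)) =
      y (v 0) * (v 0).1.red T0 ^ i * (((v 0).1.red T0 ^ q) ^ q - (v 0).1.red T0) := by
    rw [NV.red_mul (f2 _) (iF _), f3, NV.red_sub (iS.pow q _) a0.le, NV.red_pow b0.le, r0]
  have F3 : (v 1).1.red (f * (W T0 ^ q - T0)) = 0 := by
    rw [NV.red_mul (f2 _) (iF _), NV.red_sub (iS.pow q _) a1.le, NV.red_pow b1.le, r1, sub_self,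
      mul_zero]
  -- side 1
  have hv1' : ∀ y, (v 0).1 ((W : K₀ →+* K₀) y) = (v 1).1 y := fun y => (hv1 y).symm
  let e : kap (v 1).1 ≃+* kap (v 0).1 := RingEquiv.ofBijective (rm (W : K₀ →+* K₀) hv1')
    ⟨(rm _ hv1').injective, rm_surj _ hv1' fun y' _ => ⟨W.symm y', by simp⟩⟩
  have he : ∀ y, e ((v 1).1.red y) = (v 0).1.red (W y) := rm_red _ hv1'
  have hy1 : y (v 1) * (v 1).1.red T0 ^ n₀ ∈ LL (kC C) (N • pol (kC C) ((v 1).1.red T0)) :=
    hN ▸ LL_mul' (mem_Pn.1 hy (v 1)) (pow_mem_LL _ n₀)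
  rw [← LL_equiv e (rm_const' _ hv1' W.commutes), he, r0, LL_pow] at hy1
  obtain ⟨g, g1, g2, g3⟩ := hl (N * q) (by nlinarith) _ hy1
  have g4 : W.symm g ∈ LL C ((N * q) • pol C (W T0)) := by
    rw [← LL_equiv W.toRingEquiv W.commutes]
    simpa [wwT] using g1
  have g5 : Itg C T0 (W.symm g) := itg _
    (by rw [← wwu, W.apply_symm_apply, ← hv1]; exact g2 _)
    (by rw [hv1, W.apply_symm_apply]; exact g2 _)
  have g6 : (v 1).1.red (W.symm g) = y (v 1) * (v 1).1.red T0 ^ n₀ :=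
    e.injective (by rw [he, W.apply_symm_apply, g3])
  obtain ⟨J, hJ⟩ : ∃ J, J + q = n + 1 + (i + q * q) := ⟨n + 1 + i + (q * q - q), by omega⟩
  have iI : Itg C T0 (W T0 ^ (N * q))⁻¹ := itg _
    (by rw [map_inv₀, map_pow, b0]; simp) (by rw [map_inv₀, map_pow, b1]; simp)
  have iG : Itg C T0 (W.symm g * T0 ^ J * (W T0 ^ (N * q))⁻¹) := (g5.mul (Itg.self.pow J)).mul iI
  have iH : Itg C T0 (T0 ^ q - W T0) := (Itg.self.pow q).sub iS
  have G1 : W.symm g * T0 ^ J * (W T0 ^ (N * q))⁻¹ * (T0 ^ q - W T0) ∈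
      LL C ((n + 1 + (i + q * q)) • pol C T0) := by
    rw [← hJ]
    exact LL_mul' (LL_quot hT hW pl hz (by omega) g4) (sub_mem (pow_mem_LL _ q) hSL)
  have G2 : (v 0).1.red (W.symm g * T0 ^ J * (W T0 ^ (N * q))⁻¹ * (T0 ^ q - W T0)) = 0 := by
    rw [NV.red_mul (iG _) (iH _), NV.red_sub (Itg.self.pow q _) b0.le, NV.red_pow a0.le, r0,
      sub_self, mul_zero]
  obtain ⟨l, hl'⟩ : ∃ l, J = n + 1 + l := ⟨J - (n + 1), by omega⟩
  have G3 : (v 1).1.red (W.symm g * T0 ^ J * (W T0 ^ (N * q))⁻¹ * (T0 ^ q - W T0)) =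
      y (v 1) * (v 1).1.red T0 ^ l * ((v 1).1.red T0 ^ q - (v 1).1.red (W T0)) := by
    rw [NV.red_mul (iG _) (iH _), NV.red_sub (Itg.self.pow q _) b1.le, NV.red_pow a1.le,
      NV.red_mul ((g5.mul (Itg.self.pow J)) _) (iI _), NV.red_mul (g5 _) (Itg.self.pow J _),
      NV.red_pow a1.le, NV.red_inv (by rw [map_pow, b1, one_pow]), NV.red_pow b1.le, g6,
      mul_comm N q, pow_mul, ← r1, hl', hN]
    have := NV.red_ne_zero a1
    field_simp
    ring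
  refine ⟨i + q * q, redv C T0 (f * (W T0 ^ q - T0) +
    W.symm g * T0 ^ J * (W T0 ^ (N * q))⁻¹ * (T0 ^ q - W T0)),
    ⟨_, add_mem F1 G1, (f2.mul iF).add (iG.mul iH), rfl⟩, mem_Pn.2 fun w => ?_⟩
  obtain ⟨i', rfl⟩ := hall w
  revert i'
  refine Fin.forall_fin_two.2 ⟨?_, ?_⟩
  · have e1 : (redv C T0 (f * (W T0 ^ q - T0) + W.symm g * T0 ^ J * (W T0 ^ (N * q))⁻¹ *
        (T0 ^ q - W T0)) - redv C T0 T0 ^ (i + q * q) * y) (v 0) =
        -(y (v 0) * (v 0).1.red T0 ^ (i + 1)) := by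
      show (v 0).1.red _ - (v 0).1.red T0 ^ (i + q * q) * y (v 0) = _
      rw [NV.red_add (f2.mul iF _) (iG.mul iH _), F2, G2]
      ring
    rw [e1]
    exact neg_mem (LL_pol_mono (by omega) (LL_mul' (mem_Pn.1 hy (v 0)) (pow_mem_LL _ (i + 1))))
  · have e1 : (redv C T0 (f * (W T0 ^ q - T0) + W.symm g * T0 ^ J * (W T0 ^ (N * q))⁻¹ *
        (T0 ^ q - W T0)) - redv C T0 T0 ^ (i + q * q) * y) (v 1) =
        -(y (v 1) * (v 1).1.red T0 ^ l * (v 1).1.red (W T0)) := by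
      show (v 1).1.red _ - (v 1).1.red T0 ^ (i + q * q) * y (v 1) = _
      rw [NV.red_add (f2.mul iF _) (iG.mul iH _), F3, G3, show i + q * q = l + q by omega]
      ring
    rw [e1]
    refine neg_mem (LL_pol_mono (n := n + 1 + l + 1) (by omega)
      (LL_mul' (LL_mul' (mem_Pn.1 hy (v 1)) (pow_mem_LL _ l)) ?_))
    rw [r1]
    exact LL_root (by omega)

theorem pole (hS : SURJ) : POLE := by
  intro C K' K₀ _ _ _ _ _ _ _ _ _ _ _ _ T _ _ q W u' u v hK h2 n y hy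
  obtain rfl := h2.v0
  obtain ⟨n₀, hl⟩ := lift hS hK h2
  exact core hl hK.prime.two_le hK.kro hK.wwT hK.pol (hK.zer _ (Or.inl rfl)) hK.wwu h2.v1 h2.pl
    h2.all n y hy

end Vale.Agent.P027M.I.Pole
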