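import Vale.Agent.P027M.I.All0
import Vale.Agent.P027M.I.I1b
import Vale.Agent.P027M.I.Pole

/-!
# P027 route M, block I: closed terms, part 2
-/

namespace Vale.Agent.P027M.I

theorem i1b' : I1B := i1b cov' node' acl' lift'
theorem pole' : POLE := Pole.pole surj'
theorem n0_of (hV : VAN2) : N0 := n0 n0a' side' pole' inf' hV

end Vale.Agent.P027M.I
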