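import Vale.Agent.P025.R2.H746.Stab
import Vale.Agent.P025.R2.H992.On
import Vale.Agent.P025.R2.H992.Pair
import Vale.Agent.P025.R2.H492.Genus
import Vale.Agent.P025.R2.H816.HK

/-!
# P027 route M, block I: constant reduction, gluing of branches (definitions)

Paper: notes/P027/I.md section 1.
-/

set_option linter.unusedSectionVars false

noncomputable section

open IntermediateField Vale.Agent.P019P P025H746 P025H492 Module

namespace Vale.Agent.P027M.I

section defs

variable (C : Type) [NontriviallyNormedField C] [IsUltrametricDist C] [IsAlgClosed C]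
variable {F : Type} [Field F] [Algebra C F]

/-- the absolute values over the Gauss norm of `T` -/
abbrev WW (T : F) : Type := {w : NV C F // w.OverG T}

/-- the product of the residue fields -/
abbrev PP (T : F) : Type := ∀ w : WW C T, kap w.1

/-- norm at most one everywhere -/
def Itg (T : F) (x : F) : Prop := ∀ w : WW C T, w.1 x ≤ 1

/-- the vector of reductions -/
def redv (T : F) (x : F) : PP C T := fun w => w.1.red x

/-- the reduction of a space of functions -/
def Rd (T : F) (V : Submodule C F) : Submodule (kC C) (PP C T) where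
  carrier := {y | ∃ x ∈ V, Itg C T x ∧ redv C T x = y}
  zero_mem' := ⟨0, V.zero_mem, fun w => by simp, by funext w; simp [redv]⟩
  add_mem' := by
    rintro _ _ ⟨x, hx, hx1, rfl⟩ ⟨y, hy, hy1, rfl⟩
    exact ⟨x + y, V.add_mem hx hy, fun w => NV.add_le (hx1 w) (hy1 w), by
      funext w; exact NV.red_add (hx1 w) (hy1 w)⟩
  smul_mem' := by
    rintro a _ ⟨x, hx, hx1, rfl⟩
    obtain ⟨c, hc, rfl⟩ := cred_surj a
    have h1 : ∀ w : WW C T, w.1 (algebraMap C F c) ≤ 1 := fun w => by rw [w.1.ext']; exact hc
    refine ⟨c • x, V.smul_mem c hx, fun w => ?_, ?_⟩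
    · rw [Algebra.smul_def]; exact NV.mul_le_one (h1 w) (hx1 w)
    · funext w
      change w.1.red (c • x) = cred c • w.1.red x
      rw [Algebra.smul_def, Algebra.smul_def, NV.red_mul (h1 w) (hx1 w), NV.red_algebraMap hc]

/-- the integral closure of `O[T]` -/
def BB (T : F) (x : F) : Prop := Itg C T x ∧ ∀ P : Plk C F, T ∈ P.1 → x ∈ P.1

open Classical in
/-- the idempotent of a set of components -/
def ind (T : F) (A : Set (WW C T)) : PP C T := fun w => if w ∈ A then 1 else 0

/-- a branch: a component and a place of its function field where `T` is finite -/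
structure Br (T : F) where
  /-- the component -/
  w : WW C T
  /-- the place -/
  x : Plk (kC C) (kap w.1)
  fin : w.1.red T ∈ x.1

/-- isometric semilinear automorphisms -/
def Semi (g : F ≃+* F) (s : C ≃+* C) : Prop :=
  (∀ c, g (algebraMap C F c) = algebraMap C F (s c)) ∧ ∀ c, ‖s c‖ = ‖c‖

variable {C} in
/-- `g` carries the branch `b` to the branch `b'` (for an inclusion: `b'` lies over `b`) -/
def Tw {F' : Type} [Field F'] [Algebra C F'] {T : F} {T' : F'} (g : F →+* F') (b : Br C T)
    (b' : Br C T') : Prop :=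
  (∀ y, b'.w.1 (g y) = b.w.1 y) ∧
    ∀ y, b.w.1 y ≤ 1 → (b'.w.1.red (g y) ∈ b'.x.1 ↔ b.w.1.red y ∈ b.x.1)

variable {C} in
/-- the reduction of `f` at `w` is a constant times an `m`-th power -/
def Triv (m : ℕ) (w : NV C F) (f : F) : Prop := ∃ z : F, w (f * z ^ m - 1) < 1

variable (T : F) [FiniteDimensional C⟮T⟯ F]

/-- the residue degrees add up to the degree -/
def Full : Prop :=
  ∑ w : WW C T, finrank (kC C)⟮w.1.red T⟯ (kap w.1) = finrank C⟮T⟯ F

/-- functions on the components with poles at most `n` times those of `T` -/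
def Pn (n : ℕ) : Submodule (kC C) (PP C T) :=
  Submodule.pi Set.univ fun w => LL (kC C) (n • pol (kC C) (w.1.red T))

variable {C T} in
/-- the value at a branch -/
def Br.ev (b : Br C T) (y : PP C T) : kC C := vl b.x (y b.w)

variable {C T} in
/-- glued branches -/
def Glue (b b' : Br C T) : Prop := ∀ f, BB C T f → b.ev (redv C T f) = b'.ev (redv C T f)

variable [CFF C F]

/-- reductions of the functions with poles at most `n` times those of `T` -/
def En (n : ℕ) : Submodule (kC C) (PP C T) := Rd C T (LL C (n • pol C T))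

/-- the genus defect -/
def cd : ℤ := ((gen C F : ℤ) - 1) - ∑ w : WW C T, ((gen (kC C) (kap w.1) : ℤ) - 1)

/-- the defect is explained by glued pairs in `S` -/
def Nodal (S : Finset (Br C T)) : Prop :=
  (S.card : ℤ) = 2 * cd C T ∧ ∀ b ∈ S, ∃ b' ∈ S, b' ≠ b ∧ Glue b b'

end defs

section igusa

variable (C : Type) [NontriviallyNormedField C] [IsUltrametricDist C] [IsAlgClosed C]
variable {K₀ : Type} [Field K₀] [Algebra C K₀] [CFF C K₀]
variable (K : Type) [Field K] [Algebra C K] [CFF C K] [Algebra K₀ K] [IsScalarTower C K₀ K]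
  [FiniteDimensional K₀ K]
variable (T : K₀) [FiniteDimensional C⟮T⟯ K₀]

/-- Igusa data: a cyclic unramified cover of degree `r` of a curve with two components -/
structure IgD (r : ℕ) where
  /-- generator of the group -/
  del : K ≃ₐ[K₀] K
  /-- its eigenvalue -/
  zeta : C
  /-- the two components below -/
  u : Fin 2 → WW C T
  /-- the two components above -/
  w : Fin 2 → WW C (algebraMap K₀ K T)
  /-- Kummer generators -/
  a : Fin 2 → K
  /-- their powers -/
  p : Fin 2 → K₀
  /-- supersingular points -/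
  SS : ∀ i, Finset (Plk (kC C) (kap (u i).1))
  hr : (r : kC C) ≠ 0
  prim : IsPrimitiveRoot zeta r
  deg : finrank K₀ K = r
  unr : IsUnr C K₀ K
  une : u 0 ≠ u 1
  full : ∑ i, finrank (kC C)⟮(u i).1.red T⟯ (kap (u i).1) = finrank C⟮T⟯ K₀
  ext : ∀ i y, (w i).1 (algebraMap K₀ K y) = (u i).1 y
  eig : ∀ i, del (a i) = algebraMap C K zeta * a i
  nrm : ∀ i, (w i).1 (a i) = 1
  pw : ∀ i, a i ^ r = algebraMap K₀ K (p i)
  fin : ∀ i, ∀ x ∈ SS i, (u i).1.red T ∈ x.1
  ss : ∀ i, ∀ x ∈ SS i, ord x ((u i).1.red (p i)) = 1 ∨ ord x ((u i).1.red (p i)) = -1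
  nss : ∀ i x, x ∉ SS i → (r : ℤ) ∣ ord x ((u i).1.red (p i))
  ne : ∀ i, (SS i).Nonempty
  le : ∀ i, cd C T ≤ (SS i).card
  r2 : 2 ≤ r
  sep : ∀ b b' : Br C T, b.w = b'.w → Glue b b' → b = b'

end igusa

end Vale.Agent.P027M.I
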