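import Vale.Agent.P027M.I.Basic

/-!
# P027 route M, block I: functions constant on classes are values of global functions
-/

set_option linter.unusedSectionVars false

noncomputable section

open IntermediateField Vale.Agent.P019P P025H746 P025H492 Module

namespace Vale.Agent.P027M.I

theorem sepf : SEPF := by
  intro C F _ _ _ _ _ _ T _ S φ
  classical
  induction S using Finset.induction_on with
  | empty => exact fun _ => ⟨0, BB.zero, by simp⟩
  | insert b₀ S _ ih =>
    intro h
    obtain ⟨f, hf, e⟩ := ih fun b hb b' hb' =>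
      h b (Finset.mem_insert_of_mem hb) b' (Finset.mem_insert_of_mem hb')
    by_cases c : ∃ b ∈ S, Glue b₀ b
    · obtain ⟨b, hb, g⟩ := c
      refine ⟨f, hf, Finset.forall_mem_insert _ _ _ |>.2 ⟨?_, e⟩⟩
      rw [g f hf, e b hb, h b₀ (Finset.mem_insert_self _ _) b (Finset.mem_insert_of_mem hb) g]
    · have ex : ∀ b, ∃ g, BB C T g ∧ b₀.ev (redv C T g) ≠ 0 ∧
          (b ∈ S → b.ev (redv C T g) = 0) := fun b => by
        by_cases hb : b ∈ S
        · obtain ⟨g, hg⟩ := not_forall.1 (show ¬ Glue b₀ b from fun q => c ⟨b, hb, q⟩)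
          obtain ⟨g1, g2⟩ := Classical.not_imp.1 hg
          obtain ⟨a, a1, a2⟩ := cred_surj (b.ev (redv C T g))
          refine ⟨g - algebraMap C F a, g1.sub (BB.const a1), ?_, fun _ => ?_⟩
          · rw [evB_sub b₀ g1 (BB.const a1), evB_const b₀ a1, a2]
            exact sub_ne_zero.2 g2
          · rw [evB_sub b g1 (BB.const a1), evB_const b a1, a2, sub_self]
        · obtain ⟨a, a1, a2⟩ := cred_surj (1 : kC C)
          exact ⟨_, BB.const a1, by rw [evB_const b₀ a1, a2]; exact one_ne_zero,
            fun q => absurd q hb⟩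
      choose g g1 g2 g3 using ex
      have G := BB.prod S g fun b _ => g1 b
      obtain ⟨a, a1, a2⟩ := cred_surj ((φ b₀ - b₀.ev (redv C T f)) /
        ∏ b ∈ S, b₀.ev (redv C T (g b)))
      have ev : ∀ b : Br C T, b.ev (redv C T (f + algebraMap C F a * ∏ b ∈ S, g b)) =
          b.ev (redv C T f) + cred a * ∏ b' ∈ S, b.ev (redv C T (g b')) := fun b => by
        rw [evB_add b hf ((BB.const a1).mul G), evB_mul b (BB.const a1) G, evB_const b a1,
          evB_prod b S g fun b _ => g1 b]
      refine ⟨_, hf.add ((BB.const a1).mul G),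
        Finset.forall_mem_insert _ _ _ |>.2 ⟨?_, fun b hb => ?_⟩⟩
      · rw [ev, a2, div_mul_cancel₀ _ (Finset.prod_ne_zero_iff.2 fun b _ => g2 b), add_sub_cancel]
      · rw [ev, Finset.prod_eq_zero hb (g3 b hb), mul_zero, add_zero, e b hb]

end Vale.Agent.P027M.I
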