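import Vale.Agent.P027M.I.Half
import Vale.Agent.P027M.I.Basic

/-!
# P027 route M, block I: criterion for nodal curves without the count (row I.VAN2)
-/

set_option linter.unusedSectionVars false

noncomputable section

open IntermediateField Vale.Agent.P019P P025H746 P025H492 Module

namespace Vale.Agent.P027M.I

namespace Van2b

open Classical in
/-- the count -/
theorem core {k V σ : Type} [Field k] [AddCommGroup V] [Module k V] [Fintype σ]
    (P E : Submodule k V) [FiniteDimensional k P] (hE : E ≤ P) (ev : P →ₗ[k] (σ → k))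
    (G : Setoid σ) (h2 : ∀ a b b', G a b → G a b' → b = a ∨ b' = a ∨ b = b')
    (hc : ∀ y : P, (∀ a b, G a b → ev y a = ev y b) → (y : V) ∈ E) {c : ℤ}
    (hd : (finrank k P : ℤ) - finrank k E = c) :
    2 * c ≤ (Finset.univ.filter fun a => ∃ b, b ≠ a ∧ G a b).card := by
  let ι : (Quotient G → k) →ₗ[k] (σ → k) := LinearMap.funLeft k k (Quotient.mk G)
  have ιi : Function.Injective ι :=
    LinearMap.funLeft_injective_of_surjective k k _ Quotient.mk_surjective
  have hW : ∀ f ∈ LinearMap.range ι, ∀ a b, G a b → f a = f b := by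
    rintro _ ⟨g, rfl⟩ a b h
    exact congrArg g (Quotient.sound h)
  have d1 : finrank k (LinearMap.range ι) = Fintype.card (Quotient G) := by
    rw [LinearMap.finrank_range_of_inj ιi, Module.finrank_fintype_fun_eq_card]
  let pr := (LinearMap.range ι).mkQ ∘ₗ ev
  have kp : ∀ y : P, y ∈ LinearMap.ker pr ↔ ev y ∈ LinearMap.range ι := fun y =>
    Submodule.Quotient.mk_eq_zero _
  have d2 := LinearMap.finrank_range_add_finrank_ker pr
  have d6 := Submodule.finrank_le (LinearMap.range pr)
  have d3 := Submodule.finrank_quotient_add_finrank (LinearMap.range ι)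
  rw [d1, Module.finrank_fintype_fun_eq_card] at d3
  have le : LinearMap.ker pr ≤ E.comap P.subtype := fun y hy => hc y (hW _ ((kp y).1 hy))
  have d4 : finrank k (E.comap P.subtype) = finrank k E :=
    (Submodule.comapSubtypeEquivOfLe hE).finrank_eq
  have d5 := Submodule.finrank_mono le
  have f0 : Fintype.card σ =
      ∑ q : Quotient G, (Finset.univ.filter fun a => Quotient.mk G a = q).card :=
    Finset.card_eq_sum_card_fiberwise fun a _ => Finset.mem_univ _
  have f1 : (Finset.univ.filter fun a => ∃ b, b ≠ a ∧ G a b).card =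
      ∑ q : Quotient G, ((Finset.univ.filter fun a => ∃ b, b ≠ a ∧ G a b).filter
        fun a => Quotient.mk G a = q).card :=
    Finset.card_eq_sum_card_fiberwise fun a _ => Finset.mem_univ _
  have f2 : ∀ q : Quotient G, 2 * (Finset.univ.filter fun a => Quotient.mk G a = q).card ≤
      ((Finset.univ.filter fun a => ∃ b, b ≠ a ∧ G a b).filter
        fun a => Quotient.mk G a = q).card + 2 := by
    intro q
    by_cases h1 : (Finset.univ.filter fun a => Quotient.mk G a = q).card ≤ 1
    · omega
    have h3 : (Finset.univ.filter fun a => Quotient.mk G a = q).card ≤ 2 := by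
      by_contra h
      obtain ⟨a, b, b', ha, hb, hb', n1, n2, n3⟩ := Finset.two_lt_card_iff.1 (not_le.1 h)
      simp only [Finset.mem_filter, Finset.mem_univ, true_and] at ha hb hb'
      rcases h2 a b b' (Quotient.exact (ha.trans hb.symm)) (Quotient.exact (ha.trans hb'.symm))
        with e | e | e
      exacts [n1 e.symm, n2 e.symm, n3 e]
    have h4 : (Finset.univ.filter fun a => Quotient.mk G a = q) ⊆
        ((Finset.univ.filter fun a => ∃ b, b ≠ a ∧ G a b).filter
          fun a => Quotient.mk G a = q) := by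
      intro a ha
      obtain ⟨b, hb, ne⟩ := Finset.exists_mem_ne (not_le.1 h1) a
      simp only [Finset.mem_filter, Finset.mem_univ, true_and] at ha hb ⊢
      exact ⟨⟨b, ne, Quotient.exact (ha.trans hb.symm)⟩, ha⟩
    have h5 := Finset.card_le_card h4
    omega
  have f3 := Finset.sum_le_sum fun q (_ : q ∈ Finset.univ) => f2 q
  have f4 : ∑ _q : Quotient G, 2 = 2 * Fintype.card (Quotient G) := by simp [mul_comm]
  rw [← Finset.mul_sum, Finset.sum_add_distrib, ← f0, ← f1, f4] at f3
  omega

end Van2b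

theorem van2b (cod : COD) (onto : ONTO) (sepf : SEPF) : VAN2 := by
  classical
  intro C F _ _ _ _ _ _ T _ hF S hS h2
  obtain ⟨n₁, h₁⟩ := cod C F T hF
  obtain ⟨n₂, h₂⟩ := hS
  have pair : ∀ b ∈ S.filter (fun b => ∃ b' ∈ S, b' ≠ b ∧ Glue b b'),
      ∃ b' ∈ S.filter (fun b => ∃ b' ∈ S, b' ≠ b ∧ Glue b b'), b' ≠ b ∧ Glue b b' := by
    intro b hb
    obtain ⟨h0, b', h1, h3, h4⟩ := Finset.mem_filter.1 hb
    exact ⟨b', Finset.mem_filter.2 ⟨h1, b, h0, h3.symm, h4.symm⟩, h3, h4⟩
  refine ⟨_, le_antisymm (half cod onto C F T hF _ pair) ?_, pair⟩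
  have ex : ∀ q : Quotient (Acl.gl S), ∃ (y : PP C T) (n : ℕ), y ∈ En C T n ∧
      ∀ b : S, b.1.ev y = if Quotient.mk (Acl.gl S) b = q then 1 else 0 := by
    intro q
    obtain ⟨f, hf, e⟩ := sepf C F T S
      (fun b => if h : b ∈ S then (if Quotient.mk (Acl.gl S) ⟨b, h⟩ = q then 1 else 0) else 0)
      (fun b hb b' hb' h => by
        have e : Quotient.mk (Acl.gl S) ⟨b, hb⟩ = Quotient.mk (Acl.gl S) ⟨b', hb'⟩ :=
          Quotient.sound h
        simp only [dif_pos hb, dif_pos hb', e])
    obtain ⟨n, hn⟩ := hf.exists_En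
    exact ⟨_, n, hn, fun b => (e b.1 b.2).trans (dif_pos b.2)⟩
  choose y n hy e using ex
  let N := max (max n₁ n₂) (Finset.univ.sup n)
  have hN : ∀ q, y q ∈ En C T N := fun q =>
    En_mono ((Finset.le_sup (f := n) (Finset.mem_univ q)).trans (le_max_right _ _)) (hy q)
  have key := Van2b.core (Pn C T N) (En C T N) (En_le_Pn _) (Acl.evS S N) (Acl.gl S)
    (fun a b b' h h' => (h2 a.1 a.2 b.1 b.2 b'.1 b'.2 h h').imp Subtype.ext
      (Or.imp Subtype.ext Subtype.ext))
    (fun z hz => by
      let φ : Quotient (Acl.gl S) → kC C := Quotient.lift (Acl.evS S N z) hz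
      let t : Pn C T N := ∑ q, φ q • (⟨y q, En_le_Pn _ (hN q)⟩ : Pn C T N)
      have ht : (t : PP C T) ∈ En C T N := by
        simp only [t, Submodule.coe_sum, Submodule.coe_smul]
        exact Submodule.sum_mem _ fun q _ => Submodule.smul_mem _ _ (hN q)
      have h0 : Acl.evS S N (z - t) = 0 := by
        funext b
        have e1 : ∀ q, Acl.evS S N (⟨y q, En_le_Pn _ (hN q)⟩ : Pn C T N) b =
          if Quotient.mk (Acl.gl S) b = q then 1 else 0 := fun q => e q b
        simp only [t, map_sub, map_sum, map_smul, Pi.sub_apply, Finset.sum_apply, Pi.smul_apply,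
          e1, smul_eq_mul, mul_ite, mul_one, mul_zero, Finset.sum_ite_eq, Finset.mem_univ,
          if_true, Pi.zero_apply]
        exact sub_self _
      have h3 := h₂ N ((le_max_right n₁ n₂).trans (le_max_left _ _)) _ (z - t).2
        fun b hb => congrFun h0 ⟨b, hb⟩
      have h4 := add_mem h3 ht
      rwa [Submodule.coe_sub, sub_add_cancel] at h4)
    (h₁ N ((le_max_left n₁ n₂).trans (le_max_left _ _)))
  refine key.trans (Int.ofNat_le.2 (Finset.card_le_card_of_injOn Subtype.val ?_
    Subtype.val_injective.injOn))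
  intro a ha
  simp only [Finset.coe_filter, Finset.mem_univ, true_and, Set.mem_ofPred_eq] at ha
  obtain ⟨b, ne, h⟩ := ha
  exact Finset.mem_coe.2 (Finset.mem_filter.2 ⟨a.2, b.1, b.2, fun e => ne (Subtype.ext e), h⟩)

end Vale.Agent.P027M.I
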